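-- KEEP
import Mathlib

/-!
# Row 289 (S0537), unit S6B = Cardy paper Section 6, SECOND HALF (additive chunks, mixed atoms): THE DETERMINISTIC PART.      Prefix `pvb_`, `Pvb`, `pvb`.
Architect + prover of this file: helper210 (drafts `origin/helper210:notes/R289/lean/*`, note `origin/helper210:notes/R289/s6b_210.md`); moved to main by helper56.     0 sorry, Mathlib only.

GEOMETRY-FREE: a rim is a closed path of vertices in `ℂ`, cut at a vertex outside `B(x,4R)`, with one tag per edge.   No planarity, no colours, no Poisson structure.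
EXPORTS: `pvb_coeff` (DT1 = 6.4 + the deterministic half of 6.5: the adaptive coefficients), `pvb_dyadic` (DT2 = 6.5: stopped atoms).   Consumer: `R289/S6b/Main.lean`.
-/

set_option autoImplicit false

namespace Claimed.Agent.R289

open MeasureTheory Filter Topology Finset

/-! ## 0. ordered limits -/

/-- `p m n → 0` in the ORDERED limit: first `n → ∞` (`ε ↓ 0`) at fixed `m`, then `m → ∞` (`h ↓ 0`) -/
def PvbOrd (p : ℕ → ℕ → ℝ) : Prop := ∀ η : ℝ, 0 < η → ∀ᶠ m in atTop, ∀ᶠ n in atTop, p m n ≤ η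

/-! ## 1. rims, pins -/

/-- a rim, cut at `v 0 = v len`; edge `k < len` goes from `v k` to `v (k+1)`, its right tag has barycentre `z k` and field values `xQ k`, `xV k` -/
structure PvbRim where
  len : ℕ
  v : ℕ → ℂ
  z : ℕ → ℂ
  xQ : ℕ → ℂ
  xV : ℕ → ℂ

/-- `X_P(g)` -/
def PvbRim.fld (P : PvbRim) (x : ℕ → ℂ) (g : ℂ → ℂ) : ℂ := ∑ k ∈ range P.len, g (P.z k) * x k

/-- the numbers of the finite normalised menu which S6b uses -/
structure PvbMenu (τ : Type) where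
  mc : τ → ℝ
  b2 : τ → ℝ
  a3 : τ → ℝ
  L : ℝ
  mc_gt : ∀ t, 100 < mc t
  mc_lt : ∀ t, mc t < b2 t / 10
  a3_gt : ∀ t, 100 * b2 t < a3 t
  a3_le : ∀ t, a3 t ≤ L

/-- a pin: index of the marked vertex, grid centre, menu type -/
structure PvbPin (τ : Type) where
  idx : ℕ
  ctr : ℂ
  typ : τ

/-- what S6b uses of Definition `qualified pin` -/
structure PvbIsPin {τ : Type} (𝔐 : PvbMenu τ) (h : ℝ) (P : PvbRim) (s : PvbPin τ) : Prop where
  idx_lt : s.idx < P.len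
  near : ‖P.v s.idx - s.ctr‖ ≤ h
  trap : ∃ lo hi : ℕ, lo ≤ s.idx ∧ s.idx ≤ hi ∧ hi ≤ P.len ∧
    (∀ i ≤ P.len, ‖P.v i - s.ctr‖ < 𝔐.a3 s.typ * h → lo ≤ i ∧ i ≤ hi) ∧
    (∀ i i', lo ≤ i → i ≤ hi → lo ≤ i' → i' ≤ hi → ‖P.v i - P.v i'‖ ≤ 2 * 𝔐.L * h)

/-- `w` lies in the cut-off ball of centre `g`, type `t` -/
def PvbInCut {τ : Type} (𝔐 : PvbMenu τ) (h : ℝ) (g : ℂ) (t : τ) (w : ℂ) : Prop := ‖w - g‖ ≤ 𝔐.mc t * h

open Classical in
/-- `I_X(P;s,t)`: the WHOLE rim mass in the start cut-off, plus the edges of the forward arc with tag outside both cut-offs -/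
noncomputable def pvbArcI {τ : Type} (𝔐 : PvbMenu τ) (h : ℝ) (P : PvbRim) (x : ℕ → ℂ) (s t : PvbPin τ) : ℂ :=
  ∑ k ∈ (range P.len).filter (fun k => PvbInCut 𝔐 h s.ctr s.typ (P.z k)), x k +
  ∑ k ∈ (Ico s.idx t.idx).filter (fun k => ¬ PvbInCut 𝔐 h s.ctr s.typ (P.z k) ∧ ¬ PvbInCut 𝔐 h t.ctr t.typ (P.z k)), x k

/-- two visits to `B(y,s)` separated by a departure beyond `S` (the other arc runs through the cut vertex, outside `B(x,4R)`) -/
def PvbNearRet (P : PvbRim) (y : ℂ) (s S : ℝ) : Prop :=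
  ∃ k i k', k < i ∧ i < k' ∧ k' ≤ P.len ∧ ‖P.v k - y‖ ≤ s ∧ ‖P.v k' - y‖ ≤ s ∧ S < ‖P.v i - y‖

/-- `P` visits `B(y,s)` -/
def PvbVisits (P : PvbRim) (y : ℂ) (s : ℝ) : Prop := ∃ k ≤ P.len, ‖P.v k - y‖ ≤ s

/-- the deterministic facts on one rim on the good event (mesh, pins, density) -/
structure PvbRimGood {τ : Type} (𝔐 : PvbMenu τ) (x : ℂ) (R h r μ : ℝ) (P : PvbRim) (pins : Set (PvbPin τ)) : Prop where
  closed : P.v P.len = P.v 0
  far : 4 * R ≤ ‖P.v 0 - x‖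
  mesh_v : ∀ k < P.len, (‖P.v k - x‖ ≤ 5 * R ∨ ‖P.v (k + 1) - x‖ ≤ 5 * R) → ‖P.v (k + 1) - P.v k‖ ≤ μ
  mesh_z : ∀ k < P.len, (‖P.v k - x‖ ≤ 5 * R ∨ ‖P.z k - x‖ ≤ 5 * R) → ‖P.z k - P.v k‖ ≤ μ
  pin : ∀ s ∈ pins, PvbIsPin 𝔐 h P s
  dense : ∀ i i', i ≤ i' → i' ≤ P.len → (∀ k, i ≤ k → k ≤ i' → ‖P.v k - x‖ ≤ 2 * R) → r ≤ ‖P.v i' - P.v i‖ →
    ∃ s ∈ pins, i ≤ s.idx ∧ s.idx ≤ i'

/-- the real-arc inequality for the field `y` (in the application `y = xQ - a xV`), base potential `β`, terminal potential `Ψ (centre) (type)` -/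
def PvbRealArc {τ : Type} (𝔐 : PvbMenu τ) (x : ℂ) (R h : ℝ) (P : PvbRim) (pins : Set (PvbPin τ)) (y : ℕ → ℂ) (β : PvbPin τ → ℂ)
    (Ψ : ℂ → τ → ℂ) (Err : ℝ) : Prop :=
  ∀ s ∈ pins, ∀ t ∈ pins, s.idx < t.idx → (∀ k, s.idx ≤ k → k ≤ t.idx → ‖P.v k - x‖ ≤ 2 * R) → R / 3 ≤ ‖s.ctr - t.ctr‖ →
    ‖pvbArcI 𝔐 h P y s t - β s - Ψ t.ctr t.typ‖ ≤ Err

/-- numerical relations between the scales -/
structure PvbPar {τ : Type} (𝔐 : PvbMenu τ) (R h r μ : ℝ) : Prop where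
  mu0 : 0 ≤ μ
  mu_h : μ ≤ h / 10
  h0 : 0 < h
  Lh_r : 4 * 𝔐.L * h ≤ r
  r_R : 100 * r ≤ R

/-- the test function -/
structure PvbTest (x : ℂ) (R Cf : ℝ) (f : ℂ → ℂ) : Prop where
  supp : ∀ w, R ≤ ‖w - x‖ → f w = 0
  lip : ∀ w w', ‖f w - f w'‖ ≤ Cf * ‖w - w'‖
  Cf0 : 0 ≤ Cf

/-- same membership in all candidate cut-off balls -/
def PvbSamePat {τ : Type} (𝔐 : PvbMenu τ) (h : ℝ) (Gr : Finset ℂ) (w w' : ℂ) : Prop :=
  ∀ g ∈ Gr, ∀ t, PvbInCut 𝔐 h g t w ↔ PvbInCut 𝔐 h g t w'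

/-! ## DT1, part 1: numbers, first hits, separation of pins -/

theorem pvb_first {p : ℕ → Prop} {a b : ℕ} (hab : a ≤ b) (hb : p b) :
    ∃ t, a ≤ t ∧ t ≤ b ∧ p t ∧ ∀ k, a ≤ k → k < t → ¬ p k := by
  classical
  have hex : ∃ t, a ≤ t ∧ p t := ⟨b, hab, hb⟩
  refine ⟨Nat.find hex, (Nat.find_spec hex).1, Nat.find_min' hex ⟨hab, hb⟩, (Nat.find_spec hex).2, ?_⟩
  intro k hk hlt hp
  exact Nat.find_min hex hlt ⟨hk, hp⟩

theorem pvb_last {p : ℕ → Prop} {a b : ℕ} (hab : a ≤ b) (ha : p a) :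
    ∃ t, a ≤ t ∧ t ≤ b ∧ p t ∧ ∀ k, t < k → k ≤ b → ¬ p k := by
  classical
  obtain ⟨u, -, hu2, hu3, hu4⟩ := pvb_first (p := fun i => p (b - i)) (a := 0) (b := b - a) (Nat.zero_le _)
    (by show p (b - (b - a)); rw [Nat.sub_sub_self hab]; exact ha)
  refine ⟨b - u, by omega, Nat.sub_le _ _, hu3, ?_⟩
  intro k hk hkb hp
  refine hu4 (b - k) (Nat.zero_le _) (by omega) ?_
  show p (b - (b - k))
  rw [Nat.sub_sub_self hkb]
  exact hp

section menu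

variable {τ : Type} (𝔐 : PvbMenu τ)

theorem PvbMenu.b2_gt (t : τ) : 1000 < 𝔐.b2 t := by
  have h1 := 𝔐.mc_gt t
  have h2 := 𝔐.mc_lt t
  linarith

theorem PvbMenu.a3_gt' (t : τ) : 100000 < 𝔐.a3 t := by
  have h1 := 𝔐.b2_gt t
  have h2 := 𝔐.a3_gt t
  linarith

theorem PvbMenu.mc_lt_a3 (t : τ) : 𝔐.mc t + 1 < 𝔐.a3 t := by
  have h1 := 𝔐.b2_gt t
  have h2 := 𝔐.a3_gt t
  have h3 := 𝔐.mc_lt t
  linarith

theorem PvbMenu.mc_le_L (t : τ) : 𝔐.mc t + 1 ≤ 𝔐.L := ((𝔐.mc_lt_a3 t).trans_le (𝔐.a3_le t)).le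

end menu

section sep

variable {τ : Type} {𝔐 : PvbMenu τ} {h : ℝ} {P : PvbRim}

/-- two pins in order, the arc between them is too large for a trap arc -/
def PvbPinSep (𝔐 : PvbMenu τ) (h : ℝ) (P : PvbRim) (s t : PvbPin τ) : Prop :=
  s.idx < t.idx ∧ ∃ k k', s.idx ≤ k ∧ k ≤ t.idx ∧ s.idx ≤ k' ∧ k' ≤ t.idx ∧ 2 * 𝔐.L * h < ‖P.v k - P.v k'‖

theorem PvbPinSep.left {s t : PvbPin τ} (hs : PvbIsPin 𝔐 h P s) (hst : PvbPinSep 𝔐 h P s t) {i : ℕ} (hi : i ≤ P.len)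
    (hn : ‖P.v i - s.ctr‖ < 𝔐.a3 s.typ * h) : i < t.idx := by
  obtain ⟨lo, hi', h1, h2, h3, h4, h5⟩ := hs.trap
  obtain ⟨hlt, k, k', a1, a2, a3, a4, a5⟩ := hst
  obtain ⟨b1, b2⟩ := h4 i hi hn
  by_contra hcon
  have hcon' : t.idx ≤ i := not_lt.1 hcon
  have := h5 k k' (h1.trans a1) (a2.trans (hcon'.trans b2)) (h1.trans a3) (a4.trans (hcon'.trans b2))
  linarith

theorem PvbPinSep.right {s t : PvbPin τ} (ht : PvbIsPin 𝔐 h P t) (hst : PvbPinSep 𝔐 h P s t) {i : ℕ} (hi : i ≤ P.len)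
    (hn : ‖P.v i - t.ctr‖ < 𝔐.a3 t.typ * h) : s.idx < i := by
  obtain ⟨lo, hi', h1, h2, h3, h4, h5⟩ := ht.trap
  obtain ⟨hlt, k, k', a1, a2, a3, a4, a5⟩ := hst
  obtain ⟨b1, b2⟩ := h4 i hi hn
  by_contra hcon
  have hcon' : i ≤ s.idx := not_lt.1 hcon
  have := h5 k k' ((b1.trans hcon').trans a1) (a2.trans h2) ((b1.trans hcon').trans a3) (a4.trans h2)
  linarith

theorem PvbPinSep.far_left {s t : PvbPin τ} (hs : PvbIsPin 𝔐 h P s) (ht : PvbIsPin 𝔐 h P t) (hst : PvbPinSep 𝔐 h P s t) :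
    𝔐.a3 s.typ * h ≤ ‖P.v t.idx - s.ctr‖ := by
  by_contra hcon
  exact lt_irrefl _ (hst.left hs ht.idx_lt.le (not_le.1 hcon))

theorem PvbPinSep.far_right {s t : PvbPin τ} (hs : PvbIsPin 𝔐 h P s) (ht : PvbIsPin 𝔐 h P t) (hst : PvbPinSep 𝔐 h P s t) :
    𝔐.a3 t.typ * h ≤ ‖P.v s.idx - t.ctr‖ := by
  by_contra hcon
  exact lt_irrefl _ (hst.right ht hs.idx_lt.le (not_le.1 hcon))

/-- the cut-off balls of separated pins are disjoint -/
theorem PvbPinSep.disj {s t : PvbPin τ} (h0 : 0 < h) (hs : PvbIsPin 𝔐 h P s) (ht : PvbIsPin 𝔐 h P t) (hst : PvbPinSep 𝔐 h P s t) (w : ℂ)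
    (h1 : PvbInCut 𝔐 h s.ctr s.typ w) (h2 : PvbInCut 𝔐 h t.ctr t.typ w) : False := by
  unfold PvbInCut at h1 h2
  have hc : ‖s.ctr - t.ctr‖ ≤ 𝔐.mc s.typ * h + 𝔐.mc t.typ * h := by
    calc ‖s.ctr - t.ctr‖ = ‖(w - t.ctr) - (w - s.ctr)‖ := by ring_nf
      _ ≤ ‖w - t.ctr‖ + ‖w - s.ctr‖ := norm_sub_le _ _
      _ ≤ 𝔐.mc s.typ * h + 𝔐.mc t.typ * h := by linarith
  have ms := 𝔐.mc_lt s.typ
  have mt := 𝔐.mc_lt t.typ
  have bs := 𝔐.b2_gt s.typ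
  have bt := 𝔐.b2_gt t.typ
  have as := 𝔐.a3_gt s.typ
  have at' := 𝔐.a3_gt t.typ
  rcases le_total (𝔐.b2 t.typ) (𝔐.b2 s.typ) with hb | hb
  · have h3 := hst.far_left hs ht
    have h4 : ‖P.v t.idx - s.ctr‖ ≤ h + (𝔐.mc s.typ * h + 𝔐.mc t.typ * h) := by
      calc ‖P.v t.idx - s.ctr‖ = ‖(P.v t.idx - t.ctr) - (s.ctr - t.ctr)‖ := by ring_nf
        _ ≤ ‖P.v t.idx - t.ctr‖ + ‖s.ctr - t.ctr‖ := norm_sub_le _ _
        _ ≤ h + (𝔐.mc s.typ * h + 𝔐.mc t.typ * h) := add_le_add ht.near hc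
    nlinarith
  · have h3 := hst.far_right hs ht
    have h4 : ‖P.v s.idx - t.ctr‖ ≤ h + (𝔐.mc s.typ * h + 𝔐.mc t.typ * h) := by
      calc ‖P.v s.idx - t.ctr‖ = ‖(P.v s.idx - s.ctr) + (s.ctr - t.ctr)‖ := by ring_nf
        _ ≤ ‖P.v s.idx - s.ctr‖ + ‖s.ctr - t.ctr‖ := norm_add_le _ _
        _ ≤ h + (𝔐.mc s.typ * h + 𝔐.mc t.typ * h) := add_le_add hs.near hc
    nlinarith

theorem PvbPinSep.ctr_ne {s t : PvbPin τ} (h0 : 0 < h) (hs : PvbIsPin 𝔐 h P s) (ht : PvbIsPin 𝔐 h P t) (hst : PvbPinSep 𝔐 h P s t) :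
    s.ctr ≠ t.ctr := by
  intro heq
  have h3 := hst.far_left hs ht
  rw [heq] at h3
  have h4 := ht.near
  have h5 := 𝔐.a3_gt' s.typ
  nlinarith

end sep

/-! ## DT1, part 2: tags of a cut-off, excursions, chains of pins -/

section good

variable {τ : Type} {𝔐 : PvbMenu τ} {x : ℂ} {R h r μ : ℝ} {P : PvbRim} {pins : Set (PvbPin τ)}

theorem PvbPar.nums (par : PvbPar 𝔐 R h r μ) (t : τ) : 0 < 𝔐.L ∧ 400000 * h < r ∧ 0 < r ∧ 0 < R ∧ μ ≤ r / 1000000 := by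
  have h1 := 𝔐.a3_gt' t
  have h2 := 𝔐.a3_le t
  have h3 := par.h0
  have h4 := par.Lh_r
  have h5 := par.r_R
  have h6 := par.mu_h
  have hL : 100000 < 𝔐.L := h1.trans_le h2
  have h7 : 400000 * h < r := by nlinarith
  refine ⟨by linarith, h7, by linarith, by linarith, by linarith⟩

/-- the vertices of an edge tagged in the cut-off of a pin lie in the trap ball -/
theorem pvb_tag_near (par : PvbPar 𝔐 R h r μ) (hP : PvbRimGood 𝔐 x R h r μ P pins) {s : PvbPin τ} (hs : s ∈ pins)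
    (hin : ‖P.v s.idx - x‖ ≤ 2 * R) {k : ℕ} (hk : k < P.len) (hc : PvbInCut 𝔐 h s.ctr s.typ (P.z k)) :
    ‖P.z k - P.v k‖ ≤ μ ∧ ‖P.v k - s.ctr‖ < 𝔐.a3 s.typ * h ∧ ‖P.v (k + 1) - s.ctr‖ < 𝔐.a3 s.typ * h := by
  obtain ⟨hL, hr, hr0, hR, hμ⟩ := par.nums s.typ
  have h0 := par.h0
  have hμh := par.mu_h
  have hμ0 := par.mu0
  have hpin := hP.pin s hs
  unfold PvbInCut at hc
  have hmL := 𝔐.mc_le_L s.typ
  have hma := 𝔐.mc_lt_a3 s.typ
  have hLr := par.Lh_r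
  have hrR := par.r_R
  have h1 : ‖P.z k - x‖ ≤ 𝔐.mc s.typ * h + h + 2 * R := by
    calc ‖P.z k - x‖ = ‖(P.z k - s.ctr) - (P.v s.idx - s.ctr) + (P.v s.idx - x)‖ := by ring_nf
      _ ≤ ‖(P.z k - s.ctr) - (P.v s.idx - s.ctr)‖ + ‖P.v s.idx - x‖ := norm_add_le _ _
      _ ≤ (‖P.z k - s.ctr‖ + ‖P.v s.idx - s.ctr‖) + ‖P.v s.idx - x‖ := by gcongr; exact norm_sub_le _ _
      _ ≤ 𝔐.mc s.typ * h + h + 2 * R := by linarith [hpin.near]
  have h2 : 𝔐.mc s.typ * h + h ≤ r := by nlinarith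
  have h3 : ‖P.z k - x‖ ≤ 5 * R := by linarith
  have h4 := hP.mesh_z k hk (Or.inr h3)
  have h5 : ‖P.v k - s.ctr‖ ≤ μ + 𝔐.mc s.typ * h := by
    calc ‖P.v k - s.ctr‖ = ‖(P.z k - s.ctr) - (P.z k - P.v k)‖ := by ring_nf
      _ ≤ ‖P.z k - s.ctr‖ + ‖P.z k - P.v k‖ := norm_sub_le _ _
      _ ≤ μ + 𝔐.mc s.typ * h := by linarith
  have h6 : ‖P.v k - x‖ ≤ 5 * R := by
    calc ‖P.v k - x‖ = ‖(P.z k - x) - (P.z k - P.v k)‖ := by ring_nf
      _ ≤ ‖P.z k - x‖ + ‖P.z k - P.v k‖ := norm_sub_le _ _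
      _ ≤ 5 * R := by linarith
  have h7 := hP.mesh_v k hk (Or.inl h6)
  have h8 : ‖P.v (k + 1) - s.ctr‖ ≤ 2 * μ + 𝔐.mc s.typ * h := by
    calc ‖P.v (k + 1) - s.ctr‖ = ‖(P.v (k + 1) - P.v k) + (P.v k - s.ctr)‖ := by ring_nf
      _ ≤ ‖P.v (k + 1) - P.v k‖ + ‖P.v k - s.ctr‖ := norm_add_le _ _
      _ ≤ 2 * μ + 𝔐.mc s.typ * h := by linarith
  refine ⟨h4, ?_, ?_⟩ <;> nlinarith

/-- maximal interval of indices inside the closed ball `B(x,2R)` -/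
structure PvbIsExc (x : ℂ) (R : ℝ) (P : PvbRim) (α ω : ℕ) : Prop where
  pos : 0 < α
  le : α ≤ ω
  lt : ω < P.len
  ins : ∀ k, α ≤ k → k ≤ ω → ‖P.v k - x‖ ≤ 2 * R
  outL : 2 * R < ‖P.v (α - 1) - x‖
  outR : 2 * R < ‖P.v (ω + 1) - x‖

theorem pvb_exc_exists (hR : 0 < R) (hP : PvbRimGood 𝔐 x R h r μ P pins) {k : ℕ} (hk : k ≤ P.len) (hin : ‖P.v k - x‖ ≤ 2 * R) :
    ∃ α ω, PvbIsExc x R P α ω ∧ α ≤ k ∧ k ≤ ω := by
  have hfar := hP.far
  have h0 : 2 * R < ‖P.v 0 - x‖ := by linarith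
  have hl : 2 * R < ‖P.v P.len - x‖ := by rw [hP.closed]; exact h0
  obtain ⟨t, -, ht2, ht3, ht4⟩ := pvb_last (p := fun i => 2 * R < ‖P.v i - x‖) (Nat.zero_le k) h0
  obtain ⟨u, hu1, hu2, hu3, hu4⟩ := pvb_first (p := fun i => 2 * R < ‖P.v i - x‖) hk hl
  have htk : t < k := by
    rcases Nat.lt_or_ge t k with h1 | h1
    · exact h1
    · have : t = k := le_antisymm ht2 h1
      rw [this] at ht3
      exact absurd ht3 (not_lt.2 hin)
  have hku : k < u := by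
    rcases Nat.lt_or_ge k u with h1 | h1
    · exact h1
    · have : u = k := le_antisymm h1 hu1
      rw [this] at hu3
      exact absurd hu3 (not_lt.2 hin)
  refine ⟨t + 1, u - 1, ⟨Nat.succ_pos _, by omega, by omega, ?_, ?_, ?_⟩, by omega, by omega⟩
  · intro i hi1 hi2
    rcases Nat.lt_or_ge k i with h1 | h1
    · exact not_lt.1 (hu4 i h1.le (by omega))
    · exact not_lt.1 (ht4 i (by omega) h1)
  · simpa using ht3
  · have : u - 1 + 1 = u := by omega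
    rw [this]
    exact hu3

theorem PvbIsExc.unique {α ω α' ω' k : ℕ} (e : PvbIsExc x R P α ω) (e' : PvbIsExc x R P α' ω') (h1 : α ≤ k) (h2 : k ≤ ω)
    (h1' : α' ≤ k) (h2' : k ≤ ω') : α = α' ∧ ω = ω' := by
  constructor
  · rcases Nat.lt_trichotomy α α' with hlt | heq | hlt
    · exact absurd (e.ins (α' - 1) (by omega) (by omega)) (not_le.2 e'.outL)
    · exact heq
    · have := e'.pos
      exact absurd (e'.ins (α - 1) (by omega) (by have := e.pos; omega)) (not_le.2 e.outL)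
  · rcases Nat.lt_trichotomy ω ω' with hlt | heq | hlt
    · exact absurd (e'.ins (ω + 1) (by omega) (by omega)) (not_le.2 e.outR)
    · exact heq
    · exact absurd (e.ins (ω' + 1) (by omega) (by omega)) (not_le.2 e'.outR)

theorem PvbIsExc.bdL (hR : 0 < R) (hP : PvbRimGood 𝔐 x R h r μ P pins) {α ω : ℕ} (e : PvbIsExc x R P α ω) : 2 * R - μ < ‖P.v α - x‖ := by
  have h1 := e.ins α le_rfl e.le
  have hα := e.pos
  have h2 := hP.mesh_v (α - 1) (by have := e.le; have := e.lt; omega)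
    (Or.inr (by rw [Nat.sub_add_cancel hα]; linarith))
  rw [Nat.sub_add_cancel hα] at h2
  have h3 : ‖P.v (α - 1) - x‖ ≤ ‖P.v α - x‖ + ‖P.v α - P.v (α - 1)‖ := by
    calc ‖P.v (α - 1) - x‖ = ‖(P.v α - x) - (P.v α - P.v (α - 1))‖ := by ring_nf
      _ ≤ _ := norm_sub_le _ _
  linarith [e.outL]

theorem PvbIsExc.bdR (hR : 0 < R) (hP : PvbRimGood 𝔐 x R h r μ P pins) {α ω : ℕ} (e : PvbIsExc x R P α ω) : 2 * R - μ < ‖P.v ω - x‖ := by
  have h1 := e.ins ω e.le le_rfl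
  have h2 := hP.mesh_v ω e.lt (Or.inl (by linarith))
  have h3 : ‖P.v (ω + 1) - x‖ ≤ ‖P.v ω - x‖ + ‖P.v (ω + 1) - P.v ω‖ := by
    calc ‖P.v (ω + 1) - x‖ = ‖(P.v ω - x) + (P.v (ω + 1) - P.v ω)‖ := by ring_nf
      _ ≤ _ := norm_add_le _ _
  linarith [e.outR]

/-- one step of the mesh inside an excursion -/
theorem PvbIsExc.step (hR : 0 < R) (hP : PvbRimGood 𝔐 x R h r μ P pins) {α ω : ℕ} (e : PvbIsExc x R P α ω) {k : ℕ} (h1 : α ≤ k) (h2 : k ≤ ω) :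
    ‖P.v (k + 1) - P.v k‖ ≤ μ :=
  hP.mesh_v k (lt_of_le_of_lt h2 e.lt) (Or.inl (by linarith [e.ins k h1 h2]))

/-- first passage of a displacement level: the overshoot is at most the mesh -/
theorem PvbIsExc.hit (hR : 0 < R) (hP : PvbRimGood 𝔐 x R h r μ P pins) {α ω : ℕ} (e : PvbIsExc x R P α ω) {κ b : ℕ} {ρ : ℝ} (hρ : 0 < ρ)
    (h1 : α ≤ κ) (h2 : κ ≤ b) (h3 : b ≤ ω) (hb : ρ ≤ ‖P.v b - P.v κ‖) :
    ∃ t, κ < t ∧ t ≤ b ∧ ρ ≤ ‖P.v t - P.v κ‖ ∧ ‖P.v t - P.v κ‖ ≤ ρ + μ ∧ ∀ k, κ ≤ k → k < t → ‖P.v k - P.v κ‖ < ρ := by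
  obtain ⟨t, ht1, ht2, ht3, ht4⟩ := pvb_first (p := fun i => ρ ≤ ‖P.v i - P.v κ‖) h2 hb
  have hκt : κ < t := by
    rcases Nat.lt_or_ge κ t with h | h
    · exact h
    · have : t = κ := le_antisymm h ht1
      rw [this, sub_self, norm_zero] at ht3
      exact absurd ht3 (not_le.2 hρ)
  refine ⟨t, hκt, ht2, ht3, ?_, fun k hk1 hk2 => not_le.1 (ht4 k hk1 hk2)⟩
  have h4 := not_le.1 (ht4 (t - 1) (by omega) (by omega))
  have h5 := e.step hR hP (k := t - 1) (by omega) (by omega)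
  have h6 : t - 1 + 1 = t := by omega
  rw [h6] at h5
  calc ‖P.v t - P.v κ‖ = ‖(P.v (t - 1) - P.v κ) + (P.v t - P.v (t - 1))‖ := by ring_nf
    _ ≤ ‖P.v (t - 1) - P.v κ‖ + ‖P.v t - P.v (t - 1)‖ := norm_add_le _ _
    _ ≤ ρ + μ := by linarith

/-- the next pin -/
theorem pvb_next_pin (par : PvbPar 𝔐 R h r μ) (hP : PvbRimGood 𝔐 x R h r μ P pins) (t0 : τ) {α ω : ℕ} (e : PvbIsExc x R P α ω) {κ : ℕ}
    (h1 : α ≤ κ) (hex : ∃ b, κ ≤ b ∧ b ≤ ω ∧ 4 * r ≤ ‖P.v b - P.v κ‖) :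
    ∃ s ∈ pins, κ < s.idx ∧ s.idx ≤ ω ∧ (∀ k, κ ≤ k → k ≤ s.idx → ‖P.v k - P.v κ‖ ≤ 4 * r + μ) ∧
      ∃ k, κ < k ∧ k ≤ s.idx ∧ 2 * r ≤ ‖P.v k - P.v κ‖ := by
  obtain ⟨hL, hr, hr0, hR, hμ⟩ := par.nums t0
  obtain ⟨b, hb1, hb2, hb3⟩ := hex
  obtain ⟨t4, a1, a2, a3, a4, a5⟩ := e.hit hR hP (ρ := 4 * r) (by linarith) h1 hb1 hb2 hb3
  obtain ⟨t2, c1, c2, c3, c4, c5⟩ := e.hit hR hP (ρ := 2 * r) (by linarith) h1 a1.le (a2.trans hb2) (by linarith)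
  have hd : r ≤ ‖P.v t4 - P.v t2‖ := by
    have : ‖P.v t4 - P.v κ‖ ≤ ‖P.v t4 - P.v t2‖ + ‖P.v t2 - P.v κ‖ := by
      calc ‖P.v t4 - P.v κ‖ = ‖(P.v t4 - P.v t2) + (P.v t2 - P.v κ)‖ := by ring_nf
        _ ≤ _ := norm_add_le _ _
    linarith
  obtain ⟨s, hs, hs1, hs2⟩ := hP.dense t2 t4 c2 ((a2.trans hb2).trans e.lt.le)
    (fun k hk1 hk2 => e.ins k (by omega) (by omega)) hd
  refine ⟨s, hs, by omega, by omega, ?_, t2, c1, hs1, c3⟩
  intro k hk1 hk2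
  rcases Nat.lt_or_ge k t4 with hlt | hge
  · linarith [a5 k hk1 hlt, par.mu0]
  · have : k = t4 := by omega
    rw [this]
    exact a4

/-- a chain of pins along an excursion -/
structure PvbPinChain (𝔐 : PvbMenu τ) (r μ : ℝ) (P : PvbRim) (pins : Set (PvbPin τ)) (α ω l : ℕ) (s : ℕ → PvbPin τ) : Prop where
  mem : ∀ i ≤ l, s i ∈ pins
  lo : α ≤ (s 0).idx
  hi : (s l).idx ≤ ω
  lt : ∀ i < l, (s i).idx < (s (i + 1)).idx
  init : ∀ k, α ≤ k → k ≤ (s 0).idx → ‖P.v k - P.v α‖ ≤ 2 * r + μ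
  step : ∀ i < l, ∀ k, (s i).idx ≤ k → k ≤ (s (i + 1)).idx → ‖P.v k - P.v (s i).idx‖ ≤ 4 * r + μ
  dep : ∀ i < l, ∃ k, (s i).idx < k ∧ k ≤ (s (i + 1)).idx ∧ 2 * r ≤ ‖P.v k - P.v (s i).idx‖
  fin : ∀ k, (s l).idx ≤ k → k ≤ ω → ‖P.v k - P.v (s l).idx‖ ≤ 4 * r

theorem pvb_chain_from (par : PvbPar 𝔐 R h r μ) (hP : PvbRimGood 𝔐 x R h r μ P pins) {α ω : ℕ} (e : PvbIsExc x R P α ω) (n : ℕ) :
    ∀ s0 ∈ pins, α ≤ s0.idx → s0.idx ≤ ω → ω - s0.idx ≤ n → ∃ (l : ℕ) (s : ℕ → PvbPin τ), s 0 = s0 ∧ (∀ i ≤ l, s i ∈ pins) ∧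
      (s l).idx ≤ ω ∧ (∀ i < l, (s i).idx < (s (i + 1)).idx) ∧
      (∀ i < l, ∀ k, (s i).idx ≤ k → k ≤ (s (i + 1)).idx → ‖P.v k - P.v (s i).idx‖ ≤ 4 * r + μ) ∧
      (∀ i < l, ∃ k, (s i).idx < k ∧ k ≤ (s (i + 1)).idx ∧ 2 * r ≤ ‖P.v k - P.v (s i).idx‖) ∧
      (∀ k, (s l).idx ≤ k → k ≤ ω → ‖P.v k - P.v (s l).idx‖ ≤ 4 * r) := by
  induction n with
  | zero =>
    intro s0 hs0 h1 h2 h3
    refine ⟨0, fun _ => s0, rfl, fun _ _ => hs0, h2, fun i hi => absurd hi (Nat.not_lt_zero _),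
      fun i hi => absurd hi (Nat.not_lt_zero _), fun i hi => absurd hi (Nat.not_lt_zero _), ?_⟩
    intro k hk1 hk2
    have hk1' : s0.idx ≤ k := hk1
    have : k = s0.idx := by omega
    obtain ⟨_, _, hr0, _, _⟩ := par.nums s0.typ
    show ‖P.v k - P.v s0.idx‖ ≤ 4 * r
    rw [this, sub_self, norm_zero]
    linarith
  | succ n ih =>
    intro s0 hs0 h1 h2 h3
    by_cases hex : ∃ b, s0.idx ≤ b ∧ b ≤ ω ∧ 4 * r ≤ ‖P.v b - P.v s0.idx‖
    · obtain ⟨s1, hs1, a1, a2, a3, a4⟩ := pvb_next_pin par hP s0.typ e h1 hex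
      obtain ⟨l, s, b0, b1, b2, b3, b4, b5, b6⟩ := ih s1 hs1 (by omega) a2 (by omega)
      refine ⟨l + 1, fun i => Nat.casesOn i s0 s, rfl, ?_, b2, ?_, ?_, ?_, b6⟩
      · intro i hi
        cases i with
        | zero => exact hs0
        | succ i => exact b1 i (by omega)
      · intro i hi
        cases i with
        | zero => show s0.idx < (s 0).idx; rw [b0]; exact a1
        | succ i => exact b3 i (by omega)
      · intro i hi
        cases i with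
        | zero => show ∀ k, s0.idx ≤ k → k ≤ (s 0).idx → _; rw [b0]; exact a3
        | succ i => exact b4 i (by omega)
      · intro i hi
        cases i with
        | zero => show ∃ k, s0.idx < k ∧ k ≤ (s 0).idx ∧ _; rw [b0]; exact a4
        | succ i => exact b5 i (by omega)
    · refine ⟨0, fun _ => s0, rfl, fun _ _ => hs0, h2, fun i hi => absurd hi (Nat.not_lt_zero _),
        fun i hi => absurd hi (Nat.not_lt_zero _), fun i hi => absurd hi (Nat.not_lt_zero _), ?_⟩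
      intro k hk1 hk2
      by_contra hcon
      exact hex ⟨k, hk1, hk2, (not_le.1 hcon).le⟩

/-- **pin selection** on an excursion which meets `B(x,3R/2)` -/
theorem pvb_chain_exists (par : PvbPar 𝔐 R h r μ) (hP : PvbRimGood 𝔐 x R h r μ P pins) (t0 : τ) {α ω : ℕ} (e : PvbIsExc x R P α ω)
    (hdeep : ∃ k, α ≤ k ∧ k ≤ ω ∧ ‖P.v k - x‖ ≤ 3 * R / 2 + r) : ∃ (l : ℕ) (s : ℕ → PvbPin τ), PvbPinChain 𝔐 r μ P pins α ω l s := by
  obtain ⟨hL, hr, hr0, hR, hμ⟩ := par.nums t0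
  have hrR := par.r_R
  obtain ⟨k0, k1, k2, k3⟩ := hdeep
  have hb := e.bdL hR hP
  have hfar : 2 * r ≤ ‖P.v k0 - P.v α‖ := by
    have : ‖P.v α - x‖ ≤ ‖P.v k0 - x‖ + ‖P.v k0 - P.v α‖ := by
      calc ‖P.v α - x‖ = ‖(P.v k0 - x) - (P.v k0 - P.v α)‖ := by ring_nf
        _ ≤ _ := norm_sub_le _ _
    linarith
  obtain ⟨t, a1, a2, a3, a4, a5⟩ := e.hit hR hP (ρ := 2 * r) (by linarith) le_rfl k1 k2 hfar
  obtain ⟨s0, hs0, b1, b2⟩ := hP.dense α t a1.le ((a2.trans k2).trans e.lt.le) (fun k hk1 hk2 => e.ins k hk1 (by omega)) (by linarith)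
  obtain ⟨l, s, c0, c1, c2, c3, c4, c5, c6⟩ := pvb_chain_from par hP e (ω - s0.idx) s0 hs0 b1 (by omega) le_rfl
  refine ⟨l, s, c1, by rw [c0]; exact b1, c2, c3, ?_, c4, c5, c6⟩
  intro k hk1 hk2
  rw [c0] at hk2
  rcases Nat.lt_or_ge k t with hlt | hge
  · linarith [a5 k hk1 hlt, par.mu0]
  · have : k = t := by omega
    rw [this]
    exact a4

end good

/-! ## DT1, part 3: chunks, concatenation, Abel summation along one chain -/

theorem pvb_abel (l : ℕ) (F I : ℕ → ℂ) :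
    ∑ i ∈ range l, F i * I i = ∑ j ∈ range l, (F j - F (j + 1)) * ∑ i ∈ range (j + 1), I i + F l * ∑ i ∈ range l, I i := by
  induction l with
  | zero => simp
  | succ l ih =>
    rw [sum_range_succ, ih, sum_range_succ (fun j => (F j - F (j + 1)) * ∑ i ∈ range (j + 1), I i), sum_range_succ I l]
    ring

open Classical in
/-- Abel summation + cancellation of the base term + the estimate at the active changes -/
theorem pvb_abel_bound (l : ℕ) (F I ψ : ℕ → ℂ) (β : ℂ) (Err δ : ℝ) (h0 : F 0 = 0) (hl : F l = 0)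
    (hδ : ∀ j < l, ‖F j - F (j + 1)‖ ≤ δ)
    (hreal : ∀ j < l, F j ≠ F (j + 1) → ‖∑ i ∈ range (j + 1), I i - β - ψ (j + 1)‖ ≤ Err) :
    ‖∑ i ∈ range l, F i * I i‖ ≤ ∑ j ∈ (range l).filter (fun j => F j ≠ F (j + 1)), δ * (Err + ‖ψ (j + 1)‖) := by
  have h1 : ∑ j ∈ range l, (F j - F (j + 1)) = 0 := by
    rw [sum_range_sub', h0, hl, sub_zero]
  have h2 : ∑ i ∈ range l, F i * I i = ∑ j ∈ range l, (F j - F (j + 1)) * (∑ i ∈ range (j + 1), I i - β) := by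
    rw [pvb_abel, hl, zero_mul, add_zero]
    simp only [mul_sub]
    rw [sum_sub_distrib, ← sum_mul, h1, zero_mul, sub_zero]
  rw [h2, ← sum_filter_add_sum_filter_not (range l) (fun j => F j ≠ F (j + 1))]
  have h3 : ∑ j ∈ (range l).filter (fun j => ¬ F j ≠ F (j + 1)), (F j - F (j + 1)) * (∑ i ∈ range (j + 1), I i - β) = 0 := by
    apply sum_eq_zero
    intro j hj
    have := (mem_filter.1 hj).2
    rw [not_not] at this
    rw [this, sub_self, zero_mul]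
  rw [h3, add_zero]
  refine (norm_sum_le _ _).trans (sum_le_sum fun j hj => ?_)
  obtain ⟨hj1, hj2⟩ := mem_filter.1 hj
  have hjl := mem_range.1 hj1
  rw [norm_mul]
  have h4 : ‖∑ i ∈ range (j + 1), I i - β‖ ≤ Err + ‖ψ (j + 1)‖ := by
    calc ‖∑ i ∈ range (j + 1), I i - β‖ = ‖(∑ i ∈ range (j + 1), I i - β - ψ (j + 1)) + ψ (j + 1)‖ := by ring_nf
      _ ≤ ‖∑ i ∈ range (j + 1), I i - β - ψ (j + 1)‖ + ‖ψ (j + 1)‖ := norm_add_le _ _
      _ ≤ Err + ‖ψ (j + 1)‖ := by linarith [hreal j hjl hj2]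
  exact mul_le_mul (hδ j hjl) h4 (norm_nonneg _) ((norm_nonneg _).trans (hδ j hjl))

section chunk

variable {τ : Type} {𝔐 : PvbMenu τ} {x : ℂ} {R h r μ : ℝ} {P : PvbRim} {pins : Set (PvbPin τ)}

/-- the tags of the chunk `I_X(P;s,t)` -/
def PvbInChunk (𝔐 : PvbMenu τ) (h : ℝ) (P : PvbRim) (s t : PvbPin τ) (k : ℕ) : Prop :=
  PvbInCut 𝔐 h s.ctr s.typ (P.z k) ∨ (s.idx ≤ k ∧ k < t.idx ∧ ¬ PvbInCut 𝔐 h t.ctr t.typ (P.z k))

open Classical in
theorem pvb_arcI_eq (y : ℕ → ℂ) (s t : PvbPin τ) (ht : t.idx ≤ P.len) :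
    pvbArcI 𝔐 h P y s t = ∑ k ∈ (range P.len).filter (PvbInChunk 𝔐 h P s t), y k := by
  unfold pvbArcI
  rw [← sum_union]
  · apply sum_congr _ (fun _ _ => rfl)
    ext k
    simp only [mem_union, mem_filter, mem_range, mem_Ico, PvbInChunk]
    constructor
    · rintro (⟨h1, h2⟩ | ⟨⟨h1, h2⟩, h3, h4⟩)
      · exact ⟨h1, Or.inl h2⟩
      · exact ⟨lt_of_lt_of_le h2 ht, Or.inr ⟨h1, h2, h4⟩⟩
    · rintro ⟨h1, h2 | ⟨h2, h3, h4⟩⟩
      · exact Or.inl ⟨h1, h2⟩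
      · by_cases ha : PvbInCut 𝔐 h s.ctr s.typ (P.z k)
        · exact Or.inl ⟨h1, ha⟩
        · exact Or.inr ⟨⟨h2, h3⟩, ha, h4⟩
  · rw [disjoint_left]
    intro k hk1 hk2
    exact (mem_filter.1 hk2).2.1 (mem_filter.1 hk1).2

namespace PvbPinChain

variable {α ω l : ℕ} {s : ℕ → PvbPin τ}

theorem mono (C : PvbPinChain 𝔐 r μ P pins α ω l s) {i j : ℕ} (hij : i < j) (hj : j ≤ l) : (s i).idx < (s j).idx := by
  induction j with
  | zero => exact absurd hij (Nat.not_lt_zero _)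
  | succ j ih =>
    rcases Nat.lt_or_ge i j with h1 | h1
    · exact (ih h1 (by omega)).trans (C.lt j (by omega))
    · have : i = j := by omega
      rw [this]
      exact C.lt j (by omega)

theorem mono_le (C : PvbPinChain 𝔐 r μ P pins α ω l s) {i j : ℕ} (hij : i ≤ j) (hj : j ≤ l) : (s i).idx ≤ (s j).idx := by
  rcases Nat.lt_or_ge i j with h1 | h1
  · exact (C.mono h1 hj).le
  · have : i = j := by omega
    rw [this]

theorem mem_exc (C : PvbPinChain 𝔐 r μ P pins α ω l s) {i : ℕ} (hi : i ≤ l) : α ≤ (s i).idx ∧ (s i).idx ≤ ω :=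
  ⟨C.lo.trans (C.mono_le (Nat.zero_le _) hi), (C.mono_le hi le_rfl).trans C.hi⟩

theorem sep (C : PvbPinChain 𝔐 r μ P pins α ω l s) (par : PvbPar 𝔐 R h r μ) {i j : ℕ} (hij : i < j) (hj : j ≤ l) :
    PvbPinSep 𝔐 h P (s i) (s j) := by
  obtain ⟨k, k1, k2, k3⟩ := C.dep i (by omega)
  obtain ⟨hL, hr, hr0, hR, hμ⟩ := par.nums (s i).typ
  refine ⟨C.mono hij hj, k, (s i).idx, k1.le, k2.trans (C.mono_le (by omega) hj), le_rfl, (C.mono hij hj).le, ?_⟩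
  have := par.Lh_r
  linarith

end PvbPinChain

/-- what two separated pins inside `B(x,2R)` say on the position of the tags of their cut-offs -/
theorem pvb_tag_lt (par : PvbPar 𝔐 R h r μ) (hP : PvbRimGood 𝔐 x R h r μ P pins) {s t : PvbPin τ} (hs : s ∈ pins)
    (hin : ‖P.v s.idx - x‖ ≤ 2 * R) (hst : PvbPinSep 𝔐 h P s t) {k : ℕ} (hk : k < P.len) (hc : PvbInCut 𝔐 h s.ctr s.typ (P.z k)) :
    k + 1 < t.idx :=
  hst.left (hP.pin s hs) hk (pvb_tag_near par hP hs hin hk hc).2.2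

theorem pvb_tag_gt (par : PvbPar 𝔐 R h r μ) (hP : PvbRimGood 𝔐 x R h r μ P pins) {s t : PvbPin τ} (ht : t ∈ pins)
    (hin : ‖P.v t.idx - x‖ ≤ 2 * R) (hst : PvbPinSep 𝔐 h P s t) {k : ℕ} (hk : k < P.len) (hc : PvbInCut 𝔐 h t.ctr t.typ (P.z k)) :
    s.idx < k :=
  hst.right (hP.pin t ht) hk.le (pvb_tag_near par hP ht hin hk hc).2.1

open Classical in
/-- one step of the concatenation -/
theorem pvb_concat_step (par : PvbPar 𝔐 R h r μ) (hP : PvbRimGood 𝔐 x R h r μ P pins) {s0 s1 s2 : PvbPin τ} (m0 : s0 ∈ pins)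
    (m1 : s1 ∈ pins) (m2 : s2 ∈ pins) (i0 : ‖P.v s0.idx - x‖ ≤ 2 * R) (i1 : ‖P.v s1.idx - x‖ ≤ 2 * R) (i2 : ‖P.v s2.idx - x‖ ≤ 2 * R)
    (h01 : PvbPinSep 𝔐 h P s0 s1) (h12 : PvbPinSep 𝔐 h P s1 s2) (h02 : PvbPinSep 𝔐 h P s0 s2) (y : ℕ → ℂ) :
    pvbArcI 𝔐 h P y s0 s1 + pvbArcI 𝔐 h P y s1 s2 = pvbArcI 𝔐 h P y s0 s2 := by
  have p0 := hP.pin s0 m0
  have p1 := hP.pin s1 m1
  have p2 := hP.pin s2 m2
  rw [pvb_arcI_eq y s0 s1 p1.idx_lt.le, pvb_arcI_eq y s1 s2 p2.idx_lt.le, pvb_arcI_eq y s0 s2 p2.idx_lt.le, ← sum_union]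
  · apply sum_congr _ (fun _ _ => rfl)
    ext k
    simp only [mem_union, mem_filter, mem_range, PvbInChunk]
    constructor
    · rintro (⟨hk, ha | ⟨a1, a2, a3⟩⟩ | ⟨hk, hb | ⟨a1, a2, a3⟩⟩)
      · exact ⟨hk, Or.inl ha⟩
      · refine ⟨hk, Or.inr ⟨a1, a2.trans h12.1, fun hc => ?_⟩⟩
        have := pvb_tag_gt par hP m2 i2 h12 hk hc
        omega
      · refine ⟨hk, Or.inr ⟨(pvb_tag_gt par hP m1 i1 h01 hk hb).le, ?_, fun hc => h12.disj par.h0 p1 p2 _ hb hc⟩⟩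
        have := pvb_tag_lt par hP m1 i1 h12 hk hb
        omega
      · exact ⟨hk, Or.inr ⟨h01.1.le.trans a1, a2, a3⟩⟩
    · rintro ⟨hk, ha | ⟨a1, a2, a3⟩⟩
      · exact Or.inl ⟨hk, Or.inl ha⟩
      · by_cases hb : PvbInCut 𝔐 h s1.ctr s1.typ (P.z k)
        · exact Or.inr ⟨hk, Or.inl hb⟩
        · rcases Nat.lt_or_ge k s1.idx with hlt | hge
          · exact Or.inl ⟨hk, Or.inr ⟨a1, hlt, hb⟩⟩
          · exact Or.inr ⟨hk, Or.inr ⟨hge, a2, a3⟩⟩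
  · rw [disjoint_left]
    intro k hk1 hk2
    obtain ⟨hk, hA⟩ := mem_filter.1 hk1
    have hk' := mem_range.1 hk
    have hB := (mem_filter.1 hk2).2
    rcases hA with ha | ⟨a1, a2, a3⟩
    · rcases hB with hb | ⟨b1, b2, b3⟩
      · exact h01.disj par.h0 p0 p1 _ ha hb
      · have := pvb_tag_lt par hP m0 i0 h01 hk' ha
        omega
    · rcases hB with hb | ⟨b1, b2, b3⟩
      · exact a3 hb
      · omega

/-- **(6.concatenation)** -/
theorem pvb_concat (par : PvbPar 𝔐 R h r μ) (hP : PvbRimGood 𝔐 x R h r μ P pins) {α ω l : ℕ} {s : ℕ → PvbPin τ} (e : PvbIsExc x R P α ω)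
    (C : PvbPinChain 𝔐 r μ P pins α ω l s) (y : ℕ → ℂ) (j : ℕ) (hj : j < l) :
    ∑ i ∈ range (j + 1), pvbArcI 𝔐 h P y (s i) (s (i + 1)) = pvbArcI 𝔐 h P y (s 0) (s (j + 1)) := by
  have hin : ∀ i ≤ l, ‖P.v (s i).idx - x‖ ≤ 2 * R := fun i hi => e.ins _ (C.mem_exc hi).1 (C.mem_exc hi).2
  induction j with
  | zero => simp
  | succ j ih =>
    rw [sum_range_succ, ih (by omega)]
    exact pvb_concat_step par hP (C.mem 0 (Nat.zero_le _)) (C.mem (j + 1) (by omega)) (C.mem (j + 1 + 1) (by omega))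
      (hin 0 (Nat.zero_le _)) (hin _ (by omega)) (hin _ (by omega)) (C.sep par (by omega) (by omega)) (C.sep par (by omega) (by omega))
      (C.sep par (by omega) (by omega)) y

end chunk

/-! ## DT1, part 4: geometry of one chain, the bound along one chain -/

theorem pvb_tri (a b c : ℂ) : ‖a - c‖ ≤ ‖a - b‖ + ‖b - c‖ := by
  have := norm_add_le (a - b) (b - c)
  simpa using this

section chain

variable {τ : Type} {𝔐 : PvbMenu τ} {x : ℂ} {R h r μ Cf : ℝ} {P : PvbRim} {pins : Set (PvbPin τ)} {f : ℂ → ℂ} {α ω l : ℕ} {s : ℕ → PvbPin τ}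

/-- the first pin is in the entrance collar -/
theorem PvbPinChain.first_far (C : PvbPinChain 𝔐 r μ P pins α ω l s) (par : PvbPar 𝔐 R h r μ) (hP : PvbRimGood 𝔐 x R h r μ P pins)
    (e : PvbIsExc x R P α ω) : 2 * R - 3 * r ≤ ‖(s 0).ctr - x‖ := by
  obtain ⟨hL, hr, hr0, hR, hμ⟩ := par.nums (s 0).typ
  have h1 := e.bdL hR hP
  have h2 := C.init (s 0).idx C.lo le_rfl
  have h3 := (hP.pin _ (C.mem 0 (Nat.zero_le _))).near
  have t1 := pvb_tri (P.v α) (P.v (s 0).idx) x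
  have t2 := pvb_tri (P.v (s 0).idx) (s 0).ctr x
  rw [norm_sub_rev (P.v α) (P.v (s 0).idx)] at t1
  linarith [par.h0]

/-- the last pin is in the exit collar -/
theorem PvbPinChain.last_far (C : PvbPinChain 𝔐 r μ P pins α ω l s) (par : PvbPar 𝔐 R h r μ) (hP : PvbRimGood 𝔐 x R h r μ P pins)
    (e : PvbIsExc x R P α ω) : 2 * R - 5 * r ≤ ‖(s l).ctr - x‖ := by
  obtain ⟨hL, hr, hr0, hR, hμ⟩ := par.nums (s 0).typ
  have h1 := e.bdR hR hP
  have h2 := C.fin ω C.hi le_rfl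
  have h3 := (hP.pin _ (C.mem l le_rfl)).near
  have t1 := pvb_tri (P.v ω) (P.v (s l).idx) x
  have t2 := pvb_tri (P.v (s l).idx) (s l).ctr x
  linarith [par.h0]

theorem PvbPinChain.ctr_step (C : PvbPinChain 𝔐 r μ P pins α ω l s) (par : PvbPar 𝔐 R h r μ) (hP : PvbRimGood 𝔐 x R h r μ P pins)
    {j : ℕ} (hj : j < l) : ‖(s j).ctr - (s (j + 1)).ctr‖ ≤ 5 * r := by
  obtain ⟨hL, hr, hr0, hR, hμ⟩ := par.nums (s 0).typ
  have h1 := (hP.pin _ (C.mem j hj.le)).near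
  have h2 := (hP.pin _ (C.mem (j + 1) hj)).near
  have h3 := C.step j hj (s (j + 1)).idx (C.lt j hj).le le_rfl
  have t1 := pvb_tri (s j).ctr (P.v (s j).idx) (s (j + 1)).ctr
  have t2 := pvb_tri (P.v (s j).idx) (P.v (s (j + 1)).idx) (s (j + 1)).ctr
  rw [norm_sub_rev (s j).ctr (P.v (s j).idx)] at t1
  rw [norm_sub_rev (P.v (s j).idx) (P.v (s (j + 1)).idx)] at t2
  linarith [par.h0]

/-- every tag of a chunk is within `5 r` of the centre of its start pin -/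
theorem PvbPinChain.chunk_near (C : PvbPinChain 𝔐 r μ P pins α ω l s) (par : PvbPar 𝔐 R h r μ) (hP : PvbRimGood 𝔐 x R h r μ P pins)
    (e : PvbIsExc x R P α ω) {i k : ℕ} (hi : i < l) (hk : k < P.len) (hc : PvbInChunk 𝔐 h P (s i) (s (i + 1)) k) :
    ‖P.z k - (s i).ctr‖ ≤ 5 * r := by
  obtain ⟨hL, hr, hr0, hR, hμ⟩ := par.nums (s i).typ
  rcases hc with ha | ⟨a1, a2, a3⟩
  · unfold PvbInCut at ha
    have := 𝔐.mc_le_L (s i).typ
    have := par.Lh_r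
    have := par.h0
    nlinarith
  · have h1 := C.step i hi k a1 a2.le
    have h2 := (hP.pin _ (C.mem i hi.le)).near
    have h3 := e.ins k ((C.mem_exc hi.le).1.trans a1) (a2.le.trans (C.mem_exc hi).2)
    have h4 := hP.mesh_z k hk (Or.inl (by linarith))
    have t1 := pvb_tri (P.z k) (P.v k) (s i).ctr
    have t2 := pvb_tri (P.v k) (P.v (s i).idx) (s i).ctr
    linarith [par.h0]

open Classical in
/-- **the bound along one chain** -/
theorem pvb_chain_bound (par : PvbPar 𝔐 R h r μ) (hf : PvbTest x R Cf f) (hP : PvbRimGood 𝔐 x R h r μ P pins) (e : PvbIsExc x R P α ω)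
    (C : PvbPinChain 𝔐 r μ P pins α ω l s) {y : ℕ → ℂ} {β : PvbPin τ → ℂ} {Ψ : ℂ → τ → ℂ} {Err : ℝ}
    (hra : PvbRealArc 𝔐 x R h P pins y β Ψ Err) :
    ‖∑ i ∈ range l, f (s i).ctr * pvbArcI 𝔐 h P y (s i) (s (i + 1))‖ ≤
      ∑ j ∈ (range l).filter (fun j => f (s j).ctr ≠ f (s (j + 1)).ctr), (Cf * (5 * r)) * (Err + ‖Ψ (s (j + 1)).ctr (s (j + 1)).typ‖) := by
  obtain ⟨hL, hr, hr0, hR, hμ⟩ := par.nums (s 0).typ
  have hrR := par.r_R
  have hF0 : f (s 0).ctr = 0 := hf.supp _ (by linarith [C.first_far par hP e])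
  have hFl : f (s l).ctr = 0 := hf.supp _ (by linarith [C.last_far par hP e])
  refine pvb_abel_bound l (fun i => f (s i).ctr) (fun i => pvbArcI 𝔐 h P y (s i) (s (i + 1))) (fun j => Ψ (s j).ctr (s j).typ) (β (s 0)) Err
    (Cf * (5 * r)) hF0 hFl ?_ ?_
  · intro j hj
    exact (hf.lip _ _).trans (mul_le_mul_of_nonneg_left (C.ctr_step par hP hj) hf.Cf0)
  · intro j hj hne
    show ‖∑ i ∈ range (j + 1), pvbArcI 𝔐 h P y (s i) (s (i + 1)) - β (s 0) - Ψ (s (j + 1)).ctr (s (j + 1)).typ‖ ≤ Err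
    rw [pvb_concat par hP e C y j hj]
    refine hra (s 0) (C.mem 0 (Nat.zero_le _)) (s (j + 1)) (C.mem _ hj) (C.mono (Nat.succ_pos _) hj) ?_ ?_
    · intro k hk1 hk2
      exact e.ins k (C.lo.trans hk1) (hk2.trans (C.mem_exc hj).2)
    · -- one of the two centres is in the support
      have hnear : ‖(s (j + 1)).ctr - x‖ ≤ R + 5 * r := by
        by_contra hcon
        have h1 : R ≤ ‖(s (j + 1)).ctr - x‖ := by linarith [not_le.1 hcon]
        have h2 : R ≤ ‖(s j).ctr - x‖ := by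
          have t1 := pvb_tri (s (j + 1)).ctr (s j).ctr x
          have := C.ctr_step par hP hj
          rw [norm_sub_rev] at this
          linarith [not_le.1 hcon]
        exact hne (by show f (s j).ctr = f (s (j + 1)).ctr; rw [hf.supp _ h1, hf.supp _ h2])
      have t1 := pvb_tri (s 0).ctr (s (j + 1)).ctr x
      linarith [C.first_far par hP e]

end chain

/-! ## DT1, part 5: the family of all chains -/

section fam

variable {τ : Type} {𝔐 : PvbMenu τ} {x : ℂ} {R h r μ Cf : ℝ} {P : PvbRim} {pins : Set (PvbPin τ)} {f : ℂ → ℂ}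

/-- a family of chains, one on each excursion of the finite set `E` -/
structure PvbChainFam (𝔐 : PvbMenu τ) (x : ℂ) (R r μ : ℝ) (P : PvbRim) (pins : Set (PvbPin τ)) (E : Finset (ℕ × ℕ)) (l : ℕ × ℕ → ℕ)
    (s : ℕ × ℕ → ℕ → PvbPin τ) : Prop where
  exc : ∀ p ∈ E, PvbIsExc x R P p.1 p.2
  chain : ∀ p ∈ E, PvbPinChain 𝔐 r μ P pins p.1 p.2 (l p) (s p)
  all : ∀ α ω, PvbIsExc x R P α ω → (∃ k, α ≤ k ∧ k ≤ ω ∧ ‖P.v k - x‖ ≤ 3 * R / 2 + r) → (α, ω) ∈ E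

variable {E : Finset (ℕ × ℕ)} {l : ℕ × ℕ → ℕ} {s : ℕ × ℕ → ℕ → PvbPin τ}

namespace PvbChainFam

theorem ins (A : PvbChainFam 𝔐 x R r μ P pins E l s) {p : ℕ × ℕ} (hp : p ∈ E) {i : ℕ} (hi : i ≤ l p) : ‖P.v (s p i).idx - x‖ ≤ 2 * R :=
  (A.exc p hp).ins _ ((A.chain p hp).mem_exc hi).1 ((A.chain p hp).mem_exc hi).2

theorem idx_inj (A : PvbChainFam 𝔐 x R r μ P pins E l s) {p p' : ℕ × ℕ} (hp : p ∈ E) (hp' : p' ∈ E) {i i' : ℕ} (hi : i ≤ l p)
    (hi' : i' ≤ l p') (heq : (s p i).idx = (s p' i').idx) : p = p' ∧ i = i' := by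
  have h1 := (A.chain p hp).mem_exc hi
  have h2 := (A.chain p' hp').mem_exc hi'
  have h3 := (A.exc p hp).unique (A.exc p' hp') h1.1 h1.2 (heq ▸ h2.1) (heq ▸ h2.2)
  have hpp : p = p' := Prod.ext h3.1 h3.2
  subst hpp
  refine ⟨rfl, ?_⟩
  rcases Nat.lt_trichotomy i i' with hlt | h | hlt
  · exact absurd heq (ne_of_lt ((A.chain p hp).mono hlt hi'))
  · exact h
  · exact absurd heq.symm (ne_of_lt ((A.chain p hp).mono hlt hi))

theorem sep (A : PvbChainFam 𝔐 x R r μ P pins E l s) (par : PvbPar 𝔐 R h r μ) {p p' : ℕ × ℕ} (hp : p ∈ E) (hp' : p' ∈ E) {i i' : ℕ}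
    (hi : i ≤ l p) (hi' : i' ≤ l p') (hlt : (s p i).idx < (s p' i').idx)
    (hdeep : ‖P.v (s p i).idx - x‖ ≤ 3 * R / 2 ∨ ‖P.v (s p' i').idx - x‖ ≤ 3 * R / 2) : PvbPinSep 𝔐 h P (s p i) (s p' i') := by
  by_cases hpp : p = p'
  · subst hpp
    refine (A.chain p hp).sep par ?_ hi'
    by_contra hcon
    exact absurd ((A.chain p hp).mono_le (not_lt.1 hcon) hi) (not_le.2 hlt)
  · obtain ⟨hL, hr, hr0, hR, hμ⟩ := par.nums (s p i).typ
    have h1 := (A.chain p hp).mem_exc hi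
    have h2 := (A.chain p' hp').mem_exc hi'
    have hω : p.2 < (s p' i').idx := by
      by_contra hcon
      have h3 := (A.exc p hp).unique (A.exc p' hp') (k := (s p' i').idx) (by omega) (not_lt.1 hcon) h2.1 h2.2
      exact hpp (Prod.ext h3.1 h3.2)
    have hout := (A.exc p hp).outR
    have hLr := par.Lh_r
    have hrR := par.r_R
    rcases hdeep with hd | hd
    · refine ⟨hlt, p.2 + 1, (s p i).idx, by omega, by omega, le_rfl, hlt.le, ?_⟩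
      have t1 := pvb_tri (P.v (p.2 + 1)) (P.v (s p i).idx) x
      linarith
    · refine ⟨hlt, p.2 + 1, (s p' i').idx, by omega, by omega, hlt.le, le_rfl, ?_⟩
      have t1 := pvb_tri (P.v (p.2 + 1)) (P.v (s p' i').idx) x
      linarith

theorem not_between (A : PvbChainFam 𝔐 x R r μ P pins E l s) {p p' : ℕ × ℕ} (hp : p ∈ E) (hp' : p' ∈ E) {i i' : ℕ} (hi : i ≤ l p)
    (hi' : i' < l p') (h1 : (s p' i').idx < (s p i).idx) (h2 : (s p i).idx < (s p' (i' + 1)).idx) : False := by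
  have a1 := (A.chain p hp).mem_exc hi
  have a2 := (A.chain p' hp').mem_exc hi'.le
  have a3 := (A.chain p' hp').mem_exc (i := i' + 1) hi'
  have h3 := (A.exc p hp).unique (A.exc p' hp') a1.1 a1.2 (by omega) (by omega)
  have hpp : p = p' := Prod.ext h3.1 h3.2
  subst hpp
  have b1 : i' < i := by
    by_contra hcon
    exact absurd ((A.chain p hp).mono_le (not_lt.1 hcon) hi'.le) (not_le.2 h1)
  have b2 : i < i' + 1 := by
    by_contra hcon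
    exact absurd ((A.chain p hp).mono_le (not_lt.1 hcon) hi) (not_le.2 h2)
  omega

/-- a link with a nonzero coefficient is deep -/
theorem deep (A : PvbChainFam 𝔐 x R r μ P pins E l s) (par : PvbPar 𝔐 R h r μ) (hf : PvbTest x R Cf f) (hP : PvbRimGood 𝔐 x R h r μ P pins)
    {p : ℕ × ℕ} (hp : p ∈ E) {i : ℕ} (hi : i < l p) (hF : f (s p i).ctr ≠ 0) :
    ‖(s p i).ctr - x‖ < R ∧ ‖P.v (s p i).idx - x‖ ≤ 3 * R / 2 ∧ ‖P.v (s p (i + 1)).idx - x‖ ≤ 3 * R / 2 := by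
  obtain ⟨hL, hr, hr0, hR, hμ⟩ := par.nums (s p i).typ
  have hrR := par.r_R
  have h1 : ‖(s p i).ctr - x‖ < R := by
    by_contra hcon
    exact hF (hf.supp _ (not_lt.1 hcon))
  have C := A.chain p hp
  have h2 := (hP.pin _ (C.mem i hi.le)).near
  have h3 := C.step i hi (s p (i + 1)).idx (C.lt i hi).le le_rfl
  have t1 := pvb_tri (P.v (s p i).idx) (s p i).ctr x
  have t2 := pvb_tri (P.v (s p (i + 1)).idx) (P.v (s p i).idx) x
  refine ⟨h1, by linarith [par.h0], by linarith [par.h0]⟩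

/-- asymmetric half of the disjointness of the chunks with nonzero coefficients -/
theorem chunk_aux (A : PvbChainFam 𝔐 x R r μ P pins E l s) (par : PvbPar 𝔐 R h r μ) (hf : PvbTest x R Cf f)
    (hP : PvbRimGood 𝔐 x R h r μ P pins) {p p' : ℕ × ℕ} (hp : p ∈ E) (hp' : p' ∈ E) {i i' : ℕ} (hi : i < l p) (hi' : i' < l p')
    (hF : f (s p i).ctr ≠ 0) {k : ℕ} (hk : k < P.len)
    (ha : PvbInCut 𝔐 h (s p i).ctr (s p i).typ (P.z k)) (b1 : (s p' i').idx ≤ k) (b2 : k < (s p' (i' + 1)).idx)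
    (b3 : ¬ PvbInCut 𝔐 h (s p' (i' + 1)).ctr (s p' (i' + 1)).typ (P.z k)) : p = p' ∧ i = i' := by
  obtain ⟨d1, d2, d3⟩ := A.deep par hf hP hp hi hF
  have m := (A.chain p hp).mem i hi.le
  have hin := A.ins hp hi.le
  rcases Nat.lt_trichotomy (s p i).idx (s p' i').idx with hlt | heq | hgt
  · have := pvb_tag_lt par hP m hin (A.sep par hp hp' hi.le hi'.le hlt (Or.inl d2)) hk ha
    omega
  · exact A.idx_inj hp hp' hi.le hi'.le heq
  · rcases Nat.lt_trichotomy (s p i).idx (s p' (i' + 1)).idx with hlt2 | heq2 | hgt2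
    · exact (A.not_between hp hp' hi.le hi' hgt hlt2).elim
    · obtain ⟨e1, e2⟩ := A.idx_inj (i' := i' + 1) hp hp' hi.le hi' heq2
      subst e1
      subst e2
      exact (b3 ha).elim
    · have := pvb_tag_gt par hP m hin (A.sep (i := i' + 1) par hp' hp hi' hi.le hgt2 (Or.inr d2)) hk ha
      omega

/-- **the chunks with nonzero coefficients are pairwise disjoint** -/
theorem chunk_disj (A : PvbChainFam 𝔐 x R r μ P pins E l s) (par : PvbPar 𝔐 R h r μ) (hf : PvbTest x R Cf f)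
    (hP : PvbRimGood 𝔐 x R h r μ P pins) {p p' : ℕ × ℕ} (hp : p ∈ E) (hp' : p' ∈ E) {i i' : ℕ} (hi : i < l p) (hi' : i' < l p')
    (hF : f (s p i).ctr ≠ 0) (hF' : f (s p' i').ctr ≠ 0) {k : ℕ} (hk : k < P.len)
    (hc : PvbInChunk 𝔐 h P (s p i) (s p (i + 1)) k) (hc' : PvbInChunk 𝔐 h P (s p' i') (s p' (i' + 1)) k) : p = p' ∧ i = i' := by
  obtain ⟨d1, d2, d3⟩ := A.deep par hf hP hp hi hF
  rcases hc with ha | ⟨a1, a2, a3⟩
  · rcases hc' with ha' | ⟨b1, b2, b3⟩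
    · rcases Nat.lt_trichotomy (s p i).idx (s p' i').idx with hlt | heq | hgt
      · exact ((A.sep par hp hp' hi.le hi'.le hlt (Or.inl d2)).disj par.h0 (hP.pin _ ((A.chain p hp).mem i hi.le))
          (hP.pin _ ((A.chain p' hp').mem i' hi'.le)) _ ha ha').elim
      · exact A.idx_inj hp hp' hi.le hi'.le heq
      · exact ((A.sep par hp' hp hi'.le hi.le hgt (Or.inr d2)).disj par.h0 (hP.pin _ ((A.chain p' hp').mem i' hi'.le))
          (hP.pin _ ((A.chain p hp).mem i hi.le)) _ ha' ha).elim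
    · exact A.chunk_aux par hf hP hp hp' hi hi' hF hk ha b1 b2 b3
  · rcases hc' with ha' | ⟨b1, b2, b3⟩
    · obtain ⟨e1, e2⟩ := A.chunk_aux par hf hP hp' hp hi' hi hF' hk ha' a1 a2 a3
      exact ⟨e1.symm, e2.symm⟩
    · have c1 := (A.chain p hp).mem_exc hi.le
      have c2 := (A.chain p hp).mem_exc (i := i + 1) hi
      have c3 := (A.chain p' hp').mem_exc hi'.le
      have c4 := (A.chain p' hp').mem_exc (i := i' + 1) hi'
      have h3 := (A.exc p hp).unique (A.exc p' hp') (k := k) (by omega) (by omega) (by omega) (by omega)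
      have hpp : p = p' := Prod.ext h3.1 h3.2
      subst hpp
      refine ⟨rfl, ?_⟩
      rcases Nat.lt_trichotomy i i' with hlt | h | hlt
      · have := (A.chain p hp).mono_le (i := i + 1) (j := i') hlt hi'.le
        omega
      · exact h
      · have := (A.chain p hp).mono_le (i := i' + 1) (j := i) hlt hi.le
        omega

/-- **coverage**: every tag in the support lies in a chunk -/
theorem cover (A : PvbChainFam 𝔐 x R r μ P pins E l s) (par : PvbPar 𝔐 R h r μ) (hP : PvbRimGood 𝔐 x R h r μ P pins) (t0 : τ) {k : ℕ}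
    (hk : k < P.len) (hz : ‖P.z k - x‖ < R) : ∃ p ∈ E, ∃ i < l p, PvbInChunk 𝔐 h P (s p i) (s p (i + 1)) k := by
  obtain ⟨hL, hr, hr0, hR, hμ⟩ := par.nums t0
  have hrR := par.r_R
  have h1 := hP.mesh_z k hk (Or.inr (by linarith))
  have h2 : ‖P.v k - x‖ ≤ R + μ := by
    have t1 := pvb_tri (P.v k) (P.z k) x
    rw [norm_sub_rev (P.v k) (P.z k)] at t1
    linarith
  obtain ⟨α, ω, e, k1, k2⟩ := pvb_exc_exists hR hP hk.le (by linarith)
  have hp : (α, ω) ∈ E := A.all α ω e ⟨k, k1, k2, by linarith⟩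
  have C := A.chain _ hp
  set p : ℕ × ℕ := (α, ω) with hpdef
  have hlo : (s p 0).idx ≤ k := by
    by_contra hcon
    have h3 := C.init k k1 (not_le.1 hcon).le
    have h4 := e.bdL hR hP
    have t1 := pvb_tri (P.v α) (P.v k) x
    rw [norm_sub_rev (P.v α) (P.v k)] at t1
    linarith
  have hhi : k < (s p (l p)).idx := by
    by_contra hcon
    have h3 := C.fin k (not_lt.1 hcon) k2
    have h3' := C.fin ω C.hi le_rfl
    have h4 := e.bdR hR hP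
    have t1 := pvb_tri (P.v ω) (P.v (s p (l p)).idx) x
    have t2 := pvb_tri (P.v (s p (l p)).idx) (P.v k) x
    rw [norm_sub_rev (P.v (s p (l p)).idx) (P.v k)] at t2
    linarith
  obtain ⟨i, -, i2, i3, i4⟩ := pvb_last (p := fun i => (s p i).idx ≤ k) (Nat.zero_le (l p)) hlo
  have hil : i < l p := by
    rcases Nat.lt_or_ge i (l p) with h | h
    · exact h
    · have : i = l p := le_antisymm i2 h
      rw [this] at i3
      omega
  have hk2 : k < (s p (i + 1)).idx := not_le.1 (i4 (i + 1) (Nat.lt_succ_self _) hil)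
  by_cases hc : PvbInCut 𝔐 h (s p (i + 1)).ctr (s p (i + 1)).typ (P.z k)
  · rcases Nat.lt_or_ge (i + 1) (l p) with h | h
    · exact ⟨p, hp, i + 1, h, Or.inl hc⟩
    · exfalso
      have hil' : i + 1 = l p := le_antisymm hil h
      rw [hil'] at hc
      unfold PvbInCut at hc
      have h5 := C.last_far par hP e
      have h6 := 𝔐.mc_le_L (s p (l p)).typ
      have h7 := par.Lh_r
      have h8 := par.h0
      have t1 := pvb_tri (s p (l p)).ctr (P.z k) x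
      rw [norm_sub_rev (s p (l p)).ctr (P.z k)] at t1
      nlinarith
  · exact ⟨p, hp, i, hil, Or.inr ⟨i3, hk2, hc⟩⟩

end PvbChainFam

end fam

/-! ## DT1, part 6: the adaptive coefficients -/

section coef

variable {τ : Type} {𝔐 : PvbMenu τ} {x : ℂ} {R h r μ Cf : ℝ} {P : PvbRim} {pins : Set (PvbPin τ)} {f : ℂ → ℂ}

open Classical in
theorem pvb_fam_exists [Nonempty τ] (par : PvbPar 𝔐 R h r μ) (hP : PvbRimGood 𝔐 x R h r μ P pins) :
    ∃ (E : Finset (ℕ × ℕ)) (l : ℕ × ℕ → ℕ) (s : ℕ × ℕ → ℕ → PvbPin τ), PvbChainFam 𝔐 x R r μ P pins E l s := by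
  obtain ⟨t0⟩ := ‹Nonempty τ›
  have : Inhabited (PvbPin τ) := ⟨⟨0, 0, t0⟩⟩
  set E : Finset (ℕ × ℕ) := ((range (P.len + 1)) ×ˢ (range (P.len + 1))).filter
    (fun p => PvbIsExc x R P p.1 p.2 ∧ ∃ k, p.1 ≤ k ∧ k ≤ p.2 ∧ ‖P.v k - x‖ ≤ 3 * R / 2 + r) with hE
  have hex : ∀ p : ℕ × ℕ, p ∈ E → ∃ (l : ℕ) (s : ℕ → PvbPin τ), PvbPinChain 𝔐 r μ P pins p.1 p.2 l s :=
    fun p hp => pvb_chain_exists par hP t0 (mem_filter.1 hp).2.1 (mem_filter.1 hp).2.2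
  choose! l s hC using hex
  refine ⟨E, l, s, fun p hp => (mem_filter.1 hp).2.1, hC, ?_⟩
  intro α ω e hk
  have h1 := e.le
  have h2 := e.lt
  exact mem_filter.2 ⟨mem_product.2 ⟨mem_range.2 (by show α < P.len + 1; omega), mem_range.2 (by show ω < P.len + 1; omega)⟩, e, hk⟩

open Classical in
/-- the adaptive coefficient of the tag `k` -/
noncomputable def pvbFamCoef (𝔐 : PvbMenu τ) (h : ℝ) (P : PvbRim) (f : ℂ → ℂ) (E : Finset (ℕ × ℕ)) (l : ℕ × ℕ → ℕ) (s : ℕ × ℕ → ℕ → PvbPin τ)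
    (k : ℕ) : ℂ :=
  ∑ p ∈ E, ∑ i ∈ range (l p), f (s p i).ctr * (if PvbInChunk 𝔐 h P (s p i) (s p (i + 1)) k then 1 else 0)

variable {E : Finset (ℕ × ℕ)} {l : ℕ × ℕ → ℕ} {s : ℕ × ℕ → ℕ → PvbPin τ}

namespace PvbChainFam

theorem coef_eq (A : PvbChainFam 𝔐 x R r μ P pins E l s) (par : PvbPar 𝔐 R h r μ) (hf : PvbTest x R Cf f)
    (hP : PvbRimGood 𝔐 x R h r μ P pins) {p : ℕ × ℕ} (hp : p ∈ E) {i : ℕ} (hi : i < l p) (hF : f (s p i).ctr ≠ 0) {k : ℕ} (hk : k < P.len)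
    (hc : PvbInChunk 𝔐 h P (s p i) (s p (i + 1)) k) : pvbFamCoef 𝔐 h P f E l s k = f (s p i).ctr := by
  unfold pvbFamCoef
  rw [sum_eq_single p, sum_eq_single i]
  · rw [if_pos hc, mul_one]
  · intro i' hi' hne
    by_cases hF' : f (s p i').ctr = 0
    · rw [hF', zero_mul]
    · by_cases hc' : PvbInChunk 𝔐 h P (s p i') (s p (i' + 1)) k
      · exact absurd (A.chunk_disj par hf hP hp hp hi (mem_range.1 hi') hF hF' hk hc hc').2.symm hne
      · rw [if_neg hc', mul_zero]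
  · intro hn
    exact absurd (mem_range.2 hi) hn
  · intro p' hp' hne
    apply sum_eq_zero
    intro i' hi'
    by_cases hF' : f (s p' i').ctr = 0
    · rw [hF', zero_mul]
    · by_cases hc' : PvbInChunk 𝔐 h P (s p' i') (s p' (i' + 1)) k
      · exact absurd (A.chunk_disj par hf hP hp hp' hi (mem_range.1 hi') hF hF' hk hc hc').1.symm hne
      · rw [if_neg hc', mul_zero]
  · intro hn
    exact absurd hp hn

theorem coef_ne (_A : PvbChainFam 𝔐 x R r μ P pins E l s) {k : ℕ} (hne : pvbFamCoef 𝔐 h P f E l s k ≠ 0) :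
    ∃ p ∈ E, ∃ i < l p, f (s p i).ctr ≠ 0 ∧ PvbInChunk 𝔐 h P (s p i) (s p (i + 1)) k := by
  by_contra hcon
  push Not at hcon
  apply hne
  unfold pvbFamCoef
  apply sum_eq_zero
  intro p hp
  apply sum_eq_zero
  intro i hi
  by_cases hF : f (s p i).ctr = 0
  · rw [hF, zero_mul]
  · rw [if_neg (hcon p hp i (mem_range.1 hi) hF), mul_zero]

/-- (C1) -/
theorem coef_close (A : PvbChainFam 𝔐 x R r μ P pins E l s) (par : PvbPar 𝔐 R h r μ) (hf : PvbTest x R Cf f)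
    (hP : PvbRimGood 𝔐 x R h r μ P pins) (t0 : τ) {k : ℕ} (hk : k < P.len) : ‖pvbFamCoef 𝔐 h P f E l s k - f (P.z k)‖ ≤ 6 * Cf * r := by
  obtain ⟨hL, hr, hr0, hR, hμ⟩ := par.nums t0
  have hCf := hf.Cf0
  have key : ∀ p ∈ E, ∀ i < l p, PvbInChunk 𝔐 h P (s p i) (s p (i + 1)) k → ‖f (s p i).ctr - f (P.z k)‖ ≤ 6 * Cf * r := by
    intro p hp i hi hc
    have h1 := (A.chain p hp).chunk_near par hP (A.exc p hp) hi hk hc
    have h2 := hf.lip (s p i).ctr (P.z k)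
    rw [norm_sub_rev (s p i).ctr (P.z k)] at h2
    nlinarith
  by_cases hne : pvbFamCoef 𝔐 h P f E l s k = 0
  · by_cases hz : ‖P.z k - x‖ < R
    · obtain ⟨p, hp, i, hi, hc⟩ := A.cover par hP t0 hk hz
      have hF : f (s p i).ctr = 0 := by
        by_contra hF
        exact hF ((A.coef_eq par hf hP hp hi hF hk hc).symm.trans hne)
      have := key p hp i hi hc
      rw [hF] at this
      rw [hne]
      exact this
    · rw [hne, hf.supp _ (not_lt.1 hz), sub_zero, norm_zero]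
      positivity
  · obtain ⟨p, hp, i, hi, hF, hc⟩ := A.coef_ne hne
    rw [A.coef_eq par hf hP hp hi hF hk hc]
    exact key p hp i hi hc

/-- (C0) -/
theorem coef_far (A : PvbChainFam 𝔐 x R r μ P pins E l s) (par : PvbPar 𝔐 R h r μ) (hf : PvbTest x R Cf f)
    (hP : PvbRimGood 𝔐 x R h r μ P pins) {k : ℕ} (hk : k < P.len) (hz : 3 * R / 2 ≤ ‖P.z k - x‖) : pvbFamCoef 𝔐 h P f E l s k = 0 := by
  by_contra hne
  obtain ⟨p, hp, i, hi, hF, hc⟩ := A.coef_ne hne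
  obtain ⟨hL, hr, hr0, hR, hμ⟩ := par.nums (s p i).typ
  have h1 := (A.chain p hp).chunk_near par hP (A.exc p hp) hi hk hc
  have h2 := (A.deep par hf hP hp hi hF).1
  have t1 := pvb_tri (P.z k) (s p i).ctr x
  linarith [par.r_R]

/-- half of (Mix) -/
theorem mix_aux (A : PvbChainFam 𝔐 x R r μ P pins E l s) (par : PvbPar 𝔐 R h r μ) (hf : PvbTest x R Cf f)
    (hP : PvbRimGood 𝔐 x R h r μ P pins) (Gr : Finset ℂ) (hGr : ∀ s ∈ pins, ‖s.ctr - x‖ ≤ 2 * R → s.ctr ∈ Gr) {k k' : ℕ} (hk : k < P.len)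
    (hk' : k' < P.len) (h0 : pvbFamCoef 𝔐 h P f E l s k ≠ 0) (hne : pvbFamCoef 𝔐 h P f E l s k ≠ pvbFamCoef 𝔐 h P f E l s k')
    (hpat : PvbSamePat 𝔐 h Gr (P.z k) (P.z k')) (y : ℂ) (σ : ℝ) (hσ : σ ≤ h) (hy : ‖P.z k - y‖ ≤ σ) (hy' : ‖P.z k' - y‖ ≤ σ) :
    PvbNearRet P y (σ + μ) (90 * h) := by
  obtain ⟨p, hp, i, hi, hF, hc⟩ := A.coef_ne h0
  obtain ⟨hL, hr, hr0, hR, hμ⟩ := par.nums (s p i).typ
  have hh := par.h0
  have hμh := par.mu_h
  have hμ0 := par.mu0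
  have hrR := par.r_R
  have C := A.chain p hp
  have e := A.exc p hp
  obtain ⟨d1, d2, d3⟩ := A.deep par hf hP hp hi hF
  have hck := A.coef_eq par hf hP hp hi hF hk hc
  have hnc' : ¬ PvbInChunk 𝔐 h P (s p i) (s p (i + 1)) k' := by
    intro hc'
    exact hne (hck.trans (A.coef_eq par hf hP hp hi hF hk' hc').symm)
  have ms := C.mem i hi.le
  have mt := C.mem (i + 1) hi
  have ps := hP.pin _ ms
  have pt := hP.pin _ mt
  have gs : (s p i).ctr ∈ Gr := hGr _ ms (by linarith)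
  have gt : (s p (i + 1)).ctr ∈ Gr := by
    refine hGr _ mt ?_
    have t1 := pvb_tri (s p (i + 1)).ctr (s p i).ctr x
    have := C.ctr_step par hP hi
    rw [norm_sub_rev] at this
    linarith
  have hns' : ¬ PvbInCut 𝔐 h (s p i).ctr (s p i).typ (P.z k') := fun hh' => hnc' (Or.inl hh')
  have hns : ¬ PvbInCut 𝔐 h (s p i).ctr (s p i).typ (P.z k) := fun hh' => hns' ((hpat _ gs _).1 hh')
  rcases hc with ha | ⟨a1, a2, a3⟩
  · exact (hns ha).elim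
  have hnt' : ¬ PvbInCut 𝔐 h (s p (i + 1)).ctr (s p (i + 1)).typ (P.z k') := fun hh' => a3 ((hpat _ gt _).2 hh')
  have hzk := C.chunk_near par hP e hi hk (Or.inr ⟨a1, a2, a3⟩)
  have hmk : ‖P.z k - P.v k‖ ≤ μ := by
    refine hP.mesh_z k hk (Or.inr ?_)
    have t1 := pvb_tri (P.z k) (s p i).ctr x
    linarith
  have hmk' : ‖P.z k' - P.v k'‖ ≤ μ := by
    refine hP.mesh_z k' hk' (Or.inr ?_)
    have t1 := pvb_tri (P.z k') y x
    have t2 := pvb_tri y (P.z k) x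
    have t3 := pvb_tri (P.z k) (s p i).ctr x
    rw [norm_sub_rev y (P.z k)] at t2
    linarith
  have hvk : ‖P.v k - y‖ ≤ σ + μ := by
    have t1 := pvb_tri (P.v k) (P.z k) y
    rw [norm_sub_rev (P.v k) (P.z k)] at t1
    linarith
  have hvk' : ‖P.v k' - y‖ ≤ σ + μ := by
    have t1 := pvb_tri (P.v k') (P.z k') y
    rw [norm_sub_rev (P.v k') (P.z k')] at t1
    linarith
  have mcs := 𝔐.mc_gt (s p i).typ
  have mct := 𝔐.mc_gt (s p (i + 1)).typ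
  unfold PvbInCut at hns hns' a3 hnt'
  rcases Nat.lt_or_ge k' (s p i).idx with hlt | hge
  · -- k' < idx_i < k
    have hne1 : (s p i).idx ≠ k := by
      intro heq
      apply hns
      have t1 := pvb_tri (P.z k) (P.v k) (s p i).ctr
      have := ps.near
      rw [heq] at this
      nlinarith
    refine ⟨k', (s p i).idx, k, hlt, lt_of_le_of_ne a1 hne1, hk.le, hvk', hvk, ?_⟩
    have t1 := pvb_tri (P.z k) y (s p i).ctr
    have t2 := pvb_tri y (P.v (s p i).idx) (s p i).ctr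
    rw [norm_sub_rev y (P.v (s p i).idx)] at t2
    have := ps.near
    nlinarith [not_le.1 hns]
  · have hge2 : (s p (i + 1)).idx ≤ k' := by
      by_contra hcon
      exact hnc' (Or.inr ⟨hge, not_le.1 hcon, hnt'⟩)
    have hne1 : (s p (i + 1)).idx ≠ k' := by
      intro heq
      apply hnt'
      have t1 := pvb_tri (P.z k') (P.v k') (s p (i + 1)).ctr
      have := pt.near
      rw [heq] at this
      nlinarith
    refine ⟨k, (s p (i + 1)).idx, k', a2, lt_of_le_of_ne hge2 hne1, hk'.le, hvk, hvk', ?_⟩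
    have t1 := pvb_tri (P.z k) y (s p (i + 1)).ctr
    have t2 := pvb_tri y (P.v (s p (i + 1)).idx) (s p (i + 1)).ctr
    rw [norm_sub_rev y (P.v (s p (i + 1)).idx)] at t2
    have := pt.near
    nlinarith [not_le.1 a3]

end PvbChainFam

end coef

/-! ## DT1, part 7: the aggregate bound, assembly -/

section agg

variable {τ : Type} {𝔐 : PvbMenu τ} {x : ℂ} {R h r μ Cf : ℝ} {P : PvbRim} {pins : Set (PvbPin τ)} {f : ℂ → ℂ}
  {E : Finset (ℕ × ℕ)} {l : ℕ × ℕ → ℕ} {s : ℕ × ℕ → ℕ → PvbPin τ}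

/-- at an active change the terminal pin is near the support -/
theorem PvbPinChain.active_near {α ω l : ℕ} {s : ℕ → PvbPin τ} (C : PvbPinChain 𝔐 r μ P pins α ω l s) (par : PvbPar 𝔐 R h r μ)
    (hf : PvbTest x R Cf f) (hP : PvbRimGood 𝔐 x R h r μ P pins) {j : ℕ} (hj : j < l) (hne : f (s j).ctr ≠ f (s (j + 1)).ctr) :
    ‖(s (j + 1)).ctr - x‖ ≤ R + 5 * r := by
  by_contra hcon
  obtain ⟨hL, hr, hr0, hR, hμ⟩ := par.nums (s 0).typ
  have h1 : R ≤ ‖(s (j + 1)).ctr - x‖ := by linarith [not_le.1 hcon]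
  have h2 : R ≤ ‖(s j).ctr - x‖ := by
    have t1 := pvb_tri (s (j + 1)).ctr (s j).ctr x
    have := C.ctr_step par hP hj
    rw [norm_sub_rev] at this
    linarith [not_le.1 hcon]
  exact hne (by rw [hf.supp _ h1, hf.supp _ h2])

open Classical in
theorem PvbChainFam.sum_eq (A : PvbChainFam 𝔐 x R r μ P pins E l s) (hP : PvbRimGood 𝔐 x R h r μ P pins) (y : ℕ → ℂ) :
    ∑ k ∈ range P.len, pvbFamCoef 𝔐 h P f E l s k * y k = ∑ p ∈ E, ∑ i ∈ range (l p), f (s p i).ctr * pvbArcI 𝔐 h P y (s p i) (s p (i + 1)) := by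
  unfold pvbFamCoef
  simp only [sum_mul]
  rw [sum_comm]
  apply sum_congr rfl
  intro p hp
  rw [sum_comm]
  apply sum_congr rfl
  intro i hi
  rw [pvb_arcI_eq y _ _ (hP.pin _ ((A.chain p hp).mem (i + 1) (mem_range.1 hi))).idx_lt.le, sum_filter, mul_sum]
  apply sum_congr rfl
  intro k _
  split_ifs <;> ring

open Classical in
/-- (Agg) -/
theorem PvbChainFam.agg [Fintype τ] (A : PvbChainFam 𝔐 x R r μ P pins E l s) (par : PvbPar 𝔐 R h r μ) (hf : PvbTest x R Cf f)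
    (hP : PvbRimGood 𝔐 x R h r μ P pins) (t0 : τ) (Gr : Finset ℂ) (hGr : ∀ s ∈ pins, ‖s.ctr - x‖ ≤ 2 * R → s.ctr ∈ Gr)
    (y : ℕ → ℂ) (β : PvbPin τ → ℂ) (Ψ : ℂ → τ → ℂ) (Err : ℝ) (hErr : 0 ≤ Err) (hra : PvbRealArc 𝔐 x R h P pins y β Ψ Err) :
    ‖∑ k ∈ range P.len, pvbFamCoef 𝔐 h P f E l s k * y k‖ ≤
      7 * Cf * r * ∑ g ∈ Gr.filter (fun g => ‖g - x‖ ≤ 3 * R / 2 ∧ PvbVisits P g h), (Err + ∑ t, ‖Ψ g t‖) := by
  obtain ⟨hL, hr, hr0, hR, hμ⟩ := par.nums t0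
  have hrR := par.r_R
  have hCf := hf.Cf0
  set w : ℂ → ℝ := fun g => Err + ∑ t, ‖Ψ g t‖ with hw
  have hw0 : ∀ g, 0 ≤ w g := fun g => add_nonneg hErr (sum_nonneg fun _ _ => norm_nonneg _)
  set act : ℕ × ℕ → Finset ℕ := fun p => (range (l p)).filter (fun j => f (s p j).ctr ≠ f (s p (j + 1)).ctr) with hact
  have h1 : ‖∑ k ∈ range P.len, pvbFamCoef 𝔐 h P f E l s k * y k‖ ≤ ∑ p ∈ E, ∑ j ∈ act p, (Cf * (5 * r)) * w (s p (j + 1)).ctr := by
    rw [A.sum_eq hP y]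
    refine (norm_sum_le _ _).trans (sum_le_sum fun p hp => ?_)
    refine (pvb_chain_bound par hf hP (A.exc p hp) (A.chain p hp) hra).trans (sum_le_sum fun j _ => ?_)
    apply mul_le_mul_of_nonneg_left _ (by positivity)
    rw [hw]
    exact add_le_add le_rfl (single_le_sum (f := fun t => ‖Ψ (s p (j + 1)).ctr t‖) (fun _ _ => norm_nonneg _) (mem_univ _))
  set 𝒜 : Finset (Σ _ : ℕ × ℕ, ℕ) := E.sigma act with h𝒜
  set φ : (Σ _ : ℕ × ℕ, ℕ) → ℂ := fun a => (s a.1 (a.2 + 1)).ctr with hφ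
  have hmem : ∀ a ∈ 𝒜, a.1 ∈ E ∧ a.2 < l a.1 ∧ f (s a.1 a.2).ctr ≠ f (s a.1 (a.2 + 1)).ctr := by
    intro a ha
    obtain ⟨b1, b2⟩ := mem_sigma.1 ha
    obtain ⟨b3, b4⟩ := mem_filter.1 b2
    exact ⟨b1, mem_range.1 b3, b4⟩
  have hdeep : ∀ a ∈ 𝒜, ‖φ a - x‖ ≤ R + 5 * r ∧ ‖P.v (s a.1 (a.2 + 1)).idx - x‖ ≤ 3 * R / 2 := by
    intro a ha
    obtain ⟨b1, b2, b3⟩ := hmem a ha
    have c1 := (A.chain _ b1).active_near par hf hP b2 b3
    refine ⟨c1, ?_⟩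
    have c2 := (hP.pin _ ((A.chain _ b1).mem (a.2 + 1) b2)).near
    have t1 := pvb_tri (P.v (s a.1 (a.2 + 1)).idx) (s a.1 (a.2 + 1)).ctr x
    linarith [par.h0]
  have hinj : Set.InjOn φ 𝒜 := by
    intro a ha a' ha' heq
    obtain ⟨b1, b2, b3⟩ := hmem a ha
    obtain ⟨b1', b2', b3'⟩ := hmem a' ha'
    have pa := hP.pin _ ((A.chain _ b1).mem (a.2 + 1) b2)
    have pa' := hP.pin _ ((A.chain _ b1').mem (a'.2 + 1) b2')
    rcases Nat.lt_trichotomy (s a.1 (a.2 + 1)).idx (s a'.1 (a'.2 + 1)).idx with hlt | he | hgt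
    · exact absurd heq ((A.sep (i := a.2 + 1) (i' := a'.2 + 1) par b1 b1' b2 b2' hlt (Or.inl (hdeep a ha).2)).ctr_ne par.h0 pa pa')
    · obtain ⟨e1, e2⟩ := A.idx_inj (i := a.2 + 1) (i' := a'.2 + 1) b1 b1' b2 b2' he
      obtain ⟨a1, a2⟩ := a
      obtain ⟨a1', a2'⟩ := a'
      simp only at e1 e2
      subst e1
      have : a2 = a2' := by omega
      subst this
      rfl
    · exact absurd heq.symm ((A.sep (i := a'.2 + 1) (i' := a.2 + 1) par b1' b1 b2' b2 hgt (Or.inl (hdeep a' ha').2)).ctr_ne par.h0 pa' pa)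
  have h2 : ∑ p ∈ E, ∑ j ∈ act p, (Cf * (5 * r)) * w (s p (j + 1)).ctr = (Cf * (5 * r)) * ∑ g ∈ 𝒜.image φ, w g := by
    rw [sum_image hinj, mul_sum, h𝒜, sum_sigma]
  have h3 : ∑ g ∈ 𝒜.image φ, w g ≤ ∑ g ∈ Gr.filter (fun g => ‖g - x‖ ≤ 3 * R / 2 ∧ PvbVisits P g h), w g := by
    apply sum_le_sum_of_subset_of_nonneg _ (fun g _ _ => hw0 g)
    intro g hg
    obtain ⟨a, ha, rfl⟩ := mem_image.1 hg
    obtain ⟨b1, b2, b3⟩ := hmem a ha
    have m := (A.chain _ b1).mem (a.2 + 1) b2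
    have c1 := (hdeep a ha).1
    refine mem_filter.2 ⟨hGr _ m (by rw [hφ] at c1; simp only at c1; linarith), by linarith, (s a.1 (a.2 + 1)).idx, (hP.pin _ m).idx_lt.le,
      (hP.pin _ m).near⟩
  have h4 : 0 ≤ ∑ g ∈ Gr.filter (fun g => ‖g - x‖ ≤ 3 * R / 2 ∧ PvbVisits P g h), w g := sum_nonneg fun g _ => hw0 g
  calc ‖∑ k ∈ range P.len, pvbFamCoef 𝔐 h P f E l s k * y k‖ ≤ (Cf * (5 * r)) * ∑ g ∈ 𝒜.image φ, w g := h1.trans h2.le
    _ ≤ (Cf * (5 * r)) * ∑ g ∈ Gr.filter (fun g => ‖g - x‖ ≤ 3 * R / 2 ∧ PvbVisits P g h), w g :=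
        mul_le_mul_of_nonneg_left h3 (by positivity)
    _ ≤ 7 * Cf * r * ∑ g ∈ Gr.filter (fun g => ‖g - x‖ ≤ 3 * R / 2 ∧ PvbVisits P g h), w g := by
        apply mul_le_mul_of_nonneg_right _ h4
        nlinarith

end agg

open Classical in
/-- **DT1** (6.4 + the deterministic half of 6.5): the adaptive coefficients -/
theorem pvb_coeff {τ : Type} [Fintype τ] [Nonempty τ] (𝔐 : PvbMenu τ) {x : ℂ} {R h r μ Cf : ℝ} (par : PvbPar 𝔐 R h r μ) {f : ℂ → ℂ}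
    (hf : PvbTest x R Cf f) {P : PvbRim} {pins : Set (PvbPin τ)} (hP : PvbRimGood 𝔐 x R h r μ P pins) (Gr : Finset ℂ)
    (hGr : ∀ s ∈ pins, ‖s.ctr - x‖ ≤ 2 * R → s.ctr ∈ Gr) :
    ∃ c : ℕ → ℂ,
      (∀ k < P.len, ‖c k - f (P.z k)‖ ≤ 6 * Cf * r) ∧
      (∀ k < P.len, 3 * R / 2 ≤ ‖P.z k - x‖ → c k = 0) ∧
      (∀ k < P.len, ∀ k' < P.len, c k ≠ c k' → PvbSamePat 𝔐 h Gr (P.z k) (P.z k') → ∀ (y : ℂ) (s : ℝ), s ≤ h →
        ‖P.z k - y‖ ≤ s → ‖P.z k' - y‖ ≤ s → PvbNearRet P y (s + μ) (90 * h)) ∧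
      (∀ (y : ℕ → ℂ) (β : PvbPin τ → ℂ) (Ψ : ℂ → τ → ℂ) (Err : ℝ), 0 ≤ Err → PvbRealArc 𝔐 x R h P pins y β Ψ Err →
        ‖∑ k ∈ range P.len, c k * y k‖ ≤
          7 * Cf * r * ∑ g ∈ Gr.filter (fun g => ‖g - x‖ ≤ 3 * R / 2 ∧ PvbVisits P g h), (Err + ∑ t, ‖Ψ g t‖)) := by
  obtain ⟨E, l, s, A⟩ := pvb_fam_exists par hP
  obtain ⟨t0⟩ := ‹Nonempty τ›
  refine ⟨pvbFamCoef 𝔐 h P f E l s, fun k hk => A.coef_close par hf hP t0 hk, fun k hk hz => A.coef_far par hf hP hk hz, ?_,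
    fun y β Ψ Err hErr hra => A.agg par hf hP t0 Gr hGr y β Ψ Err hErr hra⟩
  intro k hk k' hk' hne hpat y σ hσ hy hy'
  by_cases h0 : pvbFamCoef 𝔐 h P f E l s k = 0
  · have h0' : pvbFamCoef 𝔐 h P f E l s k' ≠ 0 := fun h1 => hne (h0.trans h1.symm)
    exact A.mix_aux par hf hP Gr hGr hk' hk h0' hne.symm (fun g hg t => (hpat g hg t).symm) y σ hσ hy' hy
  · exact A.mix_aux par hf hP Gr hGr hk hk' h0 hne hpat y σ hσ hy hy'

theorem pvb_amgm {a b l : ℝ} (ha : 0 ≤ a) (hb : 0 ≤ b) (hl : 0 < l) : a + b ≤ l + (a ^ 2 + b ^ 2) / l := by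
  rw [← sub_nonneg]
  have h1 : l + (a ^ 2 + b ^ 2) / l - (a + b) = ((l / 2 - a) ^ 2 + (l / 2 - b) ^ 2 + l ^ 2 / 2) / l := by
    field_simp
    ring
  rw [h1]
  positivity

open Classical in
theorem pvb_dyadic {α : Type} (T : Finset ℕ) (A : ℕ → ℕ → α) (c g x : ℕ → ℂ) (fD : ℕ → α → ℂ) (J : ℕ) (δ : ℝ) (sc N B lam : ℕ → ℝ)
    (hnest : ∀ j k k', A (j + 1) k = A (j + 1) k' → A j k = A j k')
    (hJ : ∀ k ∈ T, ∀ k' ∈ T, A J k = A J k' → c k = c k')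
    (hδ : ∀ j ≤ J, ∀ k ∈ T, ‖c k - fD j (A j k)‖ ≤ δ)
    (hsc : ∀ j ≤ J, 0 < sc j ∧ sc j ≤ δ)
    (hN : ∀ j ≤ J, (((T.filter (fun k => j = 0 ∨ ∃ k' ∈ T, A (j - 1) k' = A (j - 1) k ∧ c k' ≠ c k)).image (A j)).card : ℝ) ≤ N j)
    (hB : ∀ j ≤ J, ∑ D ∈ T.image (A j), (‖∑ k ∈ T.filter (fun k => A j k = D), x k‖ ^ 2 +
      ((sc j)⁻¹) ^ 2 * ‖∑ k ∈ T.filter (fun k => A j k = D), (g k - fD j D) * x k‖ ^ 2) ≤ B j)
    (hlam : ∀ j ≤ J, 0 < lam j) :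
    ‖∑ k ∈ T, (g k - c k) * x k‖ ≤ ∑ j ∈ range (J + 1), δ * (lam j * N j + B j / lam j) := by
  set Mix : ℕ → ℕ → Prop := fun j k => ∃ k' ∈ T, A j k' = A j k ∧ c k' ≠ c k with hMix
  have mono : ∀ j k, Mix (j + 1) k → Mix j k := by
    rintro j k ⟨k', hk', h1, h2⟩
    exact ⟨k', hk', hnest j k' k h1, h2⟩
  set Tj : ℕ → Finset ℕ := fun j => T.filter (fun k => (j = 0 ∨ Mix (j - 1) k) ∧ ¬ Mix j k) with hTj
  set F : ℕ → ℂ := fun k => (g k - c k) * x k with hF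
  have tele : ∀ J', ∑ k ∈ T, F k = ∑ j ∈ range (J' + 1), ∑ k ∈ Tj j, F k + ∑ k ∈ T.filter (Mix J'), F k := by
    intro J'
    induction J' with
    | zero =>
      rw [zero_add, sum_range_one]
      have h0 : Tj 0 = T.filter (fun k => ¬ Mix 0 k) := by
        apply filter_congr
        intro k _
        simp
      rw [h0, add_comm]
      exact (sum_filter_add_sum_filter_not T _ _).symm
    | succ J' ih =>
      rw [ih, sum_range_succ _ (J' + 1), add_assoc]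
      congr 1
      have h1 : Tj (J' + 1) = (T.filter (Mix J')).filter (fun k => ¬ Mix (J' + 1) k) := by
        rw [filter_filter]
        apply filter_congr
        intro k _
        simp
      have h2 : T.filter (Mix (J' + 1)) = (T.filter (Mix J')).filter (fun k => Mix (J' + 1) k) := by
        rw [filter_filter]
        apply filter_congr
        intro k _
        constructor
        · intro h
          exact ⟨mono _ _ h, h⟩
        · intro h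
          exact h.2
      rw [h1, h2, add_comm]
      exact (sum_filter_add_sum_filter_not _ _ _).symm
  have hlast : T.filter (Mix J) = ∅ := by
    apply filter_eq_empty_iff.2
    rintro k hk ⟨k', hk', h1, h2⟩
    exact h2 (hJ k' hk' k hk h1)
  rw [show ∑ k ∈ T, (g k - c k) * x k = ∑ k ∈ T, F k from rfl, tele J, hlast, sum_empty, add_zero]
  refine (norm_sum_le _ _).trans (sum_le_sum fun j hj => ?_)
  have hjJ : j ≤ J := Nat.lt_succ_iff.1 (mem_range.1 hj)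
  obtain ⟨hs0, hsδ⟩ := hsc j hjJ
  have hl := hlam j hjJ
  have hδ0 : 0 ≤ δ := hs0.le.trans hsδ
  set S := (Tj j).image (A j) with hS
  have hfib : ∑ k ∈ Tj j, F k = ∑ D ∈ S, ∑ k ∈ (Tj j).filter (fun k => A j k = D), F k :=
    (sum_fiberwise_of_maps_to (fun k hk => mem_image_of_mem _ hk) _).symm
  -- structure of a stopped atom
  have hatom : ∀ k0 ∈ Tj j, ∀ k ∈ T, A j k = A j k0 → c k = c k0 ∧ k ∈ Tj j := by
    intro k0 hk0 k hk hA
    obtain ⟨hk0T, hpar, hnm⟩ := (mem_filter.1 hk0 : k0 ∈ T ∧ (j = 0 ∨ Mix (j - 1) k0) ∧ ¬ Mix j k0)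
    have hall : ∀ k' ∈ T, A j k' = A j k0 → c k' = c k0 := by
      intro k' hk' h1
      by_contra h2
      exact hnm ⟨k', hk', h1, h2⟩
    have hc := hall k hk hA
    refine ⟨hc, mem_filter.2 ⟨hk, ?_, ?_⟩⟩
    · rcases hpar with h0 | ⟨k', hk', h1, h2⟩
      · exact Or.inl h0
      · by_cases h0 : j = 0
        · exact Or.inl h0
        · refine Or.inr ⟨k', hk', ?_, by rw [hc]; exact h2⟩
          obtain ⟨i, rfl⟩ := Nat.exists_eq_succ_of_ne_zero h0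
          simp only [Nat.succ_eq_add_one, Nat.add_sub_cancel] at h1 ⊢
          rw [h1]
          exact (hnest i k k0 hA).symm
    · rintro ⟨k', hk', h1, h2⟩
      exact h2 ((hall k' hk' (h1.trans hA)).trans hc.symm)
  set tD : α → ℝ := fun D => ‖∑ k ∈ T.filter (fun k => A j k = D), x k‖ ^ 2 +
      ((sc j)⁻¹) ^ 2 * ‖∑ k ∈ T.filter (fun k => A j k = D), (g k - fD j D) * x k‖ ^ 2 with htD
  have hterm : ∀ D ∈ S, ‖∑ k ∈ (Tj j).filter (fun k => A j k = D), F k‖ ≤ δ * (lam j + tD D / lam j) := by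
    intro D hD
    obtain ⟨k0, hk0, rfl⟩ := mem_image.1 hD
    have hk0T : k0 ∈ T := (mem_filter.1 hk0).1
    have hfe : (Tj j).filter (fun k => A j k = A j k0) = T.filter (fun k => A j k = A j k0) := by
      ext k
      simp only [mem_filter]
      constructor
      · rintro ⟨h1, h2⟩
        exact ⟨(mem_filter.1 h1).1, h2⟩
      · rintro ⟨h1, h2⟩
        exact ⟨(hatom k0 hk0 k h1 h2).2, h2⟩
    rw [hfe]
    have hsplit : ∑ k ∈ T.filter (fun k => A j k = A j k0), F k =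
        ∑ k ∈ T.filter (fun k => A j k = A j k0), (g k - fD j (A j k0)) * x k +
          (fD j (A j k0) - c k0) * ∑ k ∈ T.filter (fun k => A j k = A j k0), x k := by
      rw [mul_sum, ← sum_add_distrib]
      apply sum_congr rfl
      intro k hk
      obtain ⟨h1, h2⟩ := mem_filter.1 hk
      rw [hF]
      simp only
      rw [(hatom k0 hk0 k h1 h2).1]
      ring
    rw [hsplit]
    set u := ∑ k ∈ T.filter (fun k => A j k = A j k0), x k with hu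
    set v := ∑ k ∈ T.filter (fun k => A j k = A j k0), (g k - fD j (A j k0)) * x k with hv
    have h1 : ‖fD j (A j k0) - c k0‖ ≤ δ := by
      rw [norm_sub_rev]
      exact hδ j hjJ k0 hk0T
    have h2 : ‖v‖ ≤ δ * ((sc j)⁻¹ * ‖v‖) := by
      have : ‖v‖ = sc j * ((sc j)⁻¹ * ‖v‖) := by
        field_simp
      calc ‖v‖ = sc j * ((sc j)⁻¹ * ‖v‖) := this
        _ ≤ δ * ((sc j)⁻¹ * ‖v‖) := mul_le_mul_of_nonneg_right hsδ (by positivity)
    have h3 : ‖u‖ + (sc j)⁻¹ * ‖v‖ ≤ lam j + (‖u‖ ^ 2 + ((sc j)⁻¹ * ‖v‖) ^ 2) / lam j :=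
      pvb_amgm (norm_nonneg _) (by positivity) hl
    calc ‖v + (fD j (A j k0) - c k0) * u‖ ≤ ‖v‖ + ‖fD j (A j k0) - c k0‖ * ‖u‖ := by
          refine (norm_add_le _ _).trans ?_
          rw [norm_mul]
      _ ≤ δ * ((sc j)⁻¹ * ‖v‖) + δ * ‖u‖ := add_le_add h2 (mul_le_mul_of_nonneg_right h1 (norm_nonneg _))
      _ = δ * (‖u‖ + (sc j)⁻¹ * ‖v‖) := by ring
      _ ≤ δ * (lam j + (‖u‖ ^ 2 + ((sc j)⁻¹ * ‖v‖) ^ 2) / lam j) := mul_le_mul_of_nonneg_left h3 hδ0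
      _ = δ * (lam j + tD (A j k0) / lam j) := by
          rw [htD]
          simp only
          rw [mul_pow]
  have htD0 : ∀ D, 0 ≤ tD D := fun D => by
    rw [htD]
    positivity
  have hScard : (S.card : ℝ) ≤ N j := by
    refine le_trans ?_ (hN j hjJ)
    exact_mod_cast card_le_card (image_subset_image (fun k hk => by
      obtain ⟨h1, h2, _⟩ := (mem_filter.1 hk : k ∈ T ∧ (j = 0 ∨ Mix (j - 1) k) ∧ ¬ Mix j k)
      exact mem_filter.2 ⟨h1, h2⟩))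
  have hSB : ∑ D ∈ S, tD D ≤ B j := by
    refine le_trans ?_ (hB j hjJ)
    exact sum_le_sum_of_subset_of_nonneg (image_subset_image (filter_subset _ _)) (fun D _ _ => htD0 D)
  rw [hfib]
  calc ‖∑ D ∈ S, ∑ k ∈ (Tj j).filter (fun k => A j k = D), F k‖ ≤ ∑ D ∈ S, δ * (lam j + tD D / lam j) :=
        (norm_sum_le _ _).trans (sum_le_sum hterm)
    _ = δ * (lam j * S.card + (∑ D ∈ S, tD D) / lam j) := by
        rw [← mul_sum, sum_add_distrib, sum_const, nsmul_eq_mul, sum_div]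
        ring
    _ ≤ δ * (lam j * N j + B j / lam j) := by
        apply mul_le_mul_of_nonneg_left _ hδ0
        exact add_le_add (mul_le_mul_of_nonneg_left hScard hl.le) (div_le_div_of_nonneg_right hSB hl.le)

theorem pvb_det_eqns_cite : True := by
  have := @PvbOrd.eq_1
  have := @PvbRim.fld.eq_1
  have := @PvbInCut.eq_1
  have := @pvbArcI.eq_1
  have := @PvbNearRet.eq_1
  have := @PvbVisits.eq_1
  have := @PvbRealArc.eq_1
  have := @PvbSamePat.eq_1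
  have := @PvbPinSep.eq_1
  have := @PvbInChunk.eq_1
  have := @pvbFamCoef.eq_1
  trivial

/-! ## 3. the probabilistic interface -/

/-- index of the square of side `s` containing `w` -/
noncomputable def pvbSqIdx (s : ℝ) (w : ℂ) : ℤ × ℤ := (⌊w.re / s⌋, ⌊w.im / s⌋)

/-- centre of the square -/
noncomputable def pvbSqCtr (s : ℝ) (p : ℤ × ℤ) : ℂ := ⟨((p.1 : ℝ) + 1 / 2) * s, ((p.2 : ℝ) + 1 / 2) * s⟩

open Classical in
/-- the pattern of memberships in the candidate cut-off balls -/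
noncomputable def pvbCutPat {τ : Type} [Fintype τ] (𝔐 : PvbMenu τ) (h : ℝ) (Gr : Finset ℂ) (w : ℂ) : Finset (ℂ × τ) :=
  (Gr ×ˢ (Finset.univ : Finset τ)).filter (fun p => PvbInCut 𝔐 h p.1 p.2 w)

end Claimed.Agent.R289
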