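-- KEEP
import Claimed.Agent.R289.S6b.Det
import Claimed.Agent.R289.Defs.Up

/-!
# Row 289 (S0537), unit S6B = Cardy paper Section 6, SECOND HALF (6.4 additive chunks, 6.5 mixed atoms, 6.6 completion of bulk transport): THE PROBABILISTIC PART.      Prefix `pvb_`, `Pvb`, `pvb`.
Design: helper210 (`origin/helper210:notes/R289/s6b_210.md`); this file: helper56.      0 sorry.

INTERFACE  `PvbIn` = everything S6b consumes (E1 Bessel variables `W`, E2 one arm for rims, E3 near return for rims, E4 pins + trap + density + mesh, E5 real-arc inequality + `L²` bound of the terminal potentials).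
EXITS      `pvb_ordered`   : `PvbIn .. → ∀ ξ > 0, PvbOrd (fun m n => ℙ_n (∃ rim P, ξ < |Q_P f - a_m V_P f|))`                    = (6.ordered-transport)
           `pvb_transport` : `PvbIn .. → a_m → a∞ → ∀ ξ > 0, ℙ_n (∃ rim P, ξ < |Q_P f - a∞ V_P f|) → 0`                          = Theorem 3.1 for one patch and one test (`a∞ ∈ ℂ` ARBITRARY: Section 7 is not needed, see `origin/helper211:notes/R289/s7_211.md` sec. E)
PLAN       A ordered limits; B calculus of dominating variables `PvbE U Y e` over an UPPER EXPECTATION `U : PvUp Ω` (`Defs/Up.lean` of 163: monotone, subadditive, homogeneous, mass `≤ 1`): NO measurability of anything on `Ω` is asked;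
           C dyadic squares, patterns; D the mixed atoms on one rim (`pvb_dyadic` at the squares of side `h 2^-j`); E one rim on the good event, dominating variables; F Bessel variables, the estimate at fixed `(m,n)`;
           G numerics; H the interface; I the estimate at fixed `m`; J the exits.
-/

set_option autoImplicit false

namespace Claimed.Agent.R289

open MeasureTheory Filter Topology Finset

/-! ## A. ordered limits -/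

theorem PvbOrd.mono {p q : ℕ → ℕ → ℝ} (hq : PvbOrd q) (h : ∀ᶠ m in atTop, ∀ᶠ n in atTop, p m n ≤ q m n) : PvbOrd p := by
  intro η hη
  filter_upwards [hq η hη, h] with m h1 h2
  filter_upwards [h1, h2] with n h3 h4
  exact h4.trans h3

theorem PvbOrd.add {p q : ℕ → ℕ → ℝ} (hp : PvbOrd p) (hq : PvbOrd q) : PvbOrd (fun m n => p m n + q m n) := by
  intro η hη
  filter_upwards [hp (η / 2) (by positivity), hq (η / 2) (by positivity)] with m h1 h2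
  filter_upwards [h1, h2] with n h3 h4
  linarith

theorem PvbOrd.of_tendsto {b : ℕ → ℝ} (hb : Tendsto b atTop (𝓝 0)) : PvbOrd (fun m _ => b m) := by
  intro η hη
  filter_upwards [hb.eventually (gt_mem_nhds hη)] with m hm
  exact Eventually.of_forall fun _ => hm.le

/-! ## B. upper expectations of dominating variables -/

/-- `Y ≥ 0` with upper expectation `E Y ≤ e` -/
structure PvbE {Ω : Type} (μ : PvUp Ω) (Y : Ω → ℝ) (e : ℝ) : Prop where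
  nn : ∀ ω, 0 ≤ Y ω
  e0 : 0 ≤ e
  le : μ.E (fun ω => ENNReal.ofReal (Y ω)) ≤ ENNReal.ofReal e

section E

variable {Ω : Type} {μ : PvUp Ω}

theorem PvbE.zero : PvbE μ (fun _ => 0) 0 := ⟨fun _ => le_rfl, le_rfl, by simp [μ.E_zero]⟩

theorem PvbE.mono {Y : Ω → ℝ} {e e' : ℝ} (h : PvbE μ Y e) (he : e ≤ e') : PvbE μ Y e' :=
  ⟨h.nn, h.e0.trans he, h.le.trans (ENNReal.ofReal_le_ofReal he)⟩

theorem PvbE.add {Y Y' : Ω → ℝ} {e e' : ℝ} (h : PvbE μ Y e) (h' : PvbE μ Y' e') : PvbE μ (fun ω => Y ω + Y' ω) (e + e') := by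
  refine ⟨fun ω => add_nonneg (h.nn ω) (h'.nn ω), add_nonneg h.e0 h'.e0, ?_⟩
  have e1 : ∀ ω, ENNReal.ofReal (Y ω + Y' ω) = ENNReal.ofReal (Y ω) + ENNReal.ofReal (Y' ω) := fun ω => ENNReal.ofReal_add (h.nn ω) (h'.nn ω)
  simp only [e1]
  rw [ENNReal.ofReal_add h.e0 h'.e0]
  exact (μ.add_le _ _).trans (add_le_add h.le h'.le)

theorem PvbE.smul {Y : Ω → ℝ} {e : ℝ} (h : PvbE μ Y e) {c : ℝ} (hc : 0 ≤ c) : PvbE μ (fun ω => c * Y ω) (c * e) := by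
  refine ⟨fun ω => mul_nonneg hc (h.nn ω), mul_nonneg hc h.e0, ?_⟩
  have e1 : ∀ ω, ENNReal.ofReal (c * Y ω) = ENNReal.ofReal c * ENNReal.ofReal (Y ω) := fun ω => ENNReal.ofReal_mul hc
  simp only [e1]
  rw [ENNReal.ofReal_mul hc]
  exact (μ.smul_le _ _ ENNReal.ofReal_ne_top).trans (mul_le_mul_right h.le _)

theorem PvbE.sum {ι : Type} (S : Finset ι) {Y : ι → Ω → ℝ} {e : ι → ℝ} (h : ∀ i ∈ S, PvbE μ (Y i) (e i)) :
    PvbE μ (fun ω => ∑ i ∈ S, Y i ω) (∑ i ∈ S, e i) := by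
  classical
  induction S using Finset.induction_on with
  | empty => simpa using PvbE.zero
  | insert a s ha ih =>
    simp only [Finset.sum_insert ha]
    exact (h a (Finset.mem_insert_self a s)).add (ih fun i hi => h i (Finset.mem_insert_of_mem hi))

/-- a sum with a bound of the expectation of the sum only -/
theorem PvbE.of_sum {ι : Type} (S : Finset ι) {Y : ι → Ω → ℝ} {e : ℝ} (he : 0 ≤ e) (h0 : ∀ i ∈ S, ∀ ω, 0 ≤ Y i ω)
    (h : μ.E (fun ω => ∑ i ∈ S, ENNReal.ofReal (Y i ω)) ≤ ENNReal.ofReal e) : PvbE μ (fun ω => ∑ i ∈ S, Y i ω) e := by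
  refine ⟨fun ω => Finset.sum_nonneg fun i hi => h0 i hi ω, he, ?_⟩
  have e1 : ∀ ω, ENNReal.ofReal (∑ i ∈ S, Y i ω) = ∑ i ∈ S, ENNReal.ofReal (Y i ω) := fun ω => ENNReal.ofReal_sum_of_nonneg fun i hi => h0 i hi ω
  simp only [e1]
  exact h

/-- Markov -/
theorem PvbE.markov {Y : Ω → ℝ} {e : ℝ} (h : PvbE μ Y e) {ξ : ℝ} (hξ : 0 < ξ) : (μ.P {ω | ξ < Y ω}).toReal ≤ e / ξ := by
  have h1 : μ.P {ω | ξ < Y ω} ≤ μ.P {ω | ENNReal.ofReal ξ ≤ ENNReal.ofReal (Y ω)} :=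
    μ.P_mono fun ω (hω : ξ < Y ω) => ENNReal.ofReal_le_ofReal hω.le
  have h2 := μ.markov (fun ω => ENNReal.ofReal (Y ω)) (t := ENNReal.ofReal ξ) (by simpa using hξ) ENNReal.ofReal_ne_top
  have h3 : μ.P {ω | ξ < Y ω} ≤ ENNReal.ofReal (e / ξ) := by
    rw [ENNReal.ofReal_div_of_pos hξ]
    exact h1.trans (h2.trans (ENNReal.div_le_div_right h.le _))
  exact ENNReal.toReal_le_of_le_ofReal (div_nonneg h.e0 hξ.le) h3

/-- the indicator of an arbitrary event -/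
theorem pvb_hull (A : Set Ω) {e : ℝ} (he : (μ.P A).toReal ≤ e) :
    ∃ Y : Ω → ℝ, PvbE μ Y e ∧ ∀ ω ∈ A, 1 ≤ Y ω := by
  refine ⟨A.indicator fun _ => 1, ⟨fun ω => Set.indicator_nonneg (fun _ _ => zero_le_one) ω, ENNReal.toReal_nonneg.trans he, ?_⟩, fun ω hω => ?_⟩
  · have e1 : ∀ ω, ENNReal.ofReal (A.indicator (fun _ => (1 : ℝ)) ω) = A.indicator (fun _ => (1 : ENNReal)) ω := by
      intro ω
      by_cases hω : ω ∈ A <;> simp [hω]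
    simp only [e1]
    exact (ENNReal.le_ofReal_iff_toReal_le (μ.P_ne_top A) (ENNReal.toReal_nonneg.trans he)).2 he
  · rw [Set.indicator_of_mem hω]

/-- real-valued forms of monotonicity and of the union bound -/
theorem pvb_P_mono {A B : Set Ω} (h : A ⊆ B) : (μ.P A).toReal ≤ (μ.P B).toReal :=
  ENNReal.toReal_mono (μ.P_ne_top B) (μ.P_mono h)

theorem pvb_P_union (A B : Set Ω) : (μ.P (A ∪ B)).toReal ≤ (μ.P A).toReal + (μ.P B).toReal := by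
  rw [← ENNReal.toReal_add (μ.P_ne_top A) (μ.P_ne_top B)]
  exact ENNReal.toReal_mono (ENNReal.add_ne_top.2 ⟨μ.P_ne_top A, μ.P_ne_top B⟩) (μ.P_union_le A B)

theorem pvb_P_biUnion {ι : Type} (S : Finset ι) (A : ι → Set Ω) : (μ.P (⋃ i ∈ S, A i)).toReal ≤ ∑ i ∈ S, (μ.P (A i)).toReal := by
  rw [← ENNReal.toReal_sum fun i _ => μ.P_ne_top (A i)]
  exact ENNReal.toReal_mono (ENNReal.sum_ne_top.2 fun i _ => μ.P_ne_top (A i)) (μ.P_biUnion_le S A)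

end E

/-! ## C. dyadic squares, patterns, atoms -/

/-- the four children of a square -/
def pvbKids (p : ℤ × ℤ) : Finset (ℤ × ℤ) := {(2 * p.1, 2 * p.2), (2 * p.1 + 1, 2 * p.2), (2 * p.1, 2 * p.2 + 1), (2 * p.1 + 1, 2 * p.2 + 1)}

/-- the descendants of generation `j` of the squares of `B` -/
def pvbBox (B : Finset (ℤ × ℤ)) : ℕ → Finset (ℤ × ℤ)
  | 0 => B
  | j + 1 => (pvbBox B j).biUnion pvbKids

/-- side of the squares of generation `j` -/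
noncomputable def pvbSide (h : ℝ) (j : ℕ) : ℝ := h / 2 ^ j

theorem pvb_side_zero (h : ℝ) : pvbSide h 0 = h := by simp [pvbSide]

theorem pvb_side_succ (h : ℝ) (j : ℕ) : pvbSide h (j + 1) = pvbSide h j / 2 := by
  unfold pvbSide; rw [pow_succ]; field_simp

theorem pvb_side_pos {h : ℝ} (h0 : 0 < h) (j : ℕ) : 0 < pvbSide h j := by unfold pvbSide; positivity

theorem pvb_side_le {h : ℝ} (h0 : 0 < h) (j : ℕ) : pvbSide h j ≤ h := by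
  unfold pvbSide
  exact div_le_self h0.le (one_le_pow₀ (by norm_num))

theorem pvb_floor_two (t : ℝ) : ⌊2 * t⌋ = 2 * ⌊t⌋ ∨ ⌊2 * t⌋ = 2 * ⌊t⌋ + 1 := by
  have h1 := Int.floor_le t
  have h2 := Int.lt_floor_add_one t
  have h3 : 2 * ⌊t⌋ ≤ ⌊2 * t⌋ := Int.le_floor.2 (by push_cast; linarith)
  have h4 : ⌊2 * t⌋ < 2 * ⌊t⌋ + 2 := Int.floor_lt.2 (by push_cast; linarith)
  omega

theorem pvb_sq_half {s : ℝ} (hs : 0 < s) (t : ℝ) : t / (s / 2) = 2 * (t / s) := by field_simp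

theorem pvb_sq_kid {s : ℝ} (hs : 0 < s) (w : ℂ) : pvbSqIdx (s / 2) w ∈ pvbKids (pvbSqIdx s w) := by
  unfold pvbSqIdx pvbKids
  rw [pvb_sq_half hs, pvb_sq_half hs]
  simp only [Finset.mem_insert, Finset.mem_singleton, Prod.mk.injEq]
  rcases pvb_floor_two (w.re / s) with h1 | h1 <;> rcases pvb_floor_two (w.im / s) with h2 | h2 <;> simp [h1, h2]

theorem pvb_kid_par {p q : ℤ × ℤ} (h : q ∈ pvbKids p) : p = (q.1 / 2, q.2 / 2) := by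
  unfold pvbKids at h
  simp only [Finset.mem_insert, Finset.mem_singleton] at h
  obtain ⟨p1, p2⟩ := p
  rcases h with h | h | h | h <;> subst h <;> simp only [Prod.mk.injEq] <;> constructor <;> omega

theorem pvb_sq_par {s : ℝ} (hs : 0 < s) (w : ℂ) : pvbSqIdx s w = ((pvbSqIdx (s / 2) w).1 / 2, (pvbSqIdx (s / 2) w).2 / 2) :=
  pvb_kid_par (pvb_sq_kid hs w)

theorem pvb_sq_nest {h : ℝ} (h0 : 0 < h) (j : ℕ) {w w' : ℂ} (e : pvbSqIdx (pvbSide h (j + 1)) w = pvbSqIdx (pvbSide h (j + 1)) w') :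
    pvbSqIdx (pvbSide h j) w = pvbSqIdx (pvbSide h j) w' := by
  rw [pvb_side_succ] at e
  rw [pvb_sq_par (pvb_side_pos h0 j) w, pvb_sq_par (pvb_side_pos h0 j) w', e]

theorem pvb_sq_nest0 {h : ℝ} (h0 : 0 < h) (j : ℕ) {w w' : ℂ} (e : pvbSqIdx (pvbSide h j) w = pvbSqIdx (pvbSide h j) w') :
    pvbSqIdx h w = pvbSqIdx h w' := by
  induction j with
  | zero => simpa [pvb_side_zero] using e
  | succ j ih => exact ih (pvb_sq_nest h0 j e)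

theorem pvb_box_mem {h : ℝ} (h0 : 0 < h) (B : Finset (ℤ × ℤ)) (j : ℕ) {w : ℂ} (hw : pvbSqIdx h w ∈ B) : pvbSqIdx (pvbSide h j) w ∈ pvbBox B j := by
  induction j with
  | zero => simpa [pvb_side_zero, pvbBox] using hw
  | succ j ih =>
    rw [pvb_side_succ]
    exact Finset.mem_biUnion.2 ⟨_, ih, pvb_sq_kid (pvb_side_pos h0 j) w⟩

theorem pvb_box_anc {h : ℝ} (h0 : 0 < h) (B : Finset (ℤ × ℤ)) (j : ℕ) {w : ℂ} (hw : pvbSqIdx (pvbSide h j) w ∈ pvbBox B j) : pvbSqIdx h w ∈ B := by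
  induction j with
  | zero => simpa [pvb_side_zero, pvbBox] using hw
  | succ j ih =>
    obtain ⟨p, hp, hq⟩ := Finset.mem_biUnion.1 hw
    refine ih ?_
    have e1 := pvb_kid_par hq
    rw [pvb_side_succ] at e1
    rw [pvb_sq_par (pvb_side_pos h0 j) w, ← e1]
    exact hp

theorem pvb_kids_card (p : ℤ × ℤ) : (pvbKids p).card ≤ 4 := by
  unfold pvbKids
  exact Finset.card_le_four

theorem pvb_box_card (B : Finset (ℤ × ℤ)) (j : ℕ) : ((pvbBox B j).card : ℝ) ≤ 4 ^ j * B.card := by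
  induction j with
  | zero => simp [pvbBox]
  | succ j ih =>
    have h1 : (pvbBox B (j + 1)).card ≤ (pvbBox B j).card * 4 := Finset.card_biUnion_le_card_mul _ _ _ fun p _ => pvb_kids_card p
    have h2 : ((pvbBox B (j + 1)).card : ℝ) ≤ (pvbBox B j).card * 4 := by exact_mod_cast h1
    rw [pow_succ]
    linarith

theorem pvb_sq_ctr_idx {s : ℝ} (hs : 0 < s) (p : ℤ × ℤ) : pvbSqIdx s (pvbSqCtr s p) = p := by
  unfold pvbSqIdx pvbSqCtr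
  simp only [mul_div_assoc, div_self hs.ne', mul_one]
  have : ∀ k : ℤ, ⌊(k : ℝ) + 1 / 2⌋ = k := fun k => by
    rw [Int.floor_eq_iff]; constructor <;> linarith
  rw [this, this]

theorem pvb_sq_dist {s : ℝ} (hs : 0 < s) (w : ℂ) : ‖w - pvbSqCtr s (pvbSqIdx s w)‖ ≤ s := by
  have key : ∀ t : ℝ, |t - ((⌊t / s⌋ : ℝ) + 1 / 2) * s| ≤ s / 2 := by
    intro t
    have h1 := Int.floor_le (t / s)
    have h2 := Int.lt_floor_add_one (t / s)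
    rw [le_div_iff₀ hs] at h1
    rw [div_lt_iff₀ hs] at h2
    rw [abs_le]
    constructor <;> nlinarith
  have h3 := Complex.norm_le_abs_re_add_abs_im (w - pvbSqCtr s (pvbSqIdx s w))
  have h4 := key w.re
  have h5 := key w.im
  simp only [pvbSqCtr, pvbSqIdx, Complex.sub_re, Complex.sub_im] at h3 ⊢
  linarith

theorem pvb_sq_meas (s : ℝ) : Measurable (pvbSqIdx s) := by
  unfold pvbSqIdx
  exact (Int.measurable_floor.comp (Complex.measurable_re.div_const s)).prodMk (Int.measurable_floor.comp (Complex.measurable_im.div_const s))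

section pat

variable {τ : Type} [Fintype τ] (𝔐 : PvbMenu τ) (h : ℝ) (Gr : Finset ℂ)

theorem pvb_pat_same {w w' : ℂ} (e : pvbCutPat 𝔐 h Gr w = pvbCutPat 𝔐 h Gr w') : PvbSamePat 𝔐 h Gr w w' := by
  classical
  intro g hg t
  have h1 : (g, t) ∈ pvbCutPat 𝔐 h Gr w ↔ PvbInCut 𝔐 h g t w := by simp [pvbCutPat, hg]
  have h2 : (g, t) ∈ pvbCutPat 𝔐 h Gr w' ↔ PvbInCut 𝔐 h g t w' := by simp [pvbCutPat, hg]
  rw [← h1, ← h2, e]

theorem pvb_pat_mem (w : ℂ) : pvbCutPat 𝔐 h Gr w ∈ (Gr ×ˢ (Finset.univ : Finset τ)).powerset := by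
  classical
  exact Finset.mem_powerset.2 (Finset.filter_subset _ _)

theorem pvb_cut_meas (g : ℂ) (t : τ) : MeasurableSet {w : ℂ | PvbInCut 𝔐 h g t w} := by
  unfold PvbInCut
  exact measurableSet_le (measurable_id.sub_const g).norm measurable_const

theorem pvb_pat_meas (q : Finset (ℂ × τ)) : MeasurableSet {w : ℂ | pvbCutPat 𝔐 h Gr w = q} := by
  classical
  have e : {w : ℂ | pvbCutPat 𝔐 h Gr w = q} = ⋂ p ∈ (Gr ×ˢ (Finset.univ : Finset τ)) ∪ q, {w : ℂ | p ∈ pvbCutPat 𝔐 h Gr w ↔ p ∈ q} := by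
    ext w
    simp only [Set.mem_ofPred_eq, Set.mem_iInter]
    constructor
    · intro hw p _; rw [hw]
    · intro hw
      ext p
      by_cases hp : p ∈ (Gr ×ˢ (Finset.univ : Finset τ)) ∪ q
      · exact hw p hp
      · rw [Finset.mem_union, not_or] at hp
        constructor
        · intro h1; exact absurd (Finset.mem_of_mem_filter p h1) hp.1
        · intro h1; exact absurd h1 hp.2
  rw [e]
  refine Finset.measurableSet_biInter _ fun p _ => ?_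
  by_cases hq : p ∈ q
  · by_cases hp : p ∈ Gr ×ˢ (Finset.univ : Finset τ)
    · have : {w : ℂ | p ∈ pvbCutPat 𝔐 h Gr w ↔ p ∈ q} = {w : ℂ | PvbInCut 𝔐 h p.1 p.2 w} := by
        ext w; simp [pvbCutPat, hq, hp]
      rw [this]; exact pvb_cut_meas 𝔐 h _ _
    · have : {w : ℂ | p ∈ pvbCutPat 𝔐 h Gr w ↔ p ∈ q} = ∅ := by
        ext w; simp [pvbCutPat, hq, hp]
      rw [this]; exact MeasurableSet.empty
  · by_cases hp : p ∈ Gr ×ˢ (Finset.univ : Finset τ)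
    · have : {w : ℂ | p ∈ pvbCutPat 𝔐 h Gr w ↔ p ∈ q} = {w : ℂ | PvbInCut 𝔐 h p.1 p.2 w}ᶜ := by
        ext w; simp [pvbCutPat, hq, hp]
      rw [this]; exact (pvb_cut_meas 𝔐 h _ _).compl
    · have : {w : ℂ | p ∈ pvbCutPat 𝔐 h Gr w ↔ p ∈ q} = Set.univ := by
        ext w; simp [pvbCutPat, hq, hp]
      rw [this]; exact MeasurableSet.univ

end pat

/-! ## D. the deterministic bound of the mixed atoms on one rim -/

/-- counting by fibres -/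
theorem pvb_card_fiber {α β : Type} (S : Finset (α × β)) (U : Finset α) (K : ℕ) (hU : ∀ d ∈ S, d.1 ∈ U)
    (hK : ∀ p ∈ U, ∀ Q : Finset β, (∀ q ∈ Q, (p, q) ∈ S) → Q.card ≤ K) : S.card ≤ K * U.card := by
  classical
  rw [Finset.card_eq_sum_card_fiberwise (f := Prod.fst) (t := U) (fun d hd => hU d hd)]
  have h1 : ∀ p ∈ U, (S.filter fun d => d.1 = p).card ≤ K := by
    intro p hp
    have hinj : Set.InjOn Prod.snd ((S.filter fun d => d.1 = p) : Set (α × β)) := by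
      intro d hd d' hd' e
      have a1 := (Finset.mem_filter.1 hd).2
      have a2 := (Finset.mem_filter.1 hd').2
      exact Prod.ext (a1.trans a2.symm) e
    rw [← Finset.card_image_of_injOn hinj]
    refine hK p hp _ fun q hq => ?_
    obtain ⟨d, hd, rfl⟩ := Finset.mem_image.1 hq
    have a1 := Finset.mem_filter.1 hd
    have : (p, d.2) = d := Prod.ext a1.2.symm rfl
    rw [this]; exact a1.1
  calc ∑ p ∈ U, (S.filter fun d => d.1 = p).card ≤ ∑ _p ∈ U, K := Finset.sum_le_sum h1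
    _ = K * U.card := by rw [Finset.sum_const, smul_eq_mul, mul_comm]

open Classical in
/-- number of marked squares (times the multiplicity of the atoms): occupied squares at the level `0`, children of squares with a near return at the level `j - 1` -/
noncomputable def pvbCnt (h μ : ℝ) (Box : Finset (ℤ × ℤ)) (Kp : ℕ) (P : PvbRim) (j : ℕ) : ℝ :=
  if j = 0 then (Kp : ℝ) * ((Box.filter fun p => PvbVisits P (pvbSqCtr h p) (2 * h)).card : ℝ)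
  else 4 * (Kp : ℝ) * (((pvbBox Box (j - 1)).filter fun p => PvbNearRet P (pvbSqCtr (pvbSide h (j - 1)) p) (pvbSide h (j - 1) + μ) (90 * h)).card : ℝ)

/-- the deterministic atom `D` of the level `j` -/
def PvbAtom {τ : Type} [Fintype τ] (𝔐 : PvbMenu τ) (x : ℂ) (R h : ℝ) (Gr : Finset ℂ) (j : ℕ) (D : (ℤ × ℤ) × Finset (ℂ × τ)) (w : ℂ) : Prop :=
  ‖w - x‖ < 3 * R / 2 ∧ pvbSqIdx (pvbSide h j) w = D.1 ∧ pvbCutPat 𝔐 h Gr w = D.2

open Classical in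
/-- the mask of an atom -/
noncomputable def pvbG1 {τ : Type} [Fintype τ] (𝔐 : PvbMenu τ) (x : ℂ) (R h : ℝ) (Gr : Finset ℂ) (j : ℕ) (D : (ℤ × ℤ) × Finset (ℂ × τ)) (w : ℂ) : ℂ :=
  if PvbAtom 𝔐 x R h Gr j D w then 1 else 0

open Classical in
/-- the normalised oscillation of `f` on an atom -/
noncomputable def pvbG2 {τ : Type} [Fintype τ] (𝔐 : PvbMenu τ) (x : ℂ) (R h : ℝ) (Gr : Finset ℂ) (f : ℂ → ℂ) (Cf : ℝ) (j : ℕ) (D : (ℤ × ℤ) × Finset (ℂ × τ)) (w : ℂ) : ℂ :=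
  if PvbAtom 𝔐 x R h Gr j D w then (((Cf * pvbSide h j)⁻¹ : ℝ) : ℂ) * (f w - f (pvbSqCtr (pvbSide h j) D.1)) else 0

/-- all candidate atoms of the level `j` -/
noncomputable def pvbAtoms {τ : Type} [Fintype τ] (Gr : Finset ℂ) (Box : Finset (ℤ × ℤ)) (j : ℕ) : Finset ((ℤ × ℤ) × Finset (ℂ × τ)) :=
  pvbBox Box j ×ˢ (Gr ×ˢ (Finset.univ : Finset τ)).powerset

/-- the Bessel sum of the rim at the level `j` -/
noncomputable def pvbBes {τ : Type} [Fintype τ] (𝔐 : PvbMenu τ) (x : ℂ) (R h : ℝ) (Gr : Finset ℂ) (Box : Finset (ℤ × ℤ)) (f : ℂ → ℂ) (Cf : ℝ) (P : PvbRim) (xx : ℕ → ℂ) (j : ℕ) : ℝ :=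
  ∑ D ∈ pvbAtoms (τ := τ) Gr Box j, (‖P.fld xx (pvbG1 𝔐 x R h Gr j D)‖ ^ 2 + ‖P.fld xx (pvbG2 𝔐 x R h Gr f Cf j D)‖ ^ 2)

section rim

variable {τ : Type} [Fintype τ] {𝔐 : PvbMenu τ} {x : ℂ} {R h r μ Cf : ℝ} {f : ℂ → ℂ} {P : PvbRim} {pins : Set (PvbPin τ)}

open Classical in
theorem pvb_fld_G1 (Gr : Finset ℂ) (xx : ℕ → ℂ) (j : ℕ) (D : (ℤ × ℤ) × Finset (ℂ × τ)) :
    P.fld xx (pvbG1 𝔐 x R h Gr j D) = ∑ k ∈ (range P.len).filter (fun k => PvbAtom 𝔐 x R h Gr j D (P.z k)), xx k := by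
  unfold PvbRim.fld pvbG1
  rw [Finset.sum_filter]
  refine Finset.sum_congr rfl fun k _ => ?_
  split_ifs <;> simp

open Classical in
theorem pvb_fld_G2 (Gr : Finset ℂ) (xx : ℕ → ℂ) (j : ℕ) (D : (ℤ × ℤ) × Finset (ℂ × τ)) :
    P.fld xx (pvbG2 𝔐 x R h Gr f Cf j D) = (((Cf * pvbSide h j)⁻¹ : ℝ) : ℂ) *
      ∑ k ∈ (range P.len).filter (fun k => PvbAtom 𝔐 x R h Gr j D (P.z k)), (f (P.z k) - f (pvbSqCtr (pvbSide h j) D.1)) * xx k := by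
  unfold PvbRim.fld pvbG2
  rw [Finset.sum_filter, Finset.mul_sum]
  refine Finset.sum_congr rfl fun k _ => ?_
  split_ifs <;> simp [mul_assoc]

open Classical in
/-- the tags in `B(x, 3R/2)` -/
noncomputable def pvbT (x : ℂ) (R : ℝ) (P : PvbRim) : Finset ℕ := (range P.len).filter (fun k => ‖P.z k - x‖ < 3 * R / 2)

/-- the atom of the level `j` of the tag `k` -/
noncomputable def pvbAt (𝔐 : PvbMenu τ) (h : ℝ) (Gr : Finset ℂ) (P : PvbRim) (j k : ℕ) : (ℤ × ℤ) × Finset (ℂ × τ) :=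
  (pvbSqIdx (pvbSide h j) (P.z k), pvbCutPat 𝔐 h Gr (P.z k))

omit [Fintype τ] in
theorem pvb_T_mem (k : ℕ) : k ∈ pvbT x R P ↔ k < P.len ∧ ‖P.z k - x‖ < 3 * R / 2 := by
  classical
  rw [pvbT, Finset.mem_filter, Finset.mem_range]

/-- a mixed pair gives a near return -/
theorem pvb_rim_mix (h0 : 0 < h) (Gr : Finset ℂ) (Box : Finset (ℤ × ℤ)) (hcov : ∀ w, ‖w - x‖ < 3 * R / 2 → pvbSqIdx h w ∈ Box) (c : ℕ → ℂ)
    (hc3 : ∀ k < P.len, ∀ k' < P.len, c k ≠ c k' → PvbSamePat 𝔐 h Gr (P.z k) (P.z k') → ∀ (y : ℂ) (s : ℝ), s ≤ h →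
        ‖P.z k - y‖ ≤ s → ‖P.z k' - y‖ ≤ s → PvbNearRet P y (s + μ) (90 * h))
    (j : ℕ) {k k' : ℕ} (hk : k ∈ pvbT x R P) (hk' : k' ∈ pvbT x R P) (hAA : pvbAt 𝔐 h Gr P j k' = pvbAt 𝔐 h Gr P j k) (hne : c k' ≠ c k) :
    pvbSqIdx (pvbSide h j) (P.z k) ∈ pvbBox Box j ∧ PvbNearRet P (pvbSqCtr (pvbSide h j) (pvbSqIdx (pvbSide h j) (P.z k))) (pvbSide h j + μ) (90 * h) := by
  have a1 := (pvb_T_mem k).1 hk
  have a2 := (pvb_T_mem k').1 hk'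
  have b1 : pvbSqIdx (pvbSide h j) (P.z k') = pvbSqIdx (pvbSide h j) (P.z k) := congrArg Prod.fst hAA
  have b2 : pvbCutPat 𝔐 h Gr (P.z k') = pvbCutPat 𝔐 h Gr (P.z k) := congrArg Prod.snd hAA
  refine ⟨pvb_box_mem h0 Box j (hcov _ a1.2), ?_⟩
  refine hc3 k' a2.1 k a1.1 hne (pvb_pat_same 𝔐 h Gr b2) _ _ (pvb_side_le h0 j) ?_ (pvb_sq_dist (pvb_side_pos h0 j) _)
  rw [← b1]
  exact pvb_sq_dist (pvb_side_pos h0 j) _

/-- the count of the atoms with a mixed parent -/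
theorem pvb_rim_cnt (par : PvbPar 𝔐 R h r μ) (hR0 : 0 < R) (hP : PvbRimGood 𝔐 x R h r μ P pins) (Gr : Finset ℂ)
    (Box : Finset (ℤ × ℤ)) (Kp : ℕ) (hcov : ∀ w, ‖w - x‖ < 3 * R / 2 → pvbSqIdx h w ∈ Box)
    (hpat : ∀ (p : ℤ × ℤ) (S : Finset (Finset (ℂ × τ))), (∀ q ∈ S, ∃ w, pvbSqIdx h w = p ∧ pvbCutPat 𝔐 h Gr w = q) → S.card ≤ Kp)
    (c : ℕ → ℂ)
    (hc3 : ∀ k < P.len, ∀ k' < P.len, c k ≠ c k' → PvbSamePat 𝔐 h Gr (P.z k) (P.z k') → ∀ (y : ℂ) (s : ℝ), s ≤ h →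
        ‖P.z k - y‖ ≤ s → ‖P.z k' - y‖ ≤ s → PvbNearRet P y (s + μ) (90 * h))
    (j : ℕ) (S : Finset ((ℤ × ℤ) × Finset (ℂ × τ)))
    (hS : ∀ d ∈ S, ∃ k ∈ pvbT x R P, (j = 0 ∨ ∃ k' ∈ pvbT x R P, pvbAt 𝔐 h Gr P (j - 1) k' = pvbAt 𝔐 h Gr P (j - 1) k ∧ c k' ≠ c k) ∧ pvbAt 𝔐 h Gr P j k = d) :
    (S.card : ℝ) ≤ pvbCnt h μ Box Kp P j := by
  classical
  have h0 := par.h0
  rcases Nat.eq_zero_or_pos j with rfl | hj
  · have hc := pvb_card_fiber S (Box.filter fun p => PvbVisits P (pvbSqCtr h p) (2 * h)) Kp ?_ ?_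
    · unfold pvbCnt
      rw [if_pos rfl]
      exact_mod_cast hc
    · intro d hd
      obtain ⟨k, hk, -, rfl⟩ := hS d hd
      have a1 := (pvb_T_mem k).1 hk
      simp only [pvbAt, pvb_side_zero]
      refine Finset.mem_filter.2 ⟨hcov _ a1.2, k, a1.1.le, ?_⟩
      have b1 := hP.mesh_z k a1.1 (Or.inr (by linarith))
      have b2 := pvb_sq_dist h0 (P.z k)
      have b3 := pvb_tri (P.v k) (P.z k) (pvbSqCtr h (pvbSqIdx h (P.z k)))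
      rw [norm_sub_rev] at b1
      have := par.mu_h
      linarith
    · intro p _ Q hQ
      refine hpat p Q fun q hq => ?_
      obtain ⟨k, _, -, hk2⟩ := hS _ (hQ q hq)
      simp only [pvbAt, pvb_side_zero, Prod.mk.injEq] at hk2
      exact ⟨P.z k, hk2.1, hk2.2⟩
  · obtain ⟨i, rfl⟩ : ∃ i, j = i + 1 := ⟨j - 1, by omega⟩
    have hc := pvb_card_fiber S
      (((pvbBox Box i).filter fun p => PvbNearRet P (pvbSqCtr (pvbSide h i) p) (pvbSide h i + μ) (90 * h)).biUnion pvbKids) Kp ?_ ?_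
    · have hc2 : (((pvbBox Box i).filter fun p => PvbNearRet P (pvbSqCtr (pvbSide h i) p) (pvbSide h i + μ) (90 * h)).biUnion pvbKids).card
          ≤ ((pvbBox Box i).filter fun p => PvbNearRet P (pvbSqCtr (pvbSide h i) p) (pvbSide h i + μ) (90 * h)).card * 4 :=
        Finset.card_biUnion_le_card_mul _ _ _ fun p _ => pvb_kids_card p
      have hc3 := hc.trans (Nat.mul_le_mul_left Kp hc2)
      unfold pvbCnt
      rw [if_neg (Nat.succ_ne_zero i), Nat.add_sub_cancel]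
      have hc4 : ((S.card : ℕ) : ℝ)
          ≤ ((Kp * (((pvbBox Box i).filter fun p => PvbNearRet P (pvbSqCtr (pvbSide h i) p) (pvbSide h i + μ) (90 * h)).card * 4) : ℕ) : ℝ) := by
        exact_mod_cast hc3
      refine hc4.trans (le_of_eq ?_)
      push_cast
      ring
    · intro d hd
      obtain ⟨k, hkT, hk2, rfl⟩ := hS d hd
      rcases hk2 with hk2 | ⟨k', hk', hAA, hne⟩
      · exact absurd hk2 (Nat.succ_ne_zero i)
      · rw [Nat.add_sub_cancel] at hAA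
        obtain ⟨m1, m2⟩ := pvb_rim_mix h0 Gr Box hcov c hc3 i hkT hk' hAA hne
        refine Finset.mem_biUnion.2 ⟨_, Finset.mem_filter.2 ⟨m1, m2⟩, ?_⟩
        simp only [pvbAt, pvb_side_succ]
        exact pvb_sq_kid (pvb_side_pos h0 i) _
    · intro p _ Q hQ
      rcases Q.eq_empty_or_nonempty with rfl | ⟨q0, hq0⟩
      · simp
      · obtain ⟨k0, _, -, hk0⟩ := hS _ (hQ q0 hq0)
        simp only [pvbAt, Prod.mk.injEq] at hk0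
        refine hpat (pvbSqIdx h (P.z k0)) Q fun q hq => ?_
        obtain ⟨k, _, -, hk2⟩ := hS _ (hQ q hq)
        simp only [pvbAt, Prod.mk.injEq] at hk2
        exact ⟨P.z k, pvb_sq_nest0 h0 (i + 1) (hk2.1.trans hk0.1.symm), hk2.2⟩

/-- one term of the Bessel sum -/
theorem pvb_rim_term (Gr : Finset ℂ) (xx : ℕ → ℂ) (j : ℕ) (D : (ℤ × ℤ) × Finset (ℂ × τ)) (F : Finset ℕ)
    (hF : ∀ k, k ∈ F ↔ k ∈ pvbT x R P ∧ pvbAt 𝔐 h Gr P j k = D) :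
    ‖∑ k ∈ F, xx k‖ ^ 2 + ((Cf * pvbSide h j)⁻¹) ^ 2 * ‖∑ k ∈ F, (f (P.z k) - f (pvbSqCtr (pvbSide h j) D.1)) * xx k‖ ^ 2
      = ‖P.fld xx (pvbG1 𝔐 x R h Gr j D)‖ ^ 2 + ‖P.fld xx (pvbG2 𝔐 x R h Gr f Cf j D)‖ ^ 2 := by
  classical
  have hfil : F = (range P.len).filter (fun k => PvbAtom 𝔐 x R h Gr j D (P.z k)) := by
    ext k
    rw [hF, pvb_T_mem, Finset.mem_filter, Finset.mem_range]
    simp only [PvbAtom, pvbAt]
    constructor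
    · rintro ⟨⟨a1, a2⟩, a3⟩
      exact ⟨a1, a2, congrArg Prod.fst a3, congrArg Prod.snd a3⟩
    · rintro ⟨a1, a2, a3, a4⟩
      exact ⟨⟨a1, a2⟩, Prod.ext a3 a4⟩
  rw [pvb_fld_G1, pvb_fld_G2, hfil, norm_mul, mul_pow, Complex.norm_real, Real.norm_eq_abs, sq_abs]

/-- **the mixed atoms on one rim** (`pvb_dyadic` at the squares of side `h 2^-j` and the patterns) -/
theorem pvb_rim_dy [Nonempty τ] (par : PvbPar 𝔐 R h r μ) (hCf : 0 < Cf) (hf : PvbTest x R Cf f) (hP : PvbRimGood 𝔐 x R h r μ P pins) (Gr : Finset ℂ)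
    (Box : Finset (ℤ × ℤ)) (Kp : ℕ) (hcov : ∀ w, ‖w - x‖ < 3 * R / 2 → pvbSqIdx h w ∈ Box)
    (hpat : ∀ (p : ℤ × ℤ) (S : Finset (Finset (ℂ × τ))), (∀ q ∈ S, ∃ w, pvbSqIdx h w = p ∧ pvbCutPat 𝔐 h Gr w = q) → S.card ≤ Kp)
    (c : ℕ → ℂ) (hc1 : ∀ k < P.len, ‖c k - f (P.z k)‖ ≤ 6 * Cf * r) (hc2 : ∀ k < P.len, 3 * R / 2 ≤ ‖P.z k - x‖ → c k = 0)
    (hc3 : ∀ k < P.len, ∀ k' < P.len, c k ≠ c k' → PvbSamePat 𝔐 h Gr (P.z k) (P.z k') → ∀ (y : ℂ) (s : ℝ), s ≤ h →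
        ‖P.z k - y‖ ≤ s → ‖P.z k' - y‖ ≤ s → PvbNearRet P y (s + μ) (90 * h))
    (J : ℕ) (hJ : ∀ p ∈ pvbBox Box J, ¬ PvbNearRet P (pvbSqCtr (pvbSide h J) p) (pvbSide h J + μ) (90 * h))
    (lam : ℕ → ℝ) (hlam : ∀ j ≤ J, 0 < lam j) (xx : ℕ → ℂ) :
    ‖∑ k ∈ range P.len, (f (P.z k) - c k) * xx k‖
      ≤ ∑ j ∈ range (J + 1), 7 * Cf * r * (lam j * pvbCnt h μ Box Kp P j + pvbBes 𝔐 x R h Gr Box f Cf P xx j / lam j) := by
  classical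
  obtain ⟨t0⟩ := ‹Nonempty τ›
  obtain ⟨hL, hhr, hr0, hR0, hμr⟩ := par.nums t0
  have h0 := par.h0
  have e1 : ∑ k ∈ range P.len, (f (P.z k) - c k) * xx k = ∑ k ∈ pvbT x R P, (f (P.z k) - c k) * xx k := by
    rw [pvbT, Finset.sum_filter]
    refine Finset.sum_congr rfl fun k hk => ?_
    split_ifs with hk2
    · rfl
    · rw [not_lt] at hk2
      rw [hc2 k (Finset.mem_range.1 hk) hk2, hf.supp _ (by linarith)]
      simp
  rw [e1]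
  refine pvb_dyadic (pvbT x R P) (pvbAt 𝔐 h Gr P) c (fun k => f (P.z k)) xx (fun j D => f (pvbSqCtr (pvbSide h j) D.1)) J (7 * Cf * r) (fun j => Cf * pvbSide h j)
    (fun j => pvbCnt h μ Box Kp P j) (fun j => pvbBes 𝔐 x R h Gr Box f Cf P xx j) lam ?_ ?_ ?_ ?_ ?_ ?_ hlam
  · -- nested
    intro j k k' e
    have e2 : pvbCutPat 𝔐 h Gr (P.z k) = pvbCutPat 𝔐 h Gr (P.z k') := congrArg Prod.snd e
    exact Prod.ext (pvb_sq_nest h0 j (congrArg Prod.fst e)) e2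
  · -- no mixed atom at the level J
    intro k hk k' hk' e
    by_contra hne
    obtain ⟨m1, m2⟩ := pvb_rim_mix h0 Gr Box hcov c hc3 J hk' hk e hne
    exact hJ _ m1 m2
  · -- closeness
    intro j _ k hk
    have a1 := (pvb_T_mem k).1 hk
    have b1 := hc1 k a1.1
    have b2 := hf.lip (P.z k) (pvbSqCtr (pvbSide h j) (pvbSqIdx (pvbSide h j) (P.z k)))
    have b3 := pvb_sq_dist (pvb_side_pos h0 j) (P.z k)
    have b4 := pvb_side_le h0 j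
    have b5 : Cf * ‖P.z k - pvbSqCtr (pvbSide h j) (pvbSqIdx (pvbSide h j) (P.z k))‖ ≤ Cf * r := mul_le_mul_of_nonneg_left (by linarith) hCf.le
    have b6 := pvb_tri (c k) (f (P.z k)) (f (pvbSqCtr (pvbSide h j) (pvbSqIdx (pvbSide h j) (P.z k))))
    simp only [pvbAt]
    linarith
  · intro j _
    have b4 := pvb_side_le h0 j
    refine ⟨mul_pos hCf (pvb_side_pos h0 j), ?_⟩
    have : Cf * pvbSide h j ≤ Cf * r := mul_le_mul_of_nonneg_left (by linarith) hCf.le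
    nlinarith [mul_pos hCf hr0]
  · -- the count
    intro j _
    refine pvb_rim_cnt par hR0 hP Gr Box Kp hcov hpat c hc3 j _ fun d hd => ?_
    simp only [Finset.mem_image, Finset.mem_filter] at hd
    obtain ⟨k, ⟨hk1, hk2⟩, rfl⟩ := hd
    exact ⟨k, hk1, hk2, rfl⟩
  · -- the Bessel sums
    intro j _
    refine le_trans (le_of_eq (Finset.sum_congr rfl fun D _ =>
      pvb_rim_term (𝔐 := 𝔐) (x := x) (R := R) (h := h) (Cf := Cf) (f := f) (P := P) Gr xx j D _ (fun k => ?_))) ?_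
    · simp only [Finset.mem_filter]
    unfold pvbBes
    refine Finset.sum_le_sum_of_subset_of_nonneg ?_ fun D _ _ => by positivity
    intro D hD
    simp only [Finset.mem_image] at hD
    obtain ⟨k, hk, rfl⟩ := hD
    have a1 := (pvb_T_mem k).1 hk
    exact Finset.mem_product.2 ⟨pvb_box_mem h0 Box j (hcov _ a1.2), pvb_pat_mem 𝔐 h Gr _⟩

end rim

/-! ## E. one rim on the good event; the dominating variables -/

/-- what holds for one rim on the good event (E4 + E5 + the domination by the Bessel variables) -/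
def PvbGoodAt {τ : Type} (𝔐 : PvbMenu τ) (x : ℂ) (R h r μ : ℝ) (Gr : Finset ℂ) (a : ℂ) (Err : ℝ) (P : PvbRim) (pins : Set (PvbPin τ))
    (β : PvbPin τ → ℂ) (Ψ : ℂ → τ → ℂ) (WQ WV : (ℂ → ℂ) → ℝ) : Prop :=
  PvbRimGood 𝔐 x R h r μ P pins ∧ (∀ s ∈ pins, ‖s.ctr - x‖ ≤ 2 * R → s.ctr ∈ Gr) ∧
    PvbRealArc 𝔐 x R h P pins (fun k => P.xQ k - a * P.xV k) β Ψ Err ∧
    (∀ g, ‖P.fld P.xQ g‖ ^ 2 ≤ WQ g) ∧ (∀ g, ‖P.fld P.xV g‖ ^ 2 ≤ WV g)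

open Classical in
/-- **one rim**: aggregate + mixed atoms -/
theorem pvb_rim_all {τ : Type} [Fintype τ] [Nonempty τ] {𝔐 : PvbMenu τ} {x : ℂ} {R h r μ Cf Err Aa : ℝ} {f : ℂ → ℂ} {P : PvbRim} {pins : Set (PvbPin τ)}
    (par : PvbPar 𝔐 R h r μ) (hCf : 0 < Cf) (hf : PvbTest x R Cf f) (Gr : Finset ℂ) (Box : Finset (ℤ × ℤ)) (Kp : ℕ)
    (hcov : ∀ w, ‖w - x‖ < 3 * R / 2 → pvbSqIdx h w ∈ Box)
    (hpat : ∀ (p : ℤ × ℤ) (S : Finset (Finset (ℂ × τ))), (∀ q ∈ S, ∃ w, pvbSqIdx h w = p ∧ pvbCutPat 𝔐 h Gr w = q) → S.card ≤ Kp)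
    {a : ℂ} (ha : ‖a‖ ≤ Aa) (hErr : 0 ≤ Err) {β : PvbPin τ → ℂ} {Ψ : ℂ → τ → ℂ} {WQ WV : (ℂ → ℂ) → ℝ}
    (hG : PvbGoodAt 𝔐 x R h r μ Gr a Err P pins β Ψ WQ WV)
    (J : ℕ) (hJ : ∀ p ∈ pvbBox Box J, ¬ PvbNearRet P (pvbSqCtr (pvbSide h J) p) (pvbSide h J + μ) (90 * h))
    (lam : ℕ → ℝ) (hlam : ∀ j ≤ J, 0 < lam j) :
    ‖P.fld P.xQ f - a * P.fld P.xV f‖ ≤
      7 * Cf * r * ∑ g ∈ Gr.filter (fun g => ‖g - x‖ ≤ 3 * R / 2 ∧ PvbVisits P g h), (Err + ∑ t, ‖Ψ g t‖)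
      + ∑ j ∈ range (J + 1), 7 * Cf * r * (lam j * pvbCnt h μ Box Kp P j + pvbBes 𝔐 x R h Gr Box f Cf P P.xQ j / lam j)
      + Aa * ∑ j ∈ range (J + 1), 7 * Cf * r * (lam j * pvbCnt h μ Box Kp P j + pvbBes 𝔐 x R h Gr Box f Cf P P.xV j / lam j) := by
  obtain ⟨hP, hGr, hRA, -, -⟩ := hG
  obtain ⟨c, hc1, hc2, hc3, hc4⟩ := pvb_coeff 𝔐 par hf hP Gr hGr
  have h1 := hc4 _ β Ψ Err hErr hRA
  have h2 := pvb_rim_dy par hCf hf hP Gr Box Kp hcov hpat c hc1 hc2 hc3 J hJ lam hlam P.xQ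
  have h3 := pvb_rim_dy par hCf hf hP Gr Box Kp hcov hpat c hc1 hc2 hc3 J hJ lam hlam P.xV
  have e : P.fld P.xQ f - a * P.fld P.xV f = ∑ k ∈ range P.len, c k * (P.xQ k - a * P.xV k)
      + ∑ k ∈ range P.len, (f (P.z k) - c k) * P.xQ k - a * ∑ k ∈ range P.len, (f (P.z k) - c k) * P.xV k := by
    unfold PvbRim.fld
    rw [Finset.mul_sum, Finset.mul_sum, ← Finset.sum_sub_distrib, ← Finset.sum_add_distrib, ← Finset.sum_sub_distrib]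
    exact Finset.sum_congr rfl fun k _ => by ring
  rw [e]
  have h4 : ‖a * ∑ k ∈ range P.len, (f (P.z k) - c k) * P.xV k‖
      ≤ Aa * ∑ j ∈ range (J + 1), 7 * Cf * r * (lam j * pvbCnt h μ Box Kp P j + pvbBes 𝔐 x R h Gr Box f Cf P P.xV j / lam j) := by
    rw [norm_mul]
    exact mul_le_mul ha h3 (norm_nonneg _) ((norm_nonneg _).trans ha)
  calc _ ≤ ‖∑ k ∈ range P.len, c k * (P.xQ k - a * P.xV k) + ∑ k ∈ range P.len, (f (P.z k) - c k) * P.xQ k‖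
        + ‖a * ∑ k ∈ range P.len, (f (P.z k) - c k) * P.xV k‖ := norm_sub_le _ _
    _ ≤ ‖∑ k ∈ range P.len, c k * (P.xQ k - a * P.xV k)‖ + ‖∑ k ∈ range P.len, (f (P.z k) - c k) * P.xQ k‖
        + ‖a * ∑ k ∈ range P.len, (f (P.z k) - c k) * P.xV k‖ := by gcongr; exact norm_add_le _ _
    _ ≤ _ := by gcongr

section dom

variable {Ω : Type} {μP : PvUp Ω} (rims : Ω → Set PvbRim)

/-- indicators of a family of rim events -/
theorem pvb_hulls {ι : Type} (S : Finset ι) (E : ι → PvbRim → Prop) {p : ℝ} (hp : 0 ≤ p)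
    (h : ∀ i ∈ S, (μP.P {ω | ∃ P ∈ rims ω, E i P}).toReal ≤ p) :
    ∃ Y : ι → Ω → ℝ, (∀ i, PvbE μP (Y i) p) ∧ ∀ i ∈ S, ∀ ω, ∀ P ∈ rims ω, E i P → 1 ≤ Y i ω := by
  classical
  have h1 : ∀ i, ∃ Y : Ω → ℝ, PvbE μP Y p ∧ (i ∈ S → ∀ ω, ∀ P ∈ rims ω, E i P → 1 ≤ Y ω) := by
    intro i
    by_cases hi : i ∈ S
    · obtain ⟨Y, hY, hY1⟩ := pvb_hull (μ := μP) _ (h i hi)
      exact ⟨Y, hY, fun _ ω P hP hE => hY1 ω ⟨P, hP, hE⟩⟩
    · exact ⟨fun _ => 0, PvbE.zero.mono hp, fun h => absurd h hi⟩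
  choose Y hY hY1 using h1
  exact ⟨Y, hY, hY1⟩

/-- the number of events of a family which are realised by one rim -/
theorem pvb_count_E {ι : Type} (S : Finset ι) (E : ι → PvbRim → Prop) {p : ℝ} (hp : 0 ≤ p)
    (h : ∀ i ∈ S, (μP.P {ω | ∃ P ∈ rims ω, E i P}).toReal ≤ p) :
    ∃ Y : Ω → ℝ, PvbE μP Y (S.card * p) ∧ ∀ ω, ∀ P ∈ rims ω, ∀ F : Finset ι, F ⊆ S → (∀ i ∈ F, E i P) → (F.card : ℝ) ≤ Y ω := by
  obtain ⟨Y, hY, hY1⟩ := pvb_hulls rims S E hp h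
  refine ⟨fun ω => ∑ i ∈ S, Y i ω, ?_, fun ω P hP F hF hE => ?_⟩
  · have := PvbE.sum S (fun i _ => hY i)
    simpa using this
  · calc (F.card : ℝ) = ∑ _i ∈ F, (1 : ℝ) := by simp
      _ ≤ ∑ i ∈ F, Y i ω := Finset.sum_le_sum fun i hi => hY1 i (hF hi) ω P hP (hE i hi)
      _ ≤ ∑ i ∈ S, Y i ω := Finset.sum_le_sum_of_subset_of_nonneg hF fun i _ _ => (hY i).nn ω

/-- the same from a bound of the EXPECTED NUMBER of realised events (no bound for the single events) -/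
theorem pvb_count_E' {ι : Type} (S : Finset ι) (E : ι → PvbRim → Prop) {e : ℝ} (he : 0 ≤ e)
    (h : μP.E (fun ω => ∑ i ∈ S, {ω | ∃ P ∈ rims ω, E i P}.indicator (fun _ => (1 : ENNReal)) ω) ≤ ENNReal.ofReal e) :
    ∃ Y : Ω → ℝ, PvbE μP Y e ∧ ∀ ω, ∀ P ∈ rims ω, ∀ F : Finset ι, F ⊆ S → (∀ i ∈ F, E i P) → (F.card : ℝ) ≤ Y ω := by
  have hnn : ∀ i ω, 0 ≤ {ω | ∃ P ∈ rims ω, E i P}.indicator (fun _ => (1 : ℝ)) ω := fun i ω => Set.indicator_nonneg (fun _ _ => zero_le_one) ω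
  refine ⟨fun ω => ∑ i ∈ S, {ω | ∃ P ∈ rims ω, E i P}.indicator (fun _ => (1 : ℝ)) ω, PvbE.of_sum S he (fun i _ ω => hnn i ω) ?_, fun ω P hP F hF hE => ?_⟩
  · have e1 : ∀ i ω, ENNReal.ofReal ({ω | ∃ P ∈ rims ω, E i P}.indicator (fun _ => (1 : ℝ)) ω) = {ω | ∃ P ∈ rims ω, E i P}.indicator (fun _ => (1 : ENNReal)) ω := by
      intro i ω
      by_cases hω : ω ∈ {ω | ∃ P ∈ rims ω, E i P} <;> simp [hω]
    simp only [e1]
    exact h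
  · calc (F.card : ℝ) = ∑ _i ∈ F, (1 : ℝ) := by simp
      _ ≤ ∑ i ∈ F, {ω | ∃ P ∈ rims ω, E i P}.indicator (fun _ => (1 : ℝ)) ω :=
          Finset.sum_le_sum fun i hi => by rw [Set.indicator_of_mem (show ω ∈ {ω | ∃ P ∈ rims ω, E i P} from ⟨P, hP, hE i hi⟩)]
      _ ≤ _ := Finset.sum_le_sum_of_subset_of_nonneg hF fun i _ _ => hnn i ω

open Classical in
/-- the aggregate -/
theorem pvb_agg_E {τ : Type} [Fintype τ] (x : ℂ) (R h : ℝ) (Gr : Finset ℂ) (Ψ : Ω → ℂ → τ → ℂ)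
    {p1 e2 Err lamA : ℝ} (hErr : 0 ≤ Err) (hlam : 0 < lamA) (hp1 : 0 ≤ p1) (he2 : 0 ≤ e2)
    (harm : ∀ g ∈ Gr, ‖g - x‖ ≤ 3 * R / 2 → (μP.P {ω | ∃ P ∈ rims ω, PvbVisits P g h}).toReal ≤ p1)
    (hΨ : ∀ g ∈ Gr, ∀ t, μP.E (fun ω => ENNReal.ofReal (‖Ψ ω g t‖ ^ 2)) ≤ ENNReal.ofReal e2) :
    ∃ Y : Ω → ℝ, PvbE μP Y (Gr.card * (Err * p1 + Fintype.card τ * (lamA * p1 + e2 / lamA))) ∧
      ∀ ω, ∀ P ∈ rims ω, ∑ g ∈ Gr.filter (fun g => ‖g - x‖ ≤ 3 * R / 2 ∧ PvbVisits P g h), (Err + ∑ t, ‖Ψ ω g t‖) ≤ Y ω := by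
  obtain ⟨Y, hY, hY1⟩ := pvb_hulls (μP := μP) rims (Gr.filter fun g => ‖g - x‖ ≤ 3 * R / 2) (fun g P => PvbVisits P g h) hp1
    (fun g hg => harm g (Finset.mem_filter.1 hg).1 (Finset.mem_filter.1 hg).2)
  have hΨE : ∀ g ∈ Gr, ∀ t, PvbE μP (fun ω => ‖Ψ ω g t‖ ^ 2) e2 := fun g hg t =>
    ⟨fun ω => by positivity, he2, hΨ g hg t⟩
  have hterm : ∀ g ∈ Gr, PvbE μP (fun ω => Err * Y g ω + ∑ t, (lamA * Y g ω + lamA⁻¹ * ‖Ψ ω g t‖ ^ 2)) (Err * p1 + ∑ _t : τ, (lamA * p1 + lamA⁻¹ * e2)) :=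
    fun g hg => ((hY g).smul hErr).add (PvbE.sum _ fun t _ => ((hY g).smul hlam.le).add ((hΨE g hg t).smul (inv_pos.2 hlam).le))
  refine ⟨fun ω => ∑ g ∈ Gr, (Err * Y g ω + ∑ t, (lamA * Y g ω + lamA⁻¹ * ‖Ψ ω g t‖ ^ 2)), ?_, fun ω P hP => ?_⟩
  · have := PvbE.sum Gr hterm
    refine this.mono (le_of_eq ?_)
    simp only [Finset.sum_const, Finset.card_univ, nsmul_eq_mul]
    ring
  · have hnn : ∀ g ∈ Gr, 0 ≤ Err * Y g ω + ∑ t, (lamA * Y g ω + lamA⁻¹ * ‖Ψ ω g t‖ ^ 2) := fun g hg => (hterm g hg).nn ω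
    refine le_trans (Finset.sum_le_sum fun g hg => ?_) (Finset.sum_le_sum_of_subset_of_nonneg (Finset.filter_subset _ _) fun g hg _ => hnn g hg)
    obtain ⟨hg1, hg2, hg3⟩ := Finset.mem_filter.1 hg
    have h1 := hY1 g (Finset.mem_filter.2 ⟨hg1, hg2⟩) ω P hP hg3
    have h2 : Err ≤ Err * Y g ω := le_mul_of_one_le_right hErr h1
    refine add_le_add h2 (Finset.sum_le_sum fun t _ => ?_)
    have h3 : lamA ≤ lamA * Y g ω := le_mul_of_one_le_right hlam.le h1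
    have h4 : ‖Ψ ω g t‖ ≤ lamA + lamA⁻¹ * ‖Ψ ω g t‖ ^ 2 := by
      have h5 : 0 ≤ lamA⁻¹ * (‖Ψ ω g t‖ - lamA) ^ 2 := by positivity
      have e : lamA⁻¹ * (‖Ψ ω g t‖ - lamA) ^ 2 = lamA⁻¹ * ‖Ψ ω g t‖ ^ 2 - 2 * ‖Ψ ω g t‖ + lamA := by field_simp; ring
      have := norm_nonneg (Ψ ω g t)
      linarith
    linarith

/-- the counts -/
theorem pvb_cnt_E (h mu : ℝ) (Box : Finset (ℤ × ℤ)) (Kp : ℕ) (j : ℕ) {p N : ℝ} (hp : 0 ≤ p) (hN : 0 ≤ N)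
    (h0 : j = 0 → (Box.card : ℝ) ≤ N ∧ ∀ q ∈ Box, (μP.P {ω | ∃ P ∈ rims ω, PvbVisits P (pvbSqCtr h q) (2 * h)}).toReal ≤ p)
    (h1 : j ≠ 0 → μP.E (fun ω => ∑ q ∈ pvbBox Box (j - 1),
      {ω | ∃ P ∈ rims ω, PvbNearRet P (pvbSqCtr (pvbSide h (j - 1)) q) (pvbSide h (j - 1) + mu) (90 * h)}.indicator (fun _ => (1 : ENNReal)) ω) ≤ ENNReal.ofReal (N * p)) :
    ∃ Y : Ω → ℝ, PvbE μP Y (4 * Kp * (N * p)) ∧ ∀ ω, ∀ P ∈ rims ω, pvbCnt h mu Box Kp P j ≤ Y ω := by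
  classical
  by_cases hj : j = 0
  · subst hj
    obtain ⟨Y, hY, hY1⟩ := pvb_count_E (μP := μP) rims Box (fun q P => PvbVisits P (pvbSqCtr h q) (2 * h)) hp (h0 rfl).2
    refine ⟨fun ω => (Kp : ℝ) * Y ω, (hY.smul (Nat.cast_nonneg Kp)).mono ?_, fun ω P hP => ?_⟩
    · have h2 : (Box.card : ℝ) * p ≤ N * p := mul_le_mul_of_nonneg_right (h0 rfl).1 hp
      have h3 : (Kp : ℝ) * ((Box.card : ℝ) * p) ≤ (Kp : ℝ) * (N * p) := mul_le_mul_of_nonneg_left h2 (Nat.cast_nonneg Kp)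
      have : 0 ≤ (Kp : ℝ) * (N * p) := by positivity
      nlinarith
    · unfold pvbCnt
      rw [if_pos rfl]
      exact mul_le_mul_of_nonneg_left (hY1 ω P hP _ (Finset.filter_subset _ _) fun i hi => (Finset.mem_filter.1 hi).2) (Nat.cast_nonneg Kp)
  · obtain ⟨Y, hY, hY1⟩ := pvb_count_E' (μP := μP) rims (pvbBox Box (j - 1))
      (fun q P => PvbNearRet P (pvbSqCtr (pvbSide h (j - 1)) q) (pvbSide h (j - 1) + mu) (90 * h)) (mul_nonneg hN hp) (h1 hj)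
    refine ⟨fun ω => (4 * (Kp : ℝ)) * Y ω, hY.smul (by positivity), fun ω P hP => ?_⟩
    unfold pvbCnt
    rw [if_neg hj]
    exact mul_le_mul_of_nonneg_left (hY1 ω P hP _ (Finset.filter_subset _ _) fun i hi => (Finset.mem_filter.1 hi).2) (by positivity)

end dom

/-! ## F. the Bessel variables of the atoms; the estimate at fixed `(m, n)` -/

theorem pvb_sum_le_single {α : Type} (s : Finset α) (F : α → ℝ) (a : α) (h0 : ∀ b ∈ s, b ≠ a → F b = 0) (ha : 0 ≤ F a) : ∑ b ∈ s, F b ≤ F a := by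
  classical
  by_cases hs : a ∈ s
  · rw [Finset.sum_eq_single_of_mem a hs h0]
  · rw [Finset.sum_eq_zero fun b hb => h0 b hb (fun e => hs (e ▸ hb))]
    exact ha

theorem PvbTest.cont {x : ℂ} {R Cf : ℝ} {f : ℂ → ℂ} (hf : PvbTest x R Cf f) : Continuous f := by
  have : LipschitzWith (Real.toNNReal Cf) f := LipschitzWith.of_dist_le_mul fun w w' => by
    rw [dist_eq_norm, dist_eq_norm, Real.coe_toNNReal _ hf.Cf0]
    exact hf.lip w w'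
  exact this.continuous

theorem PvbTest.mono {x : ℂ} {R Cf Cf' : ℝ} {f : ℂ → ℂ} (hf : PvbTest x R Cf f) (h : Cf ≤ Cf') : PvbTest x R Cf' f :=
  ⟨hf.supp, fun w w' => (hf.lip w w').trans (mul_le_mul_of_nonneg_right h (norm_nonneg _)), hf.Cf0.trans h⟩

section atoms

variable {τ : Type} [Fintype τ] (𝔐 : PvbMenu τ) (x : ℂ) (R h : ℝ) (Gr : Finset ℂ) (Box : Finset (ℤ × ℤ)) (f : ℂ → ℂ) (Cf : ℝ) (j : ℕ)

theorem pvb_atom_meas (D : (ℤ × ℤ) × Finset (ℂ × τ)) : MeasurableSet {w : ℂ | PvbAtom 𝔐 x R h Gr j D w} := by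
  have e : {w : ℂ | PvbAtom 𝔐 x R h Gr j D w} = {w : ℂ | ‖w - x‖ < 3 * R / 2} ∩ (pvbSqIdx (pvbSide h j) ⁻¹' {D.1} ∩ {w : ℂ | pvbCutPat 𝔐 h Gr w = D.2}) := by
    ext w; rfl
  rw [e]
  exact (measurableSet_lt (measurable_id.sub_const x).norm measurable_const).inter
    ((pvb_sq_meas _ (measurableSet_singleton _)).inter (pvb_pat_meas 𝔐 h Gr D.2))

theorem pvb_G1_meas (D : (ℤ × ℤ) × Finset (ℂ × τ)) : Measurable (pvbG1 𝔐 x R h Gr j D) := by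
  classical
  unfold pvbG1
  exact Measurable.ite (pvb_atom_meas 𝔐 x R h Gr j D) measurable_const measurable_const

theorem pvb_G2_meas (hf : Measurable f) (D : (ℤ × ℤ) × Finset (ℂ × τ)) : Measurable (pvbG2 𝔐 x R h Gr f Cf j D) := by
  classical
  unfold pvbG2
  exact Measurable.ite (pvb_atom_meas 𝔐 x R h Gr j D) ((hf.sub_const _).const_mul _) measurable_const

theorem pvb_atom_uniq {D : (ℤ × ℤ) × Finset (ℂ × τ)} {w : ℂ} (hD : D ≠ (pvbSqIdx (pvbSide h j) w, pvbCutPat 𝔐 h Gr w)) : ¬ PvbAtom 𝔐 x R h Gr j D w :=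
  fun hA => hD (Prod.ext hA.2.1.symm hA.2.2.symm)

theorem pvb_G1_sq (w : ℂ) : ∑ D ∈ pvbAtoms (τ := τ) Gr Box j, ‖pvbG1 𝔐 x R h Gr j D w‖ ^ 2 ≤ 1 ^ 2 := by
  classical
  refine (pvb_sum_le_single _ _ (pvbSqIdx (pvbSide h j) w, pvbCutPat 𝔐 h Gr w) (fun D _ hD => ?_) (by positivity)).trans ?_
  · unfold pvbG1
    rw [if_neg (pvb_atom_uniq 𝔐 x R h Gr j hD)]
    simp
  · unfold pvbG1
    split_ifs <;> simp

theorem pvb_G2_sq {x R h Cf f} (h0 : 0 < h) (hCf : 0 < Cf) (hf : PvbTest x R Cf f) (w : ℂ) :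
    ∑ D ∈ pvbAtoms (τ := τ) Gr Box j, ‖pvbG2 𝔐 x R h Gr f Cf j D w‖ ^ 2 ≤ 1 ^ 2 := by
  classical
  refine (pvb_sum_le_single _ _ (pvbSqIdx (pvbSide h j) w, pvbCutPat 𝔐 h Gr w) (fun D _ hD => ?_) (by positivity)).trans ?_
  · unfold pvbG2
    rw [if_neg (pvb_atom_uniq 𝔐 x R h Gr j hD)]
    simp
  · unfold pvbG2
    have hs := pvb_side_pos h0 j
    split_ifs
    · refine pow_le_pow_left₀ (norm_nonneg _) ?_ 2
      rw [norm_mul, Complex.norm_real, Real.norm_eq_abs, abs_of_pos (by positivity)]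
      have h1 := hf.lip w (pvbSqCtr (pvbSide h j) (pvbSqIdx (pvbSide h j) w))
      have h2 := pvb_sq_dist hs w
      have h3 : Cf * ‖w - pvbSqCtr (pvbSide h j) (pvbSqIdx (pvbSide h j) w)‖ ≤ Cf * pvbSide h j := mul_le_mul_of_nonneg_left h2 hCf.le
      rw [inv_mul_le_iff₀ (by positivity), mul_one]
      exact h1.trans h3
    · simp

theorem pvb_G1_supp (hR : 0 < R) (D : (ℤ × ℤ) × Finset (ℂ × τ)) (w : ℂ) (hw : 3 * R ≤ ‖w - x‖) : pvbG1 𝔐 x R h Gr j D w = 0 := by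
  classical
  unfold pvbG1
  rw [if_neg fun hA => by have := hA.1; linarith]

theorem pvb_G2_supp (hR : 0 < R) (D : (ℤ × ℤ) × Finset (ℂ × τ)) (w : ℂ) (hw : 3 * R ≤ ‖w - x‖) : pvbG2 𝔐 x R h Gr f Cf j D w = 0 := by
  classical
  unfold pvbG2
  rw [if_neg fun hA => by have := hA.1; linarith]

/-- the Bessel variable of the level `j` -/
theorem pvb_bes_E {Ω : Type} {μP : PvUp Ω} (W : (ℂ → ℂ) → Ω → ℝ) (hW0 : ∀ g ω, 0 ≤ W g ω)
    {eB : ℝ} (heB : 0 ≤ eB)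
    (h1 : μP.E (fun ω => ∑ D ∈ pvbAtoms (τ := τ) Gr Box j, ENNReal.ofReal (W (pvbG1 𝔐 x R h Gr j D) ω)) ≤ ENNReal.ofReal eB)
    (h2 : μP.E (fun ω => ∑ D ∈ pvbAtoms (τ := τ) Gr Box j, ENNReal.ofReal (W (pvbG2 𝔐 x R h Gr f Cf j D) ω)) ≤ ENNReal.ofReal eB) :
    ∃ Y : Ω → ℝ, PvbE μP Y (eB + eB) ∧ ∀ ω, ∀ (P : PvbRim) (xx : ℕ → ℂ), (∀ g, ‖P.fld xx g‖ ^ 2 ≤ W g ω) → pvbBes 𝔐 x R h Gr Box f Cf P xx j ≤ Y ω := by
  refine ⟨fun ω => ∑ D ∈ pvbAtoms (τ := τ) Gr Box j, W (pvbG1 𝔐 x R h Gr j D) ω + ∑ D ∈ pvbAtoms (τ := τ) Gr Box j, W (pvbG2 𝔐 x R h Gr f Cf j D) ω,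
    (PvbE.of_sum _ heB (fun D _ ω => hW0 _ ω) h1).add
      (PvbE.of_sum _ heB (fun D _ ω => hW0 _ ω) h2), fun ω P xx hW => ?_⟩
  unfold pvbBes
  rw [Finset.sum_add_distrib]
  exact add_le_add (Finset.sum_le_sum fun D _ => hW _) (Finset.sum_le_sum fun D _ => hW _)

end atoms

open Classical in
/-- **the estimate at fixed `(m, n)`** -/
theorem pvb_fixed {Ω : Type} {μP : PvUp Ω} (rims : Ω → Set PvbRim)
    {τ : Type} [Fintype τ] [Nonempty τ] {𝔐 : PvbMenu τ} {x : ℂ} {R h r mu Cf Err Aa : ℝ} {f : ℂ → ℂ}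
    (par : PvbPar 𝔐 R h r mu) (hCf : 0 < Cf) (hf : PvbTest x R Cf f) (Gr : Finset ℂ) (Box : Finset (ℤ × ℤ)) (Kp : ℕ)
    (hcov : ∀ w, ‖w - x‖ < 3 * R / 2 → pvbSqIdx h w ∈ Box)
    (hpat : ∀ (p : ℤ × ℤ) (S : Finset (Finset (ℂ × τ))), (∀ q ∈ S, ∃ w, pvbSqIdx h w = p ∧ pvbCutPat 𝔐 h Gr w = q) → S.card ≤ Kp)
    {a : ℂ} (ha : ‖a‖ ≤ Aa) (hErr : 0 ≤ Err)
    (pins : Ω → PvbRim → Set (PvbPin τ)) (β : Ω → PvbRim → PvbPin τ → ℂ) (Ψ : Ω → ℂ → τ → ℂ) (WQ WV : (ℂ → ℂ) → Ω → ℝ)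
    (J : ℕ) (lam : ℕ → ℝ) (hlam : ∀ j ≤ J, 0 < lam j) {eA pJ : ℝ} (cnt bes : ℕ → ℝ)
    (hagg : ∃ Y : Ω → ℝ, PvbE μP Y eA ∧ ∀ ω, ∀ P ∈ rims ω, ∑ g ∈ Gr.filter (fun g => ‖g - x‖ ≤ 3 * R / 2 ∧ PvbVisits P g h), (Err + ∑ t, ‖Ψ ω g t‖) ≤ Y ω)
    (hcnt : ∀ j ≤ J, ∃ Y : Ω → ℝ, PvbE μP Y (cnt j) ∧ ∀ ω, ∀ P ∈ rims ω, pvbCnt h mu Box Kp P j ≤ Y ω)
    (hbQ : ∀ j ≤ J, ∃ Y : Ω → ℝ, PvbE μP Y (bes j) ∧ ∀ ω, ∀ (P : PvbRim) (xx : ℕ → ℂ), (∀ g, ‖P.fld xx g‖ ^ 2 ≤ WQ g ω) → pvbBes 𝔐 x R h Gr Box f Cf P xx j ≤ Y ω)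
    (hbV : ∀ j ≤ J, ∃ Y : Ω → ℝ, PvbE μP Y (bes j) ∧ ∀ ω, ∀ (P : PvbRim) (xx : ℕ → ℂ), (∀ g, ‖P.fld xx g‖ ^ 2 ≤ WV g ω) → pvbBes 𝔐 x R h Gr Box f Cf P xx j ≤ Y ω)
    (hJ : (μP.P {ω | ∃ P ∈ rims ω, ∃ p ∈ pvbBox Box J, PvbNearRet P (pvbSqCtr (pvbSide h J) p) (pvbSide h J + mu) (90 * h)}).toReal ≤ pJ)
    {ξ : ℝ} (hξ : 0 < ξ) :
    (μP.P {ω | ∃ P ∈ rims ω, ξ < ‖P.fld P.xQ f - a * P.fld P.xV f‖}).toReal
      ≤ (μP.P {ω | ¬ ∀ P ∈ rims ω, PvbGoodAt 𝔐 x R h r mu Gr a Err P (pins ω P) (β ω P) (Ψ ω) (fun g => WQ g ω) (fun g => WV g ω)}).toReal + pJ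
        + (7 * Cf * r * eA + (1 + Aa) * ∑ j ∈ range (J + 1), 7 * Cf * r * (lam j * cnt j + (lam j)⁻¹ * bes j)) / ξ := by
  obtain ⟨t0⟩ := ‹Nonempty τ›
  obtain ⟨-, -, hr0, -, -⟩ := par.nums t0
  have hAa : 0 ≤ Aa := (norm_nonneg a).trans ha
  have hk : 0 ≤ 7 * Cf * r := by positivity
  obtain ⟨YA, hYA, hYA1⟩ := hagg
  have c1 : ∀ j, ∃ Y : Ω → ℝ, j ≤ J → PvbE μP Y (cnt j) ∧ ∀ ω, ∀ P ∈ rims ω, pvbCnt h mu Box Kp P j ≤ Y ω := fun j => by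
    by_cases hj : j ≤ J
    · obtain ⟨Y, hY⟩ := hcnt j hj; exact ⟨Y, fun _ => hY⟩
    · exact ⟨fun _ => 0, fun h => absurd h hj⟩
  have c2 : ∀ j, ∃ Y : Ω → ℝ, j ≤ J → PvbE μP Y (bes j) ∧ ∀ ω, ∀ (P : PvbRim) (xx : ℕ → ℂ), (∀ g, ‖P.fld xx g‖ ^ 2 ≤ WQ g ω) → pvbBes 𝔐 x R h Gr Box f Cf P xx j ≤ Y ω := fun j => by
    by_cases hj : j ≤ J
    · obtain ⟨Y, hY⟩ := hbQ j hj; exact ⟨Y, fun _ => hY⟩
    · exact ⟨fun _ => 0, fun h => absurd h hj⟩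
  have c3 : ∀ j, ∃ Y : Ω → ℝ, j ≤ J → PvbE μP Y (bes j) ∧ ∀ ω, ∀ (P : PvbRim) (xx : ℕ → ℂ), (∀ g, ‖P.fld xx g‖ ^ 2 ≤ WV g ω) → pvbBes 𝔐 x R h Gr Box f Cf P xx j ≤ Y ω := fun j => by
    by_cases hj : j ≤ J
    · obtain ⟨Y, hY⟩ := hbV j hj; exact ⟨Y, fun _ => hY⟩
    · exact ⟨fun _ => 0, fun h => absurd h hj⟩
  choose Yc hYc using c1
  choose YQ hYQ using c2
  choose YV hYV using c3
  have hle : ∀ j ∈ range (J + 1), j ≤ J := fun j hj => Nat.lt_succ_iff.1 (Finset.mem_range.1 hj)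
  have EQ : PvbE μP (fun ω => ∑ j ∈ range (J + 1), 7 * Cf * r * (lam j * Yc j ω + (lam j)⁻¹ * YQ j ω))
      (∑ j ∈ range (J + 1), 7 * Cf * r * (lam j * cnt j + (lam j)⁻¹ * bes j)) :=
    PvbE.sum _ fun j hj => ((((hYc j (hle j hj)).1).smul (hlam j (hle j hj)).le).add (((hYQ j (hle j hj)).1).smul (inv_pos.2 (hlam j (hle j hj))).le)).smul hk
  have EV : PvbE μP (fun ω => ∑ j ∈ range (J + 1), 7 * Cf * r * (lam j * Yc j ω + (lam j)⁻¹ * YV j ω))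
      (∑ j ∈ range (J + 1), 7 * Cf * r * (lam j * cnt j + (lam j)⁻¹ * bes j)) :=
    PvbE.sum _ fun j hj => ((((hYc j (hle j hj)).1).smul (hlam j (hle j hj)).le).add (((hYV j (hle j hj)).1).smul (inv_pos.2 (hlam j (hle j hj))).le)).smul hk
  have Etot := ((hYA.smul hk).add EQ).add (EV.smul hAa)
  have hM := Etot.markov hξ
  have hsub : {ω | ∃ P ∈ rims ω, ξ < ‖P.fld P.xQ f - a * P.fld P.xV f‖} ⊆
      ({ω | ¬ ∀ P ∈ rims ω, PvbGoodAt 𝔐 x R h r mu Gr a Err P (pins ω P) (β ω P) (Ψ ω) (fun g => WQ g ω) (fun g => WV g ω)} ∪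
        {ω | ∃ P ∈ rims ω, ∃ p ∈ pvbBox Box J, PvbNearRet P (pvbSqCtr (pvbSide h J) p) (pvbSide h J + mu) (90 * h)}) ∪
      {ω | ξ < 7 * Cf * r * YA ω + ∑ j ∈ range (J + 1), 7 * Cf * r * (lam j * Yc j ω + (lam j)⁻¹ * YQ j ω)
        + Aa * ∑ j ∈ range (J + 1), 7 * Cf * r * (lam j * Yc j ω + (lam j)⁻¹ * YV j ω)} := by
    rintro ω ⟨P, hP, hlt⟩
    by_cases hg : ∀ P ∈ rims ω, PvbGoodAt 𝔐 x R h r mu Gr a Err P (pins ω P) (β ω P) (Ψ ω) (fun g => WQ g ω) (fun g => WV g ω)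
    · by_cases hn : ∃ P ∈ rims ω, ∃ p ∈ pvbBox Box J, PvbNearRet P (pvbSqCtr (pvbSide h J) p) (pvbSide h J + mu) (90 * h)
      · exact Or.inl (Or.inr hn)
      · refine Or.inr (lt_of_lt_of_le hlt ?_)
        have hG := hg P hP
        have hJ' : ∀ p ∈ pvbBox Box J, ¬ PvbNearRet P (pvbSqCtr (pvbSide h J) p) (pvbSide h J + mu) (90 * h) :=
          fun p hp hnr => hn ⟨P, hP, p, hp, hnr⟩
        refine (pvb_rim_all par hCf hf Gr Box Kp hcov hpat ha hErr hG J hJ' lam hlam).trans ?_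
        have t1 : 7 * Cf * r * ∑ g ∈ Gr.filter (fun g => ‖g - x‖ ≤ 3 * R / 2 ∧ PvbVisits P g h), (Err + ∑ t, ‖Ψ ω g t‖) ≤ 7 * Cf * r * YA ω :=
          mul_le_mul_of_nonneg_left (hYA1 ω P hP) hk
        have t2 : ∑ j ∈ range (J + 1), 7 * Cf * r * (lam j * pvbCnt h mu Box Kp P j + pvbBes 𝔐 x R h Gr Box f Cf P P.xQ j / lam j)
            ≤ ∑ j ∈ range (J + 1), 7 * Cf * r * (lam j * Yc j ω + (lam j)⁻¹ * YQ j ω) := by
          refine Finset.sum_le_sum fun j hj => mul_le_mul_of_nonneg_left (add_le_add ?_ ?_) hk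
          · exact mul_le_mul_of_nonneg_left ((hYc j (hle j hj)).2 ω P hP) (hlam j (hle j hj)).le
          · rw [div_eq_inv_mul]
            exact mul_le_mul_of_nonneg_left ((hYQ j (hle j hj)).2 ω P P.xQ hG.2.2.2.1) (inv_pos.2 (hlam j (hle j hj))).le
        have t3 : ∑ j ∈ range (J + 1), 7 * Cf * r * (lam j * pvbCnt h mu Box Kp P j + pvbBes 𝔐 x R h Gr Box f Cf P P.xV j / lam j)
            ≤ ∑ j ∈ range (J + 1), 7 * Cf * r * (lam j * Yc j ω + (lam j)⁻¹ * YV j ω) := by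
          refine Finset.sum_le_sum fun j hj => mul_le_mul_of_nonneg_left (add_le_add ?_ ?_) hk
          · exact mul_le_mul_of_nonneg_left ((hYc j (hle j hj)).2 ω P hP) (hlam j (hle j hj)).le
          · rw [div_eq_inv_mul]
            exact mul_le_mul_of_nonneg_left ((hYV j (hle j hj)).2 ω P P.xV hG.2.2.2.2) (inv_pos.2 (hlam j (hle j hj))).le
        exact add_le_add (add_le_add t1 t2) (mul_le_mul_of_nonneg_left t3 hAa)
    · exact Or.inl (Or.inl hg)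
  have h1 := pvb_P_mono (μ := μP) hsub
  have h2 := pvb_P_union (μ := μP)
      ({ω | ¬ ∀ P ∈ rims ω, PvbGoodAt 𝔐 x R h r mu Gr a Err P (pins ω P) (β ω P) (Ψ ω) (fun g => WQ g ω) (fun g => WV g ω)} ∪
        {ω | ∃ P ∈ rims ω, ∃ p ∈ pvbBox Box J, PvbNearRet P (pvbSqCtr (pvbSide h J) p) (pvbSide h J + mu) (90 * h)})
      {ω | ξ < 7 * Cf * r * YA ω + ∑ j ∈ range (J + 1), 7 * Cf * r * (lam j * Yc j ω + (lam j)⁻¹ * YQ j ω)
        + Aa * ∑ j ∈ range (J + 1), 7 * Cf * r * (lam j * Yc j ω + (lam j)⁻¹ * YV j ω)}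
  have h3 := pvb_P_union (μ := μP)
      {ω | ¬ ∀ P ∈ rims ω, PvbGoodAt 𝔐 x R h r mu Gr a Err P (pins ω P) (β ω P) (Ψ ω) (fun g => WQ g ω) (fun g => WV g ω)}
      {ω | ∃ P ∈ rims ω, ∃ p ∈ pvbBox Box J, PvbNearRet P (pvbSqCtr (pvbSide h J) p) (pvbSide h J + mu) (90 * h)}
  have e : 7 * Cf * r * eA + ∑ j ∈ range (J + 1), 7 * Cf * r * (lam j * cnt j + (lam j)⁻¹ * bes j) + Aa * ∑ j ∈ range (J + 1), 7 * Cf * r * (lam j * cnt j + (lam j)⁻¹ * bes j)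
      = 7 * Cf * r * eA + (1 + Aa) * ∑ j ∈ range (J + 1), 7 * Cf * r * (lam j * cnt j + (lam j)⁻¹ * bes j) := by ring
  rw [e] at hM
  linarith

/-! ## G. numerics -/

theorem pvb_num_pow {h : ℝ} (h0 : 0 < h) (c : ℝ) :
    h ^ (-2 : ℝ) * h ^ c = h ^ (-2 + c) ∧ h ^ (1 - c / 2) * (h ^ (-2 : ℝ) * h ^ c) = h ^ (-1 + c / 2) ∧
      (h ^ (1 - c / 2))⁻¹ = h ^ (-1 + c / 2) ∧ h ^ (-2 : ℝ) * (h ^ 2 / h ^ (1 - c / 2)) = h ^ (-1 + c / 2) := by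
  refine ⟨(Real.rpow_add h0 _ _).symm, ?_, ?_, ?_⟩
  · rw [← Real.rpow_add h0, ← Real.rpow_add h0]; congr 1; ring
  · rw [← Real.rpow_neg h0.le]; congr 1; ring
  · rw [← Real.rpow_natCast h 2, ← Real.rpow_sub h0, ← Real.rpow_add h0]; congr 1; push_cast; ring

theorem pvb_num_scale {t h R : ℝ} (ht : 0 ≤ t) (h0 : 0 < h) (hR : 0 < R) (c : ℝ) : (t * h / R) ^ c = (t / R) ^ c * h ^ c := by
  rw [← Real.mul_rpow (by positivity) h0.le]; congr 1; ring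

theorem pvb_num_rho {c : ℝ} (c0 : 0 < c) : 0 < (1 / 2 : ℝ) ^ (c / 2) ∧ (1 / 2 : ℝ) ^ (c / 2) < 1 ∧
    ∀ i : ℕ, (((1 / 2 : ℝ)) ^ i) ^ (2 + c) = (1 / 4) ^ i * ((1 / 2 : ℝ) ^ (c / 2)) ^ (2 * i) := by
  refine ⟨by positivity, Real.rpow_lt_one (by norm_num) (by norm_num) (by positivity), fun i => ?_⟩
  have e1 : ((1 / 2 : ℝ) ^ (c / 2)) ^ (2 * i) = ((1 / 2 : ℝ) ^ c) ^ i := by
    rw [pow_mul, ← Real.rpow_natCast ((1 / 2 : ℝ) ^ (c / 2)) 2, ← Real.rpow_mul (by norm_num)]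
    congr 2; push_cast; ring
  rw [e1, ← mul_pow, ← Real.rpow_natCast (1 / 2 : ℝ) i, ← Real.rpow_mul (by norm_num), mul_comm, Real.rpow_mul (by norm_num), Real.rpow_natCast,
    Real.rpow_add (by norm_num)]
  congr 2
  norm_num

theorem pvb_num_geom {ρ : ℝ} (h0 : 0 < ρ) (h1 : ρ < 1) (n : ℕ) : ∑ j ∈ range n, ρ ^ j ≤ (1 - ρ)⁻¹ := by
  have h2 := mul_neg_geom_sum ρ n
  have h3 : 0 < 1 - ρ := by linarith
  rw [← one_div, le_div_iff₀ h3, mul_comm, h2]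
  linarith [pow_pos h0 n]

theorem pvb_side_eq (h : ℝ) (i : ℕ) : pvbSide h i = h * (1 / 2) ^ i := by
  unfold pvbSide; rw [one_div, inv_pow, div_eq_mul_inv]

theorem pvb_side_anti {h : ℝ} (h0 : 0 < h) {i J : ℕ} (hi : i ≤ J) : pvbSide h J ≤ pvbSide h i := by
  unfold pvbSide
  exact div_le_div_of_nonneg_left h0.le (by positivity) (pow_le_pow_right₀ (by norm_num) hi)

/-- number of squares of the level `i` times the probability of a near return -/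
theorem pvb_num_nr {h R c C1 CG mu card : ℝ} (h0 : 0 < h) (hR : 0 < R) (c0 : 0 < c) (hC1 : 0 ≤ C1) (hCG : 0 ≤ CG) (i : ℕ) (hmu0 : 0 ≤ mu)
    (hmu : mu ≤ pvbSide h i) (hcard : card ≤ 4 ^ i * (CG * h ^ (-2 : ℝ))) :
    card * (C1 * ((pvbSide h i + mu) / (90 * h)) ^ (2 + c) * (90 * h / R) ^ c)
      ≤ CG * C1 * (90 / R) ^ c * h ^ (-2 + c) * ((1 / 2 : ℝ) ^ (c / 2)) ^ (2 * i) := by
  have hs := pvb_side_pos h0 i
  have hu0 : 0 ≤ (pvbSide h i + mu) / (90 * h) := by positivity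
  have hu : (pvbSide h i + mu) / (90 * h) ≤ (1 / 2) ^ i := by
    rw [div_le_iff₀ (by positivity)]
    have e := pvb_side_eq h i
    have : 0 < h * (1 / 2 : ℝ) ^ i := by positivity
    nlinarith
  have h1 : ((pvbSide h i + mu) / (90 * h)) ^ (2 + c) ≤ (1 / 4) ^ i * ((1 / 2 : ℝ) ^ (c / 2)) ^ (2 * i) := by
    rw [← (pvb_num_rho c0).2.2 i]
    exact Real.rpow_le_rpow hu0 hu (by positivity)
  rw [pvb_num_scale (by norm_num) h0 hR c]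
  have hρ := (pvb_num_rho c0).1
  have h2 : C1 * ((pvbSide h i + mu) / (90 * h)) ^ (2 + c) * ((90 / R) ^ c * h ^ c)
      ≤ C1 * ((1 / 4) ^ i * ((1 / 2 : ℝ) ^ (c / 2)) ^ (2 * i)) * ((90 / R) ^ c * h ^ c) := by gcongr
  have h3 : 0 ≤ C1 * ((1 / 4) ^ i * ((1 / 2 : ℝ) ^ (c / 2)) ^ (2 * i)) * ((90 / R) ^ c * h ^ c) := by positivity
  have h30 : 0 ≤ C1 * ((pvbSide h i + mu) / (90 * h)) ^ (2 + c) * ((90 / R) ^ c * h ^ c) := by positivity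
  have e4 : (4 : ℝ) ^ i * (1 / 4) ^ i = 1 := by rw [← mul_pow]; norm_num
  by_cases hc0 : 0 ≤ card
  · calc card * (C1 * ((pvbSide h i + mu) / (90 * h)) ^ (2 + c) * ((90 / R) ^ c * h ^ c))
        ≤ (4 ^ i * (CG * h ^ (-2 : ℝ))) * (C1 * ((1 / 4) ^ i * ((1 / 2 : ℝ) ^ (c / 2)) ^ (2 * i)) * ((90 / R) ^ c * h ^ c)) :=
          mul_le_mul hcard h2 h30 (by positivity)
      _ = CG * C1 * (90 / R) ^ c * (h ^ (-2 : ℝ) * h ^ c) * ((1 / 2 : ℝ) ^ (c / 2)) ^ (2 * i) * ((4 : ℝ) ^ i * (1 / 4) ^ i) := by ring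
      _ = _ := by rw [e4, mul_one, (pvb_num_pow h0 c).1]
  · have : card * (C1 * ((pvbSide h i + mu) / (90 * h)) ^ (2 + c) * ((90 / R) ^ c * h ^ c)) ≤ 0 :=
      mul_nonpos_of_nonpos_of_nonneg (not_le.1 hc0).le h30
    exact this.trans (by positivity)

/-- the aggregate -/
theorem pvb_num_A {h R c C1 CG CΨ Err T card : ℝ} (h0 : 0 < h) (hR : 0 < R) (hC1 : 0 ≤ C1) (hCΨ : 0 ≤ CΨ) (hErr : 0 ≤ Err) (hT : 0 ≤ T)
    (hcard : card ≤ CG * h ^ (-2 : ℝ)) :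
    card * (Err * (C1 * (1 * h / R) ^ c) + T * (h ^ (1 - c / 2) * (C1 * (1 * h / R) ^ c) + CΨ * h ^ 2 / h ^ (1 - c / 2)))
      ≤ CG * C1 * (1 / R) ^ c * (Err * h ^ (-2 + c)) + CG * T * (C1 * (1 / R) ^ c + CΨ) * h ^ (-1 + c / 2) := by
  obtain ⟨e1, e2, -, e4⟩ := pvb_num_pow h0 c
  rw [pvb_num_scale zero_le_one h0 hR c]
  have hX : 0 ≤ Err * (C1 * ((1 / R) ^ c * h ^ c)) + T * (h ^ (1 - c / 2) * (C1 * ((1 / R) ^ c * h ^ c)) + CΨ * h ^ 2 / h ^ (1 - c / 2)) := by positivity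
  calc _ ≤ (CG * h ^ (-2 : ℝ)) * (Err * (C1 * ((1 / R) ^ c * h ^ c)) + T * (h ^ (1 - c / 2) * (C1 * ((1 / R) ^ c * h ^ c)) + CΨ * h ^ 2 / h ^ (1 - c / 2))) :=
        mul_le_mul_of_nonneg_right hcard hX
    _ = CG * C1 * (1 / R) ^ c * (Err * (h ^ (-2 : ℝ) * h ^ c))
        + CG * T * (C1 * (1 / R) ^ c * (h ^ (1 - c / 2) * (h ^ (-2 : ℝ) * h ^ c)) + CΨ * (h ^ (-2 : ℝ) * (h ^ 2 / h ^ (1 - c / 2)))) := by ring
    _ = _ := by rw [e2, e1, e4]; ring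

/-- one level of the mixed atoms -/
theorem pvb_num_level {G H ρ lamA Kp K2 K9 CB cnt : ℝ} (hρ : 0 < ρ) (hlamA : 0 < lamA) (hG : lamA * H = G) (hG2 : lamA⁻¹ = G) (hKp : 0 ≤ Kp) (hK2 : 0 ≤ K2) (hK9 : 0 ≤ K9)
    (j : ℕ) (h0 : j = 0 → cnt ≤ 4 * Kp * (K2 * H)) (h1 : ∀ i, j = i + 1 → cnt ≤ 4 * Kp * (K9 * H * ρ ^ (2 * i))) :
    lamA / ρ ^ j * cnt + (lamA / ρ ^ j)⁻¹ * (CB + CB) ≤ (4 * Kp * (K2 + K9 / ρ ^ 2) + 2 * CB) * G * ρ ^ j := by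
  have hG0 : 0 < G := hG2 ▸ inv_pos.2 hlamA
  have e2 : (lamA / ρ ^ j)⁻¹ * (CB + CB) = 2 * CB * G * ρ ^ j := by
    rw [inv_div, div_eq_mul_inv, hG2]; ring
  rw [e2]
  have key : lamA / ρ ^ j * cnt ≤ 4 * Kp * (K2 + K9 / ρ ^ 2) * G * ρ ^ j := by
    rcases Nat.eq_zero_or_pos j with rfl | hj
    · simp only [pow_zero, div_one, mul_one]
      calc lamA * cnt ≤ lamA * (4 * Kp * (K2 * H)) := mul_le_mul_of_nonneg_left (h0 rfl) hlamA.le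
        _ = 4 * Kp * K2 * (lamA * H) := by ring
        _ = 4 * Kp * K2 * G := by rw [hG]
        _ ≤ 4 * Kp * (K2 + K9 / ρ ^ 2) * G := by
            have : 0 ≤ 4 * Kp * (K9 / ρ ^ 2) * G := by positivity
            nlinarith
    · obtain ⟨i, rfl⟩ : ∃ i, j = i + 1 := ⟨j - 1, by omega⟩
      calc lamA / ρ ^ (i + 1) * cnt ≤ lamA / ρ ^ (i + 1) * (4 * Kp * (K9 * H * ρ ^ (2 * i))) := mul_le_mul_of_nonneg_left (h1 i rfl) (by positivity)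
        _ = 4 * Kp * (K9 / ρ ^ 2) * (lamA * H) * ρ ^ (i + 1) := by
            field_simp
            ring
        _ = 4 * Kp * (K9 / ρ ^ 2) * G * ρ ^ (i + 1) := by rw [hG]
        _ ≤ _ := by
            have : 0 ≤ 4 * Kp * K2 * G * ρ ^ (i + 1) := by positivity
            nlinarith
  linarith

/-! ## H. the probabilistic interface -/

/-- **THE INTERFACE**: everything S6b consumes (E1-E5 of `origin/helper210:notes/R289/s6b_210.md`).   `n` = index of `ε_n ↓ 0` (the common microscopic subsequence), `m` = index of `h_m ↓ 0`.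
`Ω` carries the sample, the bulk/full-plane coupling and ALL preparation seeds (all `m`), so the law `ℙ n` and the rims do not depend on `m`. -/
structure PvbIn {τ : Type} [Fintype τ] {Ω : Type} (𝔐 : PvbMenu τ) (x : ℂ) (R Cf : ℝ) (f : ℂ → ℂ)
    (ℙ : ℕ → PvUp Ω) (rims : ℕ → Ω → Set PvbRim) (a : ℕ → ℂ) where
  R0 : 0 < R
  test : PvbTest x R Cf f
  -- ### scales
  h : ℕ → ℝ
  r : ℕ → ℝ
  Err : ℕ → ℝ
  c : ℝ
  Aa : ℝ
  h0 : ∀ m, 0 < h m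
  Err0 : ∀ m, 0 ≤ Err m
  c0 : 0 < c
  a_le : ∀ m, ‖a m‖ ≤ Aa
  par : ∀ᶠ m in atTop, 4 * 𝔐.L * h m ≤ r m ∧ 100 * r m ≤ R
  lim1 : Tendsto (fun m => r m * Err m * h m ^ (-2 + c)) atTop (𝓝 0)
  lim2 : Tendsto (fun m => r m * h m ^ (-1 + c / 2)) atTop (𝓝 0)
  -- ### the grid of candidate centres, the level-0 squares, the patterns
  Gr : ℕ → Finset ℂ
  Box : ℕ → Finset (ℤ × ℤ)
  CG : ℝ
  Kp : ℕ
  Gr_card : ∀ m, ((Gr m).card : ℝ) ≤ CG * h m ^ (-2 : ℝ)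
  Box_card : ∀ m, ((Box m).card : ℝ) ≤ CG * h m ^ (-2 : ℝ)
  Box_cov : ∀ m w, ‖w - x‖ < 3 * R / 2 → pvbSqIdx (h m) w ∈ Box m
  Box_in : ∀ m w, pvbSqIdx (h m) w ∈ Box m → ‖w - x‖ ≤ 2 * R
  pat_card : ∀ m (p : ℤ × ℤ) (S : Finset (Finset (ℂ × τ))), (∀ q ∈ S, ∃ w, pvbSqIdx (h m) w = p ∧ pvbCutPat 𝔐 (h m) (Gr m) w = q) → S.card ≤ Kp
  -- ### E4 + E5: pins, potentials, the good event (for EVERY choice of mesh tolerances `μ m > 0`, fixed before `n → ∞`)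
  pins : ℕ → ℕ → Ω → PvbRim → Set (PvbPin τ)
  β : ℕ → ℕ → Ω → PvbRim → PvbPin τ → ℂ
  Ψ : ℕ → ℕ → Ω → ℂ → τ → ℂ
  W : Bool → ℕ → (ℂ → ℂ) → Ω → ℝ
  good : ∀ μ : ℕ → ℝ, (∀ m, 0 < μ m) → PvbOrd (fun m n => ((ℙ n).P {ω | ¬ ∀ P ∈ rims n ω,
    PvbGoodAt 𝔐 x R (h m) (r m) (μ m) (Gr m) (a m) (Err m) P (pins m n ω P) (β m n ω P) (Ψ m n ω) (fun g => W false n g ω) (fun g => W true n g ω)}).toReal)
  CΨ : ℝ
  Ψ_L2 : ∀ m, ∀ g ∈ Gr m, ∀ t, ∀ᶠ n in atTop, (ℙ n).E (fun ω => ENNReal.ofReal (‖Ψ m n ω g t‖ ^ 2)) ≤ ENNReal.ofReal (CΨ * h m ^ 2)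
  -- ### E2, E3: arms, stated for rims
  C1 : ℝ
  arm1 : ∀ (y : ℂ) (s : ℝ), ‖y - x‖ ≤ 2 * R → 0 < s → ∀ᶠ n in atTop, ((ℙ n).P {ω | ∃ P ∈ rims n ω, PvbVisits P y s}).toReal ≤ C1 * (s / R) ^ c
  /-- GRID-COUNT FORM: the expected number of the squares `q ∈ B` of the grid `t ℤ²` (centres `pvbSqCtr t q` in `closedBall x 2R`) at which some rim has a near return.
  No fixed centre, so no stationarity and no measurability are needed upstream: at a good geometry sum the quenched probabilities over the squares.      The pointwise form implies it (`pvb_arm2_of_pt`). -/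
  arm2 : ∀ (t s S : ℝ) (B : Finset (ℤ × ℤ)), 0 < t → t ≤ s → s ≤ 2 * t → s ≤ S → S ≤ R → (∀ q ∈ B, ‖pvbSqCtr t q - x‖ ≤ 2 * R) → ∀ᶠ n in atTop,
    (ℙ n).E (fun ω => ∑ q ∈ B, {ω | ∃ P ∈ rims n ω, PvbNearRet P (pvbSqCtr t q) s S}.indicator (fun _ => (1 : ENNReal)) ω)
      ≤ ENNReal.ofReal (C1 * (R / t) ^ 2 * (s / S) ^ (2 + c) * (S / R) ^ c)
  -- ### E1: Bessel + barycentre intensity
  CB : ℝ
  W_nn : ∀ X n g ω, 0 ≤ W X n g ω
  W_bes : ∀ (X : Bool) (ι : Type) (S : Finset ι) (gs : ι → ℂ → ℂ) (b : ℝ), (∀ i ∈ S, Measurable (gs i)) → (∀ w, ∑ i ∈ S, ‖gs i w‖ ^ 2 ≤ b ^ 2) →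
    (∀ i ∈ S, ∀ w, 3 * R ≤ ‖w - x‖ → gs i w = 0) → ∀ᶠ n in atTop,
      (ℙ n).E (fun ω => ∑ i ∈ S, ENNReal.ofReal (W X n (gs i) ω)) ≤ ENNReal.ofReal (CB * b ^ 2)

/-- union bound for a family of rim events -/
theorem pvb_union_E {Ω : Type} {μP : PvUp Ω} (rims : Ω → Set PvbRim) {ι : Type} (S : Finset ι)
    (E : ι → PvbRim → Prop) {p : ℝ} (h : ∀ i ∈ S, (μP.P {ω | ∃ P ∈ rims ω, E i P}).toReal ≤ p) :
    (μP.P {ω | ∃ P ∈ rims ω, ∃ i ∈ S, E i P}).toReal ≤ S.card * p := by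
  have e : {ω | ∃ P ∈ rims ω, ∃ i ∈ S, E i P} = ⋃ i ∈ S, {ω | ∃ P ∈ rims ω, E i P} := by
    ext ω
    simp only [Set.mem_ofPred_eq, Set.mem_iUnion, exists_prop]
    constructor
    · rintro ⟨P, hP, i, hi, hE⟩; exact ⟨i, hi, P, hP, hE⟩
    · rintro ⟨i, hi, P, hP, hE⟩; exact ⟨P, hP, i, hi, hE⟩
  rw [e]
  have h1 := pvb_P_biUnion (μ := μP) S fun i => {ω | ∃ P ∈ rims ω, E i P}
  refine h1.trans ((Finset.sum_le_sum h).trans (le_of_eq ?_))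
  simp

/-- union bound from the expected number -/
theorem pvb_union_E' {Ω : Type} {μP : PvUp Ω} (rims : Ω → Set PvbRim) {ι : Type} (S : Finset ι) (E : ι → PvbRim → Prop) {e : ℝ} (he : 0 ≤ e)
    (h : μP.E (fun ω => ∑ i ∈ S, {ω | ∃ P ∈ rims ω, E i P}.indicator (fun _ => (1 : ENNReal)) ω) ≤ ENNReal.ofReal e) :
    (μP.P {ω | ∃ P ∈ rims ω, ∃ i ∈ S, E i P}).toReal ≤ e := by
  refine ENNReal.toReal_le_of_le_ofReal he (le_trans (μP.mono fun ω => ?_) h)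
  by_cases hω : ω ∈ {ω | ∃ P ∈ rims ω, ∃ i ∈ S, E i P}
  · obtain ⟨P, hP, i, hi, hE⟩ := hω
    rw [Set.indicator_of_mem (show ω ∈ {ω | ∃ P ∈ rims ω, ∃ i ∈ S, E i P} from ⟨P, hP, i, hi, hE⟩)]
    refine le_trans ?_ (Finset.single_le_sum (f := fun i => {ω | ∃ P ∈ rims ω, E i P}.indicator (fun _ => (1 : ENNReal)) ω) (fun _ _ => zero_le) hi)
    rw [Set.indicator_of_mem (show ω ∈ {ω | ∃ P ∈ rims ω, E i P} from ⟨P, hP, hE⟩)]
  · rw [Set.indicator_of_notMem hω]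
    exact zero_le

/-- integers in an interval -/
theorem pvb_Icc_card_le {u v : ℝ} (huv : u ≤ v) : (((Finset.Icc ⌈u⌉ ⌊v⌋).card : ℕ) : ℝ) ≤ v - u + 1 := by
  rw [Int.card_Icc]
  have h1 : ((⌊v⌋ + 1 - ⌈u⌉).toNat : ℝ) = ((max (⌊v⌋ + 1 - ⌈u⌉) 0 : ℤ) : ℝ) := by
    have : ((⌊v⌋ + 1 - ⌈u⌉).toNat : ℤ) = max (⌊v⌋ + 1 - ⌈u⌉) 0 := Int.toNat_eq_max _
    exact_mod_cast this
  rw [h1]
  push_cast
  have h2 := Int.floor_le v
  have h3 := Int.le_ceil u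
  exact max_le (by linarith) (by linarith)

/-- number of squares of the grid `t ℤ²` with centre in `closedBall x (2R)` -/
theorem pvb_grid_card {t R : ℝ} (ht : 0 < t) (htR : t ≤ R) (x : ℂ) (B : Finset (ℤ × ℤ)) (hB : ∀ q ∈ B, ‖pvbSqCtr t q - x‖ ≤ 2 * R) :
    (B.card : ℝ) ≤ 25 * (R / t) ^ 2 := by
  have hR : 0 < R := lt_of_lt_of_le ht htR
  have hsub : B ⊆ Finset.Icc ⌈(x.re - 2 * R) / t - 1 / 2⌉ ⌊(x.re + 2 * R) / t - 1 / 2⌋ ×ˢ Finset.Icc ⌈(x.im - 2 * R) / t - 1 / 2⌉ ⌊(x.im + 2 * R) / t - 1 / 2⌋ := by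
    intro q hq
    have h1 := hB q hq
    have h2 := (Complex.abs_re_le_norm (pvbSqCtr t q - x)).trans h1
    have h3 := (Complex.abs_im_le_norm (pvbSqCtr t q - x)).trans h1
    simp only [pvbSqCtr, Complex.sub_re, Complex.sub_im] at h2 h3
    rw [abs_le] at h2 h3
    rw [Finset.mem_product, Finset.mem_Icc, Finset.mem_Icc, Int.ceil_le, Int.le_floor, Int.ceil_le, Int.le_floor]
    refine ⟨⟨?_, ?_⟩, ⟨?_, ?_⟩⟩
    · rw [sub_le_iff_le_add, div_le_iff₀ ht]; linarith [h2.1]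
    · rw [le_sub_iff_add_le, le_div_iff₀ ht]; linarith [h2.2]
    · rw [sub_le_iff_le_add, div_le_iff₀ ht]; linarith [h3.1]
    · rw [le_sub_iff_add_le, le_div_iff₀ ht]; linarith [h3.2]
  have hc := Finset.card_le_card hsub
  rw [Finset.card_product] at hc
  have hu : ∀ z : ℝ, (z - 2 * R) / t - 1 / 2 ≤ (z + 2 * R) / t - 1 / 2 := fun z => by
    have : (z - 2 * R) / t ≤ (z + 2 * R) / t := div_le_div_of_nonneg_right (by linarith) ht.le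
    linarith
  have e : ∀ z : ℝ, (z + 2 * R) / t - 1 / 2 - ((z - 2 * R) / t - 1 / 2) + 1 = 4 * (R / t) + 1 := fun z => by field_simp; ring
  have c1 := pvb_Icc_card_le (hu x.re)
  have c2 := pvb_Icc_card_le (hu x.im)
  rw [e] at c1 c2
  have h1 : 1 ≤ R / t := by rw [le_div_iff₀ ht]; linarith
  have hc' : (B.card : ℝ) ≤ ((Finset.Icc ⌈(x.re - 2 * R) / t - 1 / 2⌉ ⌊(x.re + 2 * R) / t - 1 / 2⌋).card : ℝ) * ((Finset.Icc ⌈(x.im - 2 * R) / t - 1 / 2⌉ ⌊(x.im + 2 * R) / t - 1 / 2⌋).card : ℝ) := by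
    exact_mod_cast hc
  calc (B.card : ℝ) ≤ _ := hc'
    _ ≤ (4 * (R / t) + 1) * (4 * (R / t) + 1) := mul_le_mul c1 c2 (Nat.cast_nonneg _) (by positivity)
    _ ≤ 25 * (R / t) ^ 2 := by nlinarith

/-- **the pointwise form of the near return estimate implies the grid-count form** (field `arm2` of `PvbIn`) -/
theorem pvb_arm2_of_pt {Ω : Type} {Pr : ℕ → PvUp Ω} {rims : ℕ → Ω → Set PvbRim} {x : ℂ} {R c C1 : ℝ} (hC : 0 ≤ C1)
    (h : ∀ (y : ℂ) (s S : ℝ), ‖y - x‖ ≤ 2 * R → 0 < s → s ≤ S → S ≤ R → ∀ᶠ n in atTop,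
      ((Pr n).P {ω | ∃ P ∈ rims n ω, PvbNearRet P y s S}).toReal ≤ C1 * (s / S) ^ (2 + c) * (S / R) ^ c)
    (t s S : ℝ) (B : Finset (ℤ × ℤ)) (ht : 0 < t) (hts : t ≤ s) (hsS : s ≤ S) (hSR : S ≤ R) (hB : ∀ q ∈ B, ‖pvbSqCtr t q - x‖ ≤ 2 * R) : ∀ᶠ n in atTop,
    (Pr n).E (fun ω => ∑ q ∈ B, {ω | ∃ P ∈ rims n ω, PvbNearRet P (pvbSqCtr t q) s S}.indicator (fun _ => (1 : ENNReal)) ω)
      ≤ ENNReal.ofReal (25 * C1 * (R / t) ^ 2 * (s / S) ^ (2 + c) * (S / R) ^ c) := by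
  have hs : 0 < s := lt_of_lt_of_le ht hts
  have hS : 0 < S := lt_of_lt_of_le hs hsS
  have hR : 0 < R := lt_of_lt_of_le hS hSR
  have hp : 0 ≤ C1 * (s / S) ^ (2 + c) * (S / R) ^ c := by positivity
  have hev : ∀ᶠ n in atTop, ∀ q ∈ B, ((Pr n).P {ω | ∃ P ∈ rims n ω, PvbNearRet P (pvbSqCtr t q) s S}).toReal ≤ C1 * (s / S) ^ (2 + c) * (S / R) ^ c := by
    rw [Filter.eventually_all_finset]
    exact fun q hq => h _ s S (hB q hq) hs hsS hSR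
  filter_upwards [hev] with n hn
  have hcard := pvb_grid_card ht ((hts.trans hsS).trans hSR) x B hB
  calc (Pr n).E (fun ω => ∑ q ∈ B, {ω | ∃ P ∈ rims n ω, PvbNearRet P (pvbSqCtr t q) s S}.indicator (fun _ => (1 : ENNReal)) ω)
      ≤ ∑ q ∈ B, (Pr n).P {ω | ∃ P ∈ rims n ω, PvbNearRet P (pvbSqCtr t q) s S} := (Pr n).E_sum_le B _
    _ ≤ ∑ _q ∈ B, ENNReal.ofReal (C1 * (s / S) ^ (2 + c) * (S / R) ^ c) :=
        Finset.sum_le_sum fun q hq => (ENNReal.le_ofReal_iff_toReal_le (PvUp.P_ne_top _ _) hp).2 (hn q hq)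
    _ = ENNReal.ofReal ((B.card : ℝ) * (C1 * (s / S) ^ (2 + c) * (S / R) ^ c)) := by
        rw [Finset.sum_const, nsmul_eq_mul, ENNReal.ofReal_mul (Nat.cast_nonneg _), ENNReal.ofReal_natCast]
    _ ≤ _ := by
        refine ENNReal.ofReal_le_ofReal ?_
        calc (B.card : ℝ) * (C1 * (s / S) ^ (2 + c) * (S / R) ^ c) ≤ (25 * (R / t) ^ 2) * (C1 * (s / S) ^ (2 + c) * (S / R) ^ c) :=
              mul_le_mul_of_nonneg_right hcard hp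
          _ = _ := by ring

/-- the same with any constant `C ≥ 25 max(C1, 0)` (no sign condition on `C1`) -/
theorem pvb_arm2_of_pt_le {Ω : Type} {Pr : ℕ → PvUp Ω} {rims : ℕ → Ω → Set PvbRim} {x : ℂ} {R c C1 C : ℝ} (hC : 25 * max C1 0 ≤ C)
    (h : ∀ (y : ℂ) (s S : ℝ), ‖y - x‖ ≤ 2 * R → 0 < s → s ≤ S → S ≤ R → ∀ᶠ n in atTop,
      ((Pr n).P {ω | ∃ P ∈ rims n ω, PvbNearRet P y s S}).toReal ≤ C1 * (s / S) ^ (2 + c) * (S / R) ^ c)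
    (t s S : ℝ) (B : Finset (ℤ × ℤ)) (ht : 0 < t) (hts : t ≤ s) (hsS : s ≤ S) (hSR : S ≤ R) (hB : ∀ q ∈ B, ‖pvbSqCtr t q - x‖ ≤ 2 * R) : ∀ᶠ n in atTop,
    (Pr n).E (fun ω => ∑ q ∈ B, {ω | ∃ P ∈ rims n ω, PvbNearRet P (pvbSqCtr t q) s S}.indicator (fun _ => (1 : ENNReal)) ω)
      ≤ ENNReal.ofReal (C * (R / t) ^ 2 * (s / S) ^ (2 + c) * (S / R) ^ c) := by
  have hs : 0 < s := lt_of_lt_of_le ht hts
  have hS : 0 < S := lt_of_lt_of_le hs hsS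
  have hR : 0 < R := lt_of_lt_of_le hS hSR
  have h' : ∀ (y : ℂ) (s S : ℝ), ‖y - x‖ ≤ 2 * R → 0 < s → s ≤ S → S ≤ R → ∀ᶠ n in atTop,
      ((Pr n).P {ω | ∃ P ∈ rims n ω, PvbNearRet P y s S}).toReal ≤ max C1 0 * (s / S) ^ (2 + c) * (S / R) ^ c := by
    intro y s S hy hs hsS hSR
    have hS : 0 < S := lt_of_lt_of_le hs hsS
    filter_upwards [h y s S hy hs hsS hSR] with n hn
    have e1 : 0 ≤ (s / S) ^ (2 + c) := by positivity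
    have e2 : 0 ≤ (S / R) ^ c := by positivity
    exact hn.trans (mul_le_mul_of_nonneg_right (mul_le_mul_of_nonneg_right (le_max_left _ _) e1) e2)
  filter_upwards [pvb_arm2_of_pt (le_max_right C1 0) h' t s S B ht hts hsS hSR hB] with n hn
  refine hn.trans (ENNReal.ofReal_le_ofReal ?_)
  have e0 : 0 ≤ (R / t) ^ 2 := by positivity
  have e1 : 0 ≤ (s / S) ^ (2 + c) := by positivity
  have e2 : 0 ≤ (S / R) ^ c := by positivity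
  exact mul_le_mul_of_nonneg_right (mul_le_mul_of_nonneg_right (mul_le_mul_of_nonneg_right hC e0) e1) e2

/-! ## I. the estimate at fixed `m` -/

section main

variable {τ : Type} [Fintype τ] {Ω : Type} {𝔐 : PvbMenu τ} {x : ℂ} {R Cf : ℝ} {f : ℂ → ℂ}
    {ℙ : ℕ → PvUp Ω} {rims : ℕ → Ω → Set PvbRim} {a : ℕ → ℂ}

/-- final arithmetic at fixed `m` -/
theorem pvb_num_tot {Cf r eA Aa KL G ρ ErrH A1 A2 S : ℝ} (hCf : 0 ≤ Cf) (hr : 0 ≤ r) (hAa : 0 ≤ Aa) (hKL : 0 ≤ KL) (hG : 0 ≤ G) (hρ0 : 0 < ρ) (hρ1 : ρ < 1)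
    (heA : eA ≤ A1 * ErrH + A2 * G) (hS : S ≤ 7 * Cf * r * (KL * G * (1 - ρ)⁻¹)) :
    7 * Cf * r * eA + (1 + Aa) * S ≤ 7 * Cf * A1 * (r * ErrH) + 7 * Cf * (A2 + (1 + Aa) * KL * (1 - ρ)⁻¹) * (r * G) := by
  have h1 : 7 * Cf * r * eA ≤ 7 * Cf * r * (A1 * ErrH + A2 * G) := mul_le_mul_of_nonneg_left heA (by positivity)
  have h2 : (1 + Aa) * S ≤ (1 + Aa) * (7 * Cf * r * (KL * G * (1 - ρ)⁻¹)) := mul_le_mul_of_nonneg_left hS (by positivity)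
  calc _ ≤ 7 * Cf * r * (A1 * ErrH + A2 * G) + (1 + Aa) * (7 * Cf * r * (KL * G * (1 - ρ)⁻¹)) := add_le_add h1 h2
    _ = _ := by ring

theorem pvb_fixed_m [Nonempty τ] (I : PvbIn 𝔐 x R Cf f ℙ rims a) :
    ∃ KA KB K9 : ℝ, 0 ≤ K9 ∧ ∀ m, (4 * 𝔐.L * I.h m ≤ I.r m ∧ 100 * I.r m ≤ R) → ∀ J : ℕ, ∀ ξ : ℝ, 0 < ξ → ∀ᶠ n in atTop,
      ((ℙ n).P {ω | ∃ P ∈ rims n ω, ξ < ‖P.fld P.xQ f - a m * P.fld P.xV f‖}).toReal
        ≤ ((ℙ n).P {ω | ¬ ∀ P ∈ rims n ω, PvbGoodAt 𝔐 x R (I.h m) (I.r m) (pvbSide (I.h m) J / 10) (I.Gr m) (a m) (I.Err m) P (I.pins m n ω P) (I.β m n ω P)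
            (I.Ψ m n ω) (fun g => I.W false n g ω) (fun g => I.W true n g ω)}).toReal
          + K9 * I.h m ^ (-2 + I.c) * ((1 / 2 : ℝ) ^ (I.c / 2)) ^ (2 * J)
          + (KA * (I.r m * I.Err m * I.h m ^ (-2 + I.c)) + KB * (I.r m * I.h m ^ (-1 + I.c / 2))) / ξ := by
  classical
  have hR := I.R0
  have c0 := I.c0
  obtain ⟨hρ0, hρ1, -⟩ := pvb_num_rho c0
  obtain ⟨ρ, hρdef⟩ : ∃ ρ : ℝ, ρ = (1 / 2 : ℝ) ^ (I.c / 2) := ⟨_, rfl⟩
  rw [← hρdef] at hρ0 hρ1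
  have hAa : 0 ≤ I.Aa := (norm_nonneg _).trans (I.a_le 0)
  have hCf : 0 < Cf + 1 := by have := I.test.Cf0; linarith
  have hf : PvbTest x R (Cf + 1) f := I.test.mono (by linarith)
  obtain ⟨K2, hK2⟩ : ∃ K2 : ℝ, K2 = |I.CG| * |I.C1| * (2 / R) ^ I.c := ⟨_, rfl⟩
  obtain ⟨K9, hK9⟩ : ∃ K9 : ℝ, K9 = R ^ 2 * |I.C1| * (90 / R) ^ I.c := ⟨_, rfl⟩
  have hK20 : 0 ≤ K2 := by rw [hK2]; positivity
  have hK90 : 0 ≤ K9 := by rw [hK9]; positivity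
  obtain ⟨KL, hKL⟩ : ∃ KL : ℝ, KL = 4 * (I.Kp : ℝ) * (K2 + K9 / ρ ^ 2) + 2 * |I.CB| := ⟨_, rfl⟩
  have hKL0 : 0 ≤ KL := by rw [hKL]; positivity
  refine ⟨7 * (Cf + 1) * (|I.CG| * |I.C1| * (1 / R) ^ I.c),
    7 * (Cf + 1) * (|I.CG| * (Fintype.card τ : ℝ) * (|I.C1| * (1 / R) ^ I.c + |I.CΨ|) + (1 + I.Aa) * KL * (1 - ρ)⁻¹), K9, hK90, fun m hpar J ξ hξ => ?_⟩
  rw [← hρdef]
  obtain ⟨h, hh⟩ : ∃ h : ℝ, h = I.h m := ⟨_, rfl⟩
  obtain ⟨r, hr⟩ : ∃ r : ℝ, r = I.r m := ⟨_, rfl⟩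
  obtain ⟨mu, hmu⟩ : ∃ mu : ℝ, mu = pvbSide h J / 10 := ⟨_, rfl⟩
  have hGrc := I.Gr_card m
  have hBoxc := I.Box_card m
  have hcov := I.Box_cov m
  have hBin := I.Box_in m
  have hpat := I.pat_card m
  have hΨL := I.Ψ_L2 m
  rw [← hh, ← hr] at hpar
  rw [← hh] at hGrc hBoxc hcov hBin hpat hΨL
  simp only [← hh, ← hr, ← hmu]
  have h0 : 0 < h := hh ▸ I.h0 m
  have hsJ := pvb_side_pos h0 J
  have hmu0 : 0 < mu := by rw [hmu]; positivity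
  have hmuJ : mu ≤ pvbSide h J := by rw [hmu]; linarith
  have par : PvbPar 𝔐 R h r mu := ⟨hmu0.le, by have := pvb_side_le h0 J; rw [hmu]; linarith, h0, hpar.1, hpar.2⟩
  obtain ⟨t0⟩ := ‹Nonempty τ›
  have : Nonempty τ := ⟨t0⟩
  obtain ⟨hL, hhr, hr0, -, -⟩ := par.nums t0
  have hGrc' : ((I.Gr m).card : ℝ) ≤ |I.CG| * h ^ (-2 : ℝ) := hGrc.trans (mul_le_mul_of_nonneg_right (le_abs_self _) (by positivity))
  have hBoxc' : ((I.Box m).card : ℝ) ≤ |I.CG| * h ^ (-2 : ℝ) := hBoxc.trans (mul_le_mul_of_nonneg_right (le_abs_self _) (by positivity))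
  -- the facts which hold for large `n`
  have F1 : ∀ᶠ n in atTop, ∀ g ∈ I.Gr m, ‖g - x‖ ≤ 3 * R / 2 → ((ℙ n).P {ω | ∃ P ∈ rims n ω, PvbVisits P g h}).toReal ≤ |I.C1| * (1 * h / R) ^ I.c := by
    rw [Filter.eventually_all_finset]
    intro g _
    by_cases hg : ‖g - x‖ ≤ 3 * R / 2
    · filter_upwards [I.arm1 g h (by linarith) h0] with n hn _
      rw [one_mul]
      exact hn.trans (mul_le_mul_of_nonneg_right (le_abs_self _) (by positivity))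
    · exact Eventually.of_forall fun n h' => absurd h' hg
  have F2 : ∀ᶠ n in atTop, ∀ g ∈ I.Gr m, ∀ t, (ℙ n).E (fun ω => ENNReal.ofReal (‖I.Ψ m n ω g t‖ ^ 2)) ≤ ENNReal.ofReal (|I.CΨ| * h ^ 2) := by
    rw [Filter.eventually_all_finset]
    intro g hg
    rw [Filter.eventually_all]
    intro t
    filter_upwards [hΨL g hg t] with n hn
    exact hn.trans (ENNReal.ofReal_le_ofReal (mul_le_mul_of_nonneg_right (le_abs_self _) (by positivity)))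
  have F3 : ∀ᶠ n in atTop, ∀ q ∈ I.Box m, ((ℙ n).P {ω | ∃ P ∈ rims n ω, PvbVisits P (pvbSqCtr h q) (2 * h)}).toReal ≤ |I.C1| * (2 * h / R) ^ I.c := by
    rw [Filter.eventually_all_finset]
    intro q hq
    have hq2 : ‖pvbSqCtr h q - x‖ ≤ 2 * R := hBin _ (by rw [pvb_sq_ctr_idx h0]; exact hq)
    filter_upwards [I.arm1 (pvbSqCtr h q) (2 * h) hq2 (by positivity)] with n hn
    exact hn.trans (mul_le_mul_of_nonneg_right (le_abs_self _) (by positivity))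
  have F4 : ∀ᶠ n in atTop, ∀ i ∈ range (J + 1), (ℙ n).E (fun ω => ∑ q ∈ pvbBox (I.Box m) i,
      {ω | ∃ P ∈ rims n ω, PvbNearRet P (pvbSqCtr (pvbSide h i) q) (pvbSide h i + mu) (90 * h)}.indicator (fun _ => (1 : ENNReal)) ω)
        ≤ ENNReal.ofReal ((R / pvbSide h i) ^ 2 * (|I.C1| * ((pvbSide h i + mu) / (90 * h)) ^ (2 + I.c) * (90 * h / R) ^ I.c)) := by
    rw [Filter.eventually_all_finset]
    intro i hi
    have hs := pvb_side_pos h0 i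
    have hs1 := pvb_side_le h0 i
    have hs2 := pvb_side_le h0 J
    have hs3 := pvb_side_anti h0 (Nat.lt_succ_iff.1 (Finset.mem_range.1 hi))
    have hq2 : ∀ q ∈ pvbBox (I.Box m) i, ‖pvbSqCtr (pvbSide h i) q - x‖ ≤ 2 * R := fun q hq =>
      hBin _ (pvb_box_anc h0 _ i (by rw [pvb_sq_ctr_idx hs]; exact hq))
    filter_upwards [I.arm2 (pvbSide h i) (pvbSide h i + mu) (90 * h) (pvbBox (I.Box m) i) hs (by linarith) (by linarith) (by linarith) (by linarith [hpar.2]) hq2] with n hn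
    refine hn.trans (ENNReal.ofReal_le_ofReal ?_)
    have p1 : 0 ≤ ((pvbSide h i + mu) / (90 * h)) ^ (2 + I.c) := by positivity
    have p2 : 0 ≤ (90 * h / R) ^ I.c := by positivity
    have p3 : 0 ≤ (R / pvbSide h i) ^ 2 := by positivity
    calc I.C1 * (R / pvbSide h i) ^ 2 * ((pvbSide h i + mu) / (90 * h)) ^ (2 + I.c) * (90 * h / R) ^ I.c
        = I.C1 * ((R / pvbSide h i) ^ 2 * ((pvbSide h i + mu) / (90 * h)) ^ (2 + I.c) * (90 * h / R) ^ I.c) := by ring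
      _ ≤ |I.C1| * ((R / pvbSide h i) ^ 2 * ((pvbSide h i + mu) / (90 * h)) ^ (2 + I.c) * (90 * h / R) ^ I.c) :=
          mul_le_mul_of_nonneg_right (le_abs_self _) (by positivity)
      _ = _ := by ring
  have F5 : ∀ᶠ n in atTop, ∀ X : Bool, ∀ j ∈ range (J + 1),
      ((ℙ n).E (fun ω => ∑ D ∈ pvbAtoms (τ := τ) (I.Gr m) (I.Box m) j, ENNReal.ofReal (I.W X n (pvbG1 𝔐 x R h (I.Gr m) j D) ω)) ≤ ENNReal.ofReal |I.CB|) ∧
      ((ℙ n).E (fun ω => ∑ D ∈ pvbAtoms (τ := τ) (I.Gr m) (I.Box m) j, ENNReal.ofReal (I.W X n (pvbG2 𝔐 x R h (I.Gr m) f (Cf + 1) j D) ω)) ≤ ENNReal.ofReal |I.CB|) := by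
    rw [Filter.eventually_all]
    intro X
    rw [Filter.eventually_all_finset]
    intro j _
    have a1 := I.W_bes X _ (pvbAtoms (τ := τ) (I.Gr m) (I.Box m) j) (fun D => pvbG1 𝔐 x R h (I.Gr m) j D) 1
      (fun D _ => pvb_G1_meas 𝔐 x R h (I.Gr m) j D) (pvb_G1_sq 𝔐 x R h (I.Gr m) (I.Box m) j) (fun D _ => pvb_G1_supp 𝔐 x R h (I.Gr m) j hR D)
    have a2 := I.W_bes X _ (pvbAtoms (τ := τ) (I.Gr m) (I.Box m) j) (fun D => pvbG2 𝔐 x R h (I.Gr m) f (Cf + 1) j D) 1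
      (fun D _ => pvb_G2_meas 𝔐 x R h (I.Gr m) f (Cf + 1) j hf.cont.measurable D) (pvb_G2_sq 𝔐 (I.Gr m) (I.Box m) j h0 hCf hf)
      (fun D _ => pvb_G2_supp 𝔐 x R h (I.Gr m) f (Cf + 1) j hR D)
    filter_upwards [a1, a2] with n b1 b2
    have e : I.CB * 1 ^ 2 ≤ |I.CB| := by rw [one_pow, mul_one]; exact le_abs_self _
    exact ⟨b1.trans (ENNReal.ofReal_le_ofReal e), b2.trans (ENNReal.ofReal_le_ofReal e)⟩
  filter_upwards [F1, F2, F3, F4, F5] with n f1 f2 f3 f4 f5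
  obtain ⟨lamA, hlamA⟩ : ∃ lamA : ℝ, lamA = h ^ (1 - I.c / 2) := ⟨_, rfl⟩
  have hlamA0 : 0 < lamA := by rw [hlamA]; positivity
  obtain ⟨e1, e2, e3, e4⟩ := pvb_num_pow h0 I.c
  -- the probabilities of the levels
  set pj : ℕ → ℝ := fun j => if j = 0 then |I.C1| * (2 * h / R) ^ I.c
    else |I.C1| * ((pvbSide h (j - 1) + mu) / (90 * h)) ^ (2 + I.c) * (90 * h / R) ^ I.c with hpj
  have hpj0 : ∀ j, 0 ≤ pj j := fun j => by
    have := pvb_side_pos h0 (j - 1)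
    simp only [hpj]; split_ifs <;> positivity
  have hagg := pvb_agg_E (μP := ℙ n) (rims n) x R h (I.Gr m) (I.Ψ m n) (I.Err0 m) hlamA0
    (p1 := |I.C1| * (1 * h / R) ^ I.c) (e2 := |I.CΨ| * h ^ 2) (by positivity) (by positivity) f1 f2
  set Nj : ℕ → ℝ := fun j => if j = 0 then ((I.Box m).card : ℝ) else (R / pvbSide h (j - 1)) ^ 2 with hNj
  have hNj0 : ∀ j, 0 ≤ Nj j := fun j => by
    simp only [hNj]; split_ifs <;> positivity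
  have hcnt : ∀ j ≤ J, ∃ Y : Ω → ℝ, PvbE (ℙ n) Y (4 * (I.Kp : ℝ) * (Nj j * pj j)) ∧
      ∀ ω, ∀ P ∈ rims n ω, pvbCnt h mu (I.Box m) I.Kp P j ≤ Y ω := by
    intro j hj
    refine pvb_cnt_E (μP := ℙ n) (rims n) h mu (I.Box m) I.Kp j (hpj0 j) (hNj0 j) (fun hj0 => ⟨?_, fun q hq => ?_⟩) (fun hj0 => ?_)
    · simp only [hNj, if_pos hj0]; exact le_rfl
    · simp only [hpj, if_pos hj0]; exact f3 q hq
    · simp only [hpj, hNj, if_neg hj0]; exact f4 (j - 1) (Finset.mem_range.2 (by omega))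
  have hbes : ∀ X : Bool, ∀ j ≤ J, ∃ Y : Ω → ℝ, PvbE (ℙ n) Y (|I.CB| + |I.CB|) ∧ ∀ ω, ∀ (P : PvbRim) (xx : ℕ → ℂ), (∀ g, ‖P.fld xx g‖ ^ 2 ≤ I.W X n g ω) →
      pvbBes 𝔐 x R h (I.Gr m) (I.Box m) f (Cf + 1) P xx j ≤ Y ω := fun X j hj =>
    pvb_bes_E 𝔐 x R h (I.Gr m) (I.Box m) f (Cf + 1) j (I.W X n) (I.W_nn X n) (abs_nonneg _)
      (f5 X j (Finset.mem_range.2 (by omega))).1 (f5 X j (Finset.mem_range.2 (by omega))).2
  have hJ := pvb_union_E' (μP := ℙ n) (rims n) (pvbBox (I.Box m) J) (fun p P => PvbNearRet P (pvbSqCtr (pvbSide h J) p) (pvbSide h J + mu) (90 * h))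
    (by positivity) (f4 J (Finset.mem_range.2 (by omega)))
  have hfix := pvb_fixed (μP := ℙ n) (rims n) par hCf hf (I.Gr m) (I.Box m) I.Kp hcov hpat (I.a_le m) (I.Err0 m) (I.pins m n) (I.β m n) (I.Ψ m n)
    (I.W false n) (I.W true n) J (fun j => lamA / ρ ^ j) (fun j _ => by positivity) _ (fun _ => |I.CB| + |I.CB|) hagg hcnt (hbes false) (hbes true) hJ hξ
  refine hfix.trans ?_
  -- numerics
  have hbc : ∀ i, (R / pvbSide h i) ^ 2 ≤ 4 ^ i * (R ^ 2 * h ^ (-2 : ℝ)) := fun i => le_of_eq (by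
    have e5 : h ^ (-2 : ℝ) = (h ^ 2)⁻¹ := by
      rw [Real.rpow_neg h0.le, ← Real.rpow_natCast h 2]; norm_num
    have e6 : (4 : ℝ) ^ i = (2 ^ i) ^ 2 := by rw [← pow_mul, mul_comm, pow_mul]; norm_num
    unfold pvbSide
    rw [e5, e6]
    field_simp)
  have n1 : (R / pvbSide h J) ^ 2 * (|I.C1| * ((pvbSide h J + mu) / (90 * h)) ^ (2 + I.c) * (90 * h / R) ^ I.c) ≤ K9 * h ^ (-2 + I.c) * ρ ^ (2 * J) := by
    rw [hK9, hρdef]
    exact pvb_num_nr h0 hR c0 (abs_nonneg _) (by positivity) J hmu0.le hmuJ (hbc J)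
  have n2 := pvb_num_A (c := I.c) (C1 := |I.C1|) (CG := |I.CG|) (CΨ := |I.CΨ|) (Err := I.Err m) (T := (Fintype.card τ : ℝ)) h0 hR (abs_nonneg _) (abs_nonneg _)
    (I.Err0 m) (Nat.cast_nonneg _) hGrc'
  rw [← hlamA] at n2
  have hGH : lamA * h ^ (-2 + I.c) = h ^ (-1 + I.c / 2) := by rw [hlamA, ← e1]; exact e2
  have hG2 : lamA⁻¹ = h ^ (-1 + I.c / 2) := by rw [hlamA]; exact e3
  have n3 : ∀ j ∈ range (J + 1), 7 * (Cf + 1) * r * (lamA / ρ ^ j * (4 * (I.Kp : ℝ) * (Nj j * pj j)) + (lamA / ρ ^ j)⁻¹ * (|I.CB| + |I.CB|))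
      ≤ 7 * (Cf + 1) * r * (KL * h ^ (-1 + I.c / 2) * ρ ^ j) := by
    intro j hj
    have hjJ : j ≤ J := Nat.lt_succ_iff.1 (Finset.mem_range.1 hj)
    refine mul_le_mul_of_nonneg_left ?_ (by positivity)
    rw [hKL]
    refine pvb_num_level hρ0 hlamA0 hGH hG2 (Nat.cast_nonneg _) hK20 hK90 j (fun hj0 => ?_) (fun i hi => ?_)
    · subst hj0
      refine mul_le_mul_of_nonneg_left ?_ (by positivity)
      simp only [hpj, hNj, if_true]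
      rw [pvb_num_scale (by norm_num) h0 hR, hK2, ← e1]
      calc ((I.Box m).card : ℝ) * (|I.C1| * ((2 / R) ^ I.c * h ^ I.c)) ≤ (|I.CG| * h ^ (-2 : ℝ)) * (|I.C1| * ((2 / R) ^ I.c * h ^ I.c)) :=
            mul_le_mul_of_nonneg_right hBoxc' (by positivity)
        _ = _ := by ring
    · subst hi
      refine mul_le_mul_of_nonneg_left ?_ (by positivity)
      simp only [hpj, hNj, if_neg (Nat.succ_ne_zero i), Nat.add_sub_cancel]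
      rw [hK9, hρdef]
      exact pvb_num_nr h0 hR c0 (abs_nonneg _) (by positivity) i hmu0.le (hmuJ.trans (pvb_side_anti h0 (by omega))) (hbc i)
  have n4 : ∑ j ∈ range (J + 1), 7 * (Cf + 1) * r * (lamA / ρ ^ j * (4 * (I.Kp : ℝ) * (Nj j * pj j)) + (lamA / ρ ^ j)⁻¹ * (|I.CB| + |I.CB|))
      ≤ 7 * (Cf + 1) * r * (KL * h ^ (-1 + I.c / 2) * (1 - ρ)⁻¹) := by
    refine (Finset.sum_le_sum n3).trans ?_
    rw [← Finset.mul_sum, ← Finset.mul_sum]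
    have := pvb_num_geom hρ0 hρ1 (J + 1)
    gcongr
  have n5 := pvb_num_tot (Cf := Cf + 1) (r := r) (Aa := I.Aa) (KL := KL) (G := h ^ (-1 + I.c / 2)) (ρ := ρ) (ErrH := I.Err m * h ^ (-2 + I.c))
    hCf.le hr0.le hAa hKL0 (by positivity) hρ0 hρ1 n2 n4
  have n6 : r * (I.Err m * h ^ (-2 + I.c)) = r * I.Err m * h ^ (-2 + I.c) := by ring
  rw [n6] at n5
  have n7 := div_le_div_of_nonneg_right n5 hξ.le
  linarith

end main

/-! ## J. the ordered transport; bulk transport for one patch and one test -/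

section main

variable {τ : Type} [Fintype τ] {Ω : Type} {𝔐 : PvbMenu τ} {x : ℂ} {R Cf : ℝ} {f : ℂ → ℂ}
    {ℙ : ℕ → PvUp Ω} {rims : ℕ → Ω → Set PvbRim} {a : ℕ → ℂ}

/-- **(6.ordered-transport)** -/
theorem pvb_ordered [Nonempty τ] (I : PvbIn 𝔐 x R Cf f ℙ rims a) (ξ : ℝ) (hξ : 0 < ξ) :
    PvbOrd (fun m n => ((ℙ n).P {ω | ∃ P ∈ rims n ω, ξ < ‖P.fld P.xQ f - a m * P.fld P.xV f‖}).toReal) := by
  obtain ⟨KA, KB, K9, hK9, H⟩ := pvb_fixed_m I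
  obtain ⟨hρ0, hρ1, -⟩ := pvb_num_rho I.c0
  -- the depth of the refinement
  have hJex : ∀ m : ℕ, ∃ J : ℕ, K9 * I.h m ^ (-2 + I.c) * ((1 / 2 : ℝ) ^ (I.c / 2)) ^ (2 * J) ≤ 1 / ((m : ℝ) + 1) := by
    intro m
    have hH : 0 ≤ K9 * I.h m ^ (-2 + I.c) := by have := I.h0 m; positivity
    have hy : 0 < 1 / (((m : ℝ) + 1) * (K9 * I.h m ^ (-2 + I.c) + 1)) := by positivity
    have hρ2 : ((1 / 2 : ℝ) ^ (I.c / 2)) ^ 2 < 1 := pow_lt_one₀ hρ0.le hρ1 two_ne_zero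
    obtain ⟨J, hJ⟩ := exists_pow_lt_of_lt_one hy hρ2
    refine ⟨J, ?_⟩
    rw [pow_mul]
    calc K9 * I.h m ^ (-2 + I.c) * (((1 / 2 : ℝ) ^ (I.c / 2)) ^ 2) ^ J
        ≤ K9 * I.h m ^ (-2 + I.c) * (1 / (((m : ℝ) + 1) * (K9 * I.h m ^ (-2 + I.c) + 1))) := mul_le_mul_of_nonneg_left hJ.le hH
      _ ≤ 1 / ((m : ℝ) + 1) := by
          rw [mul_one_div, div_le_div_iff₀ (by positivity) (by positivity)]
          have : (0 : ℝ) ≤ (m : ℝ) + 1 := by positivity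
          nlinarith
  choose J hJ using hJex
  have hmu : ∀ m, 0 < pvbSide (I.h m) (J m) / 10 := fun m => by have := pvb_side_pos (I.h0 m) (J m); positivity
  have hgood := I.good (fun m => pvbSide (I.h m) (J m) / 10) hmu
  have hb : Tendsto (fun m : ℕ => 1 / ((m : ℝ) + 1) + (KA * (I.r m * I.Err m * I.h m ^ (-2 + I.c)) + KB * (I.r m * I.h m ^ (-1 + I.c / 2))) / ξ) atTop (𝓝 0) := by
    have t1 : Tendsto (fun m : ℕ => 1 / ((m : ℝ) + 1)) atTop (𝓝 0) := tendsto_one_div_add_atTop_nhds_zero_nat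
    have t2 := ((I.lim1.const_mul KA).add (I.lim2.const_mul KB)).div_const ξ
    have t3 := t1.add t2
    simpa using t3
  refine (hgood.add (PvbOrd.of_tendsto hb)).mono ?_
  filter_upwards [I.par] with m hpar
  filter_upwards [H m hpar (J m) ξ hξ] with n hn
  have := hJ m
  linarith

theorem PvbTest.bdd {x : ℂ} {R Cf : ℝ} {f : ℂ → ℂ} (hf : PvbTest x R Cf f) (hR : 0 < R) (w : ℂ) : ‖f w‖ ≤ 2 * Cf * R := by
  have hC := hf.Cf0
  by_cases hw : R ≤ ‖w - x‖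
  · rw [hf.supp w hw, norm_zero]; positivity
  · rw [not_le] at hw
    have h1 : f (x + (R : ℂ)) = 0 := hf.supp _ (by simp [abs_of_pos hR])
    have h2 := hf.lip w (x + (R : ℂ))
    rw [h1, sub_zero] at h2
    have h3 : ‖w - (x + (R : ℂ))‖ ≤ ‖w - x‖ + R := by
      have : w - (x + (R : ℂ)) = (w - x) - (R : ℂ) := by ring
      rw [this]
      refine (norm_sub_le _ _).trans ?_
      simp [abs_of_pos hR]
    have h4 : Cf * ‖w - (x + (R : ℂ))‖ ≤ Cf * (2 * R) := mul_le_mul_of_nonneg_left (by linarith) hC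
    linarith

/-- **Theorem 3.1 (bulk transport) for one patch and one test**, given the limit `a∞` of the scalars `a_h^Q` (the subsequence of `h` is chosen once, upstream) -/
theorem pvb_transport [Nonempty τ] (I : PvbIn 𝔐 x R Cf f ℙ rims a) (ainf : ℂ) (ha : Tendsto a atTop (𝓝 ainf)) (ξ : ℝ) (hξ : 0 < ξ) :
    Tendsto (fun n => ((ℙ n).P {ω | ∃ P ∈ rims n ω, ξ < ‖P.fld P.xQ f - ainf * P.fld P.xV f‖}).toReal) atTop (𝓝 0) := by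
  have hR := I.R0
  rw [tendsto_order]
  refine ⟨fun b hb => Eventually.of_forall fun n => lt_of_lt_of_le hb ENNReal.toReal_nonneg, fun η hη => ?_⟩
  have o1 := pvb_ordered I (ξ / 2) (by positivity) (η / 4) (by positivity)
  have o2 := I.good (fun _ => 1) (fun _ => one_pos) (η / 4) (by positivity)
  -- the Bessel bound of `V(f)`
  obtain ⟨B, hB⟩ : ∃ B : ℝ, B = |I.CB| * (2 * Cf * R) ^ 2 := ⟨_, rfl⟩
  have hB0 : 0 ≤ B := by rw [hB]; positivity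
  have hW := I.W_bes true Unit Finset.univ (fun _ => f) (2 * Cf * R) (fun _ _ => I.test.cont.measurable)
    (fun w => by
      simp only [Finset.univ_unique, Finset.sum_singleton]
      exact pow_le_pow_left₀ (norm_nonneg _) (I.test.bdd hR w) 2)
    (fun _ _ w hw => I.test.supp w (by linarith))
  have o3 : ∀ᶠ m in atTop, ‖a m - ainf‖ ^ 2 * B / (ξ / 2) ^ 2 < η / 4 := by
    have t1 : Tendsto (fun m => ‖a m - ainf‖ ^ 2 * B / (ξ / 2) ^ 2) atTop (𝓝 (0 ^ 2 * B / (ξ / 2) ^ 2)) :=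
      (((tendsto_iff_norm_sub_tendsto_zero.1 ha).pow 2).mul_const B).div_const _
    have e : (0 : ℝ) ^ 2 * B / (ξ / 2) ^ 2 = 0 := by simp
    rw [e] at t1
    exact t1.eventually (gt_mem_nhds (by positivity))
  obtain ⟨m, m1, m2, m3⟩ := (o1.and (o2.and o3)).exists
  filter_upwards [m1, m2, hW] with n n1 n2 n3
  simp only [Finset.univ_unique, Finset.sum_singleton] at n3
  have EW : PvbE (ℙ n) (fun ω => ‖a m - ainf‖ ^ 2 * I.W true n f ω) (‖a m - ainf‖ ^ 2 * B) :=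
    PvbE.smul ⟨I.W_nn true n f, hB0,
      n3.trans (ENNReal.ofReal_le_ofReal (by rw [hB]; exact mul_le_mul_of_nonneg_right (le_abs_self _) (by positivity)))⟩ (by positivity)
  have hM := EW.markov (ξ := (ξ / 2) ^ 2) (by positivity)
  have hsub : {ω | ∃ P ∈ rims n ω, ξ < ‖P.fld P.xQ f - ainf * P.fld P.xV f‖} ⊆
      ({ω | ∃ P ∈ rims n ω, ξ / 2 < ‖P.fld P.xQ f - a m * P.fld P.xV f‖} ∪
        {ω | ¬ ∀ P ∈ rims n ω, PvbGoodAt 𝔐 x R (I.h m) (I.r m) 1 (I.Gr m) (a m) (I.Err m) P (I.pins m n ω P) (I.β m n ω P)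
            (I.Ψ m n ω) (fun g => I.W false n g ω) (fun g => I.W true n g ω)}) ∪
      {ω | (ξ / 2) ^ 2 < ‖a m - ainf‖ ^ 2 * I.W true n f ω} := by
    rintro ω ⟨P, hP, hlt⟩
    by_cases h1 : ξ / 2 < ‖P.fld P.xQ f - a m * P.fld P.xV f‖
    · exact Or.inl (Or.inl ⟨P, hP, h1⟩)
    by_cases hg : ∀ P ∈ rims n ω, PvbGoodAt 𝔐 x R (I.h m) (I.r m) 1 (I.Gr m) (a m) (I.Err m) P (I.pins m n ω P) (I.β m n ω P)
            (I.Ψ m n ω) (fun g => I.W false n g ω) (fun g => I.W true n g ω)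
    · refine Or.inr ?_
      have hV := (hg P hP).2.2.2.2 f
      rw [not_lt] at h1
      have e : P.fld P.xQ f - ainf * P.fld P.xV f = (P.fld P.xQ f - a m * P.fld P.xV f) + (a m - ainf) * P.fld P.xV f := by ring
      rw [e] at hlt
      have h2 := norm_add_le (P.fld P.xQ f - a m * P.fld P.xV f) ((a m - ainf) * P.fld P.xV f)
      rw [norm_mul] at h2
      have h3 : ξ / 2 < ‖a m - ainf‖ * ‖P.fld P.xV f‖ := by linarith
      have h4 : (ξ / 2) ^ 2 < (‖a m - ainf‖ * ‖P.fld P.xV f‖) ^ 2 := pow_lt_pow_left₀ h3 (by positivity) two_ne_zero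
      rw [mul_pow] at h4
      exact lt_of_lt_of_le h4 (mul_le_mul_of_nonneg_left hV (by positivity))
    · exact Or.inl (Or.inr hg)
  have h1 := pvb_P_mono (μ := ℙ n) hsub
  have h2 := pvb_P_union (μ := ℙ n)
      ({ω | ∃ P ∈ rims n ω, ξ / 2 < ‖P.fld P.xQ f - a m * P.fld P.xV f‖} ∪
        {ω | ¬ ∀ P ∈ rims n ω, PvbGoodAt 𝔐 x R (I.h m) (I.r m) 1 (I.Gr m) (a m) (I.Err m) P (I.pins m n ω P) (I.β m n ω P)
            (I.Ψ m n ω) (fun g => I.W false n g ω) (fun g => I.W true n g ω)})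
      {ω | (ξ / 2) ^ 2 < ‖a m - ainf‖ ^ 2 * I.W true n f ω}
  have h3 := pvb_P_union (μ := ℙ n)
      {ω | ∃ P ∈ rims n ω, ξ / 2 < ‖P.fld P.xQ f - a m * P.fld P.xV f‖}
      {ω | ¬ ∀ P ∈ rims n ω, PvbGoodAt 𝔐 x R (I.h m) (I.r m) 1 (I.Gr m) (a m) (I.Err m) P (I.pins m n ω P) (I.β m n ω P)
            (I.Ψ m n ω) (fun g => I.W false n g ω) (fun g => I.W true n g ω)}
  linarith

end main

theorem pvb_main_eqns_cite : True := by
  have := @pvbSqIdx.eq_1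
  have := @pvbSqCtr.eq_1
  have := @pvbKids.eq_1
  have := @pvbBox.eq_1
  have := @pvbBox.eq_2
  have := @pvbSide.eq_1
  have := @pvbCutPat.eq_1
  have := @pvbCnt.eq_1
  have := @PvbAtom.eq_1
  have := @pvbG1.eq_1
  have := @pvbG2.eq_1
  have := @pvbAtoms.eq_1
  have := @pvbBes.eq_1
  have := @pvbT.eq_1
  have := @pvbAt.eq_1
  have := @PvbGoodAt.eq_1
  trivial

end Claimed.Agent.R289
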